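import Vale.Agent.P307.R2.H541.Iso

/-!
Atomic models from bounded atomicity: if for every small cardinal `ν` there is a model over `X` all
of whose subsets of size at most `ν` are isolated over `X` by small sets, then there is an atomic
model over `X`.
-/

universe u

open Set Cardinal Function

namespace Vale.Agent.P307.R2.H541

namespace PG

variable {C : Type u} (M : PG C)

variable {M} {X : Set C}

/-- A model with a filtration by small isolated models embeds into every model. -/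
theorem exists_embed_of_filt {R : ℕ → Set C} (hRm : Monotone R) (hRT : ∀ n, R n ∈ M.T)
    (hRS : (⋃ n, R n) ∈ M.S) (hXR : X ⊆ ⋃ n, R n)
    (hiso : ∀ n, ∃ B ⊆ X, #B < M.χ ∧ M.Isol B X (R n)) {f : C → C} (hf : M.LE f X) {N' : Set C}
    (hN' : N' ∈ M.S) (hfX : ∀ x ∈ X, f x ∈ N') :
    ∃ h ∈ M.G, (∀ x ∈ X, h x = f x) ∧ ∀ n, ∀ a ∈ R n, h a ∈ N' := by
  have step : ∀ n (g : Equiv.Perm C) (D : Set C), g ∈ M.G → #D < M.χ →
      (∀ a ∈ D, g a ∈ N') →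
      (∀ A ⊆ X, #A < M.χ → ∃ h ∈ M.G, (∀ a ∈ A, h a = f a) ∧ ∀ e ∈ D, h e = g e) →
      ∃ g' : Equiv.Perm C, (g' ∈ M.G ∧ (∀ a ∈ R n, g' a ∈ N') ∧
        ∀ A ⊆ X, #A < M.χ → ∃ h ∈ M.G, (∀ a ∈ A, h a = f a) ∧ ∀ e ∈ R n, h e = g' e) ∧
        ∀ a ∈ D, g' a = g a := by
    intro n g D hg hDc hgD hgA
    obtain ⟨B, hBX, hBc, hB⟩ := hiso n
    obtain ⟨h0, hh0, h0B, h0D⟩ := hgA B hBX hBc
    obtain ⟨k, hk, hk1, hk2⟩ := M.sat hN' (A := f '' B ∪ g '' D) (B := h0 '' R n) (by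
      refine union_subset ?_ ?_
      · rintro _ ⟨b, hb, rfl⟩
        exact hfX b (hBX hb)
      · rintro _ ⟨d, hd, rfl⟩
        exact hgD d hd) (small_union (small_image f hBc) (small_image g hDc))
      (small_image h0 (M.T_card (hRT n)))
    refine ⟨k * h0, ⟨M.G.mul_mem hk hh0, fun a ha => hk2 _ (mem_image_of_mem h0 ha), ?_⟩, ?_⟩
    · refine hB.compat hBX hBc hf (M.G.mul_mem hk hh0) fun b hb => ?_
      rw [Equiv.Perm.mul_apply, h0B b hb]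
      exact hk1 _ (Or.inl (mem_image_of_mem f hb))
    · intro a ha
      rw [Equiv.Perm.mul_apply, h0D a ha]
      exact hk1 _ (Or.inr (mem_image_of_mem g ha))
  obtain ⟨g, hg, hgg⟩ := exists_seq (fun n (g : Equiv.Perm C) => g ∈ M.G ∧
      (∀ a ∈ R n, g a ∈ N') ∧
        ∀ A ⊆ X, #A < M.χ → ∃ h ∈ M.G, (∀ a ∈ A, h a = f a) ∧ ∀ e ∈ R n, h e = g e)
    (fun n g g' => ∀ a ∈ R n, g' a = g a) (by
      obtain ⟨g', hg', -⟩ := step 0 1 ∅ M.G.one_mem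
        (small_finite finite_empty) (fun a ha => absurd ha (notMem_empty a)) (by
          intro A hA hAc
          obtain ⟨g, hg, hgf⟩ := hf A hA hAc
          exact ⟨g, hg, hgf, fun a ha => absurd ha (notMem_empty a)⟩)
      exact ⟨g', hg'⟩) (by
      rintro n g ⟨h1, h2, h3⟩
      exact step (n + 1) g (R n) h1 (M.T_card (hRT n)) h2 h3)
  obtain ⟨h, hh, hhg⟩ := M.lim R hRm hRT hRS g (fun n => (hg n).1) hgg
  refine ⟨h, hh, fun x hx => ?_, fun n a ha => ?_⟩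
  · obtain ⟨n, hn⟩ := mem_iUnion.1 (hXR hx)
    obtain ⟨k, -, hk1, hk2⟩ := (hg n).2.2 {x} (singleton_subset_iff.2 hx)
      (small_finite (finite_singleton x))
    rw [hhg n x hn, ← hk2 x hn, hk1 x rfl]
  · rw [hhg n a ha]
    exact (hg n).2.1 a ha

/-- Atomic models from bounded atomicity. -/
theorem exists_atomic_of_dense (M : PG C) {X : Set C} (hX : #X = M.χ) {ℓ : Cardinal.{u}}
    (hℓ : ℓ < M.χ)
    (hT : ∀ g ∈ M.G, ∀ R ∈ M.T, (g : C → C) '' R ∈ M.T)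
    (hls : ∀ N ∈ M.S, ∀ A ⊆ N, #A < M.χ → ∃ R ∈ M.T, A ⊆ R ∧ R ⊆ N ∧ #R ≤ max #A ℓ)
    (hU : ∀ R : ℕ → Set C, Monotone R → (∀ n, R n ∈ M.T) → #(⋃ n, R n : Set C) = M.χ →
      (⋃ n, R n) ∈ M.S)
    (h : ∀ ν < M.χ, ∃ N ∈ M.S, X ⊆ N ∧ ∀ E ⊆ N, #E ≤ ν → ∃ B ⊆ X, #B < M.χ ∧ M.Isol B X E) :
    ∃ N, M.Atomic N X := by
  obtain ⟨Y, hY, hYc, hYX⟩ := M.cof X hX.le
  have hYs : ∀ n, Y n ⊆ X := fun n => by
    rw [← hYX]
    exact subset_iUnion Y n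
  obtain ⟨R, hR, hRR⟩ := exists_seq (fun n (R : Set C) => R ∈ M.T ∧ Y n ⊆ R ∧
      ∃ B ⊆ X, #B < M.χ ∧ M.Isol B X R) (fun _ R R' => R ⊆ R') (by
      obtain ⟨N, hN, hXN, hE⟩ := h (max #(Y 0) ℓ) (max_lt (hYc 0) hℓ)
      obtain ⟨R, h1, h2, h3, h4⟩ := hls N hN (Y 0) ((hYs 0).trans hXN) (hYc 0)
      exact ⟨R, h1, h2, hE R h3 h4⟩) (by
      rintro n R ⟨h1, h2, B, hBX, hBc, hB⟩
      obtain ⟨N, hN, hXN, hE⟩ := h (max (#R + #(Y (n + 1))) ℓ)
        (max_lt (add_lt_of_lt M.hχ (M.T_card h1) (hYc _)) hℓ)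
      obtain ⟨g, hg, hg1, hg2⟩ := M.sat hN (A := B) (B := R) (hBX.trans hXN) hBc (M.T_card h1)
      have hD : g '' R ∪ Y (n + 1) ⊆ N := by
        refine union_subset ?_ ((hYs _).trans hXN)
        rintro _ ⟨a, ha, rfl⟩
        exact hg2 a ha
      have hDc : #(g '' R ∪ Y (n + 1) : Set C) ≤ #R + #(Y (n + 1)) :=
        (mk_union_le _ _).trans (add_le_add mk_image_le le_rfl)
      obtain ⟨R', h3, h4, h5, h6⟩ := hls N hN _ hD
        (hDc.trans_lt (add_lt_of_lt M.hχ (M.T_card h1) (hYc _)))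
      obtain ⟨B', hBX', hBc', hB'⟩ := hE R' h5 (h6.trans (max_le_max hDc le_rfl))
      obtain ⟨k, hk, hk1, hk2⟩ := hB g hg hg1 (B' ∪ Y (n + 1)) (union_subset hBX' (hYs _))
        (small_union hBc' (hYc _))
      refine ⟨(k⁻¹ : Equiv.Perm C) '' R', ⟨hT _ (M.G.inv_mem hk) R' h3, fun y hy => ?_,
        B', hBX', hBc', hB'.smul (M.G.inv_mem hk) fun b hb => fix_inv (hk1 b (Or.inl hb))⟩,
        fun e he => ?_⟩
      · exact ⟨y, h4 (Or.inr hy), fix_inv (hk1 y (Or.inr hy))⟩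
      · refine ⟨g e, h4 (Or.inl (mem_image_of_mem g he)), ?_⟩
        rw [← hk2 e he, inv_ap])
  have hRm : Monotone R := monotone_nat_of_le_succ hRR
  have hXR : X ⊆ ⋃ n, R n := by
    rw [← hYX]
    exact iUnion_mono fun n => (hR n).2.1
  have hRc : #(⋃ n, R n : Set C) = M.χ := by
    refine le_antisymm ?_ (hX ▸ mk_le_mk_of_subset hXR)
    have h1 := mk_iUnion_le_sum_mk_lift (f := R)
    have h2 : (Cardinal.sum fun n => #(R n)) ≤ Cardinal.sum fun _ : ℕ => M.χ :=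
      Cardinal.sum_le_sum _ _ fun n => (M.T_card (hR n).1).le
    rw [Cardinal.sum_const, Cardinal.mk_nat] at h2
    simp only [Cardinal.lift_uzero, Cardinal.lift_aleph0] at h1 h2
    exact (h1.trans h2).trans (aleph0_mul_eq M.hχ).le
  have hRS := hU R hRm (fun n => (hR n).1) hRc
  refine ⟨⋃ n, R n, hRS, hXR, fun E hE hEc => ?_⟩
  obtain ⟨N, hN, hXN, hNE⟩ := h #E hEc
  obtain ⟨k, hk, hk1, hk2⟩ := exists_embed_of_filt hRm (fun n => (hR n).1) hRS hXR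
    (fun n => (hR n).2.2) (f := id) (fun A _ _ => ⟨1, M.G.one_mem, fun a _ => rfl⟩) hN
    (fun x hx => hXN hx)
  obtain ⟨B, hBX, hBc, hB⟩ := hNE (k '' E) (by
    rintro _ ⟨e, he, rfl⟩
    obtain ⟨n, hn⟩ := mem_iUnion.1 (hE he)
    exact hk2 n e hn) mk_image_le
  refine ⟨B, hBX, hBc, ?_⟩
  have h1 := hB.smul (M.G.inv_mem hk) fun b hb => fix_inv (hk1 b (hBX hb))
  have h2 : (k⁻¹ : Equiv.Perm C) '' (k '' E) = E := by
    rw [← image_comp]
    have : ((k⁻¹ : Equiv.Perm C) : C → C) ∘ k = id := by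
      funext a
      exact inv_ap k a
    rw [this, image_id]
  rwa [h2] at h1

end PG

end Vale.Agent.P307.R2.H541
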