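import Vale.Agent.P307.R2.H541.Iso

/-!
Locally consistent types over arbitrary sets of size `θ` are realized in the saturated member, and
homogeneity over arbitrary sets.
-/

set_option linter.unusedSectionVars false

universe u

open Cardinal Set

namespace Vale.Agent.P307.R2.H541

namespace PG

variable {C : Type u} (M : PG C)

/-- Locally consistent types of small sets over arbitrary sets of size `χ` are realized. -/
def Real : Prop := ∀ ν < M.χ, ∃ ν₁ < M.χ, ∃ B < M.χ, ν ≤ ν₁ ∧ ν₁ ≤ B ∧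
  ∀ (X E : Set C) (f : C → C), #X ≤ M.χ → #E ≤ ν →
    (∀ A ⊆ X, #A ≤ B → ∃ e : C → C, ∀ A' ⊆ A, #A' ≤ ν₁ →
      ∃ g ∈ M.G, (∀ a ∈ A', g a = f a) ∧ ∀ x ∈ E, g x = e x) →
    ∃ e : C → C, ∀ A ⊆ X, #A ≤ ν → ∃ g ∈ M.G, (∀ a ∈ A, g a = f a) ∧ ∀ x ∈ E, g x = e x

variable {M}

theorem Real.exists_of_le (hR : M.Real) {X E : Set C} {f : C → C} (hX : #X ≤ M.χ)
    (hf : M.LE f X) {ν : Cardinal.{u}} (hν : ν < M.χ) (hE : #E < M.χ) :
    ∃ e : C → C, ∀ A ⊆ X, #A ≤ ν → ∃ g ∈ M.G, (∀ a ∈ A, g a = f a) ∧ ∀ x ∈ E, g x = e x := by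
  obtain ⟨ν₁, h1, B, h2, h3, h4, h5⟩ := hR (max ν #E) (max_lt hν hE)
  obtain ⟨e, he⟩ := h5 X E f hX (le_max_right _ _) (by
    intro A hA hAB
    obtain ⟨g, hg, hgf⟩ := hf A hA (hAB.trans_lt h2)
    exact ⟨g, fun A' hA' _ => ⟨g, hg, fun a ha => hgf a (hA' ha), fun _ _ => rfl⟩⟩)
  exact ⟨e, fun A hA hAν => he A hA (hAν.trans (le_max_left _ _))⟩

variable (M) in
/-- The types of small sets over `Y` are determined by the pieces of `Y` of a fixed size. -/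
def Tm (Y : Set C) : Prop := ∀ σ < M.χ, ∃ H < M.χ, ∀ E : Set C, #E ≤ σ → ∀ g ∈ M.G,
  (∀ A ⊆ Y, #A ≤ H → ∃ h ∈ M.G, (∀ a ∈ A, h a = a) ∧ ∀ e ∈ E, h e = g e) →
    ∀ A ⊆ Y, #A < M.χ → ∃ h ∈ M.G, (∀ a ∈ A, h a = a) ∧ ∀ e ∈ E, h e = g e

/-- One step: the map extends to a small set. -/
theorem Real.step (hR : M.Real) {X : Set C} (hX : #X ≤ M.χ) {f : C → C}
    (hT : M.Tm (f '' X)) {E : Set C} (hE : #E < M.χ) {R : Set C} (hRE : R ⊆ E) {k : C → C}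
    (hfk : ∀ A ⊆ X, #A < M.χ → ∃ g ∈ M.G, (∀ a ∈ A, g a = f a) ∧ ∀ x ∈ R, g x = k x) :
    ∃ e ∈ M.G, (∀ x ∈ R, e x = k x) ∧
      ∀ A ⊆ X, #A < M.χ → ∃ g ∈ M.G, (∀ a ∈ A, g a = f a) ∧ ∀ x ∈ E, g x = e x := by
  classical
  have hRc : #R < M.χ := small_subset hRE hE
  -- the common map
  let F : C → C := fun x => if x ∈ R then k x else f x
  have hkf : ∀ x ∈ X, x ∈ R → k x = f x := by
    intro x hx hxR
    obtain ⟨g, -, h1, h2⟩ := hfk {x} (singleton_subset_iff.2 hx)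
      (small_finite (finite_singleton x))
    rw [← h2 x hxR, h1 x rfl]
  have hFR : ∀ x ∈ R, F x = k x := fun x hx => if_pos hx
  have hFX : ∀ x ∈ X, F x = f x := by
    intro x hx
    by_cases h : x ∈ R
    · rw [hFR x h, hkf x hx h]
    · exact if_neg h
  have hF : M.LE F (X ∪ R) := by
    intro A hA hAc
    obtain ⟨g, hg, h1, h2⟩ := hfk (A ∩ X) inter_subset_right
      (small_subset inter_subset_left hAc)
    refine ⟨g, hg, fun a ha => ?_⟩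
    rcases hA ha with h | h
    · rw [hFX a h]
      exact h1 a ⟨ha, h⟩
    · rw [hFR a h]
      exact h2 a h
  have hXR : #(X ∪ R : Set C) ≤ M.χ := (mk_union_le _ _).trans (add_le_of_le M.hχ hX hRc.le)
  obtain ⟨H, hH, hTH⟩ := hT #E hE
  have key : ∀ ρ, ρ < M.χ → ∃ e : C → C, (∀ x ∈ R, e x = k x) ∧
      ∀ A ⊆ X, #A ≤ ρ → ∃ g ∈ M.G, (∀ a ∈ A, g a = f a) ∧ ∀ x ∈ E, g x = e x := by
    intro ρ hρ
    obtain ⟨e, he⟩ := hR.exists_of_le hXR hF (ν := max ρ #R) (max_lt hρ hRc) hE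
    refine ⟨e, fun x hx => ?_, fun A hA hAρ => ?_⟩
    · obtain ⟨g, -, h1, h2⟩ := he R subset_union_right (le_max_right _ _)
      rw [← h2 x (hRE hx), h1 x hx, hFR x hx]
    · obtain ⟨g, hg, h1, h2⟩ := he A (hA.trans subset_union_left) (hAρ.trans (le_max_left _ _))
      exact ⟨g, hg, fun a ha => by rw [h1 a ha, hFX a (hA ha)], h2⟩
  obtain ⟨e, he1, he2⟩ := key H hH
  obtain ⟨g₀, hg₀, -, hg₀e⟩ := he2 ∅ (empty_subset X) (by simp)
  refine ⟨g₀, hg₀, fun x hx => by rw [hg₀e x (hRE hx), he1 x hx], fun A hA hAc => ?_⟩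
  obtain ⟨e', he1', he2'⟩ := key (max #A H) (max_lt hAc hH)
  obtain ⟨g₁, hg₁, -, hg₁e⟩ := he2' ∅ (empty_subset X) (by simp)
  -- compare the two realizations over the image
  obtain ⟨h, hh, hh1, hh2⟩ := hTH (g₁ '' E) mk_image_le (g₀ * g₁⁻¹)
    (M.G.mul_mem hg₀ (M.G.inv_mem hg₁)) (by
      intro A' hA' hA'H
      choose p hp1 hp2 using fun a : A' => hA' a.2
      obtain ⟨g, hg, h1, h2⟩ := he2 (range p) (by
        rintro _ ⟨a, rfl⟩
        exact hp1 a) (mk_range_le.trans hA'H)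
      obtain ⟨g', hg', h1', h2'⟩ := he2' (range p) (by
        rintro _ ⟨a, rfl⟩
        exact hp1 a) ((mk_range_le.trans hA'H).trans (le_max_right _ _))
      refine ⟨g * g'⁻¹, M.G.mul_mem hg (M.G.inv_mem hg'), fun a ha => ?_, ?_⟩
      · have h3 : g' (p ⟨a, ha⟩) = a := by rw [h1' _ ⟨_, rfl⟩, hp2]
        have h4 : g (p ⟨a, ha⟩) = a := by rw [h1 _ ⟨_, rfl⟩, hp2]
        rw [Equiv.Perm.mul_apply]
        nth_rewrite 1 [← h3]
        rw [inv_ap, h4]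
      · rintro _ ⟨x, hx, rfl⟩
        have h3 : g' x = g₁ x := by rw [h2' x hx, hg₁e x hx]
        rw [Equiv.Perm.mul_apply, Equiv.Perm.mul_apply, inv_ap, ← h3, inv_ap, h2 x hx,
          hg₀e x hx]) (f '' A) (image_mono hA) (small_image f hAc)
  obtain ⟨g, hg, h1, h2⟩ := he2' A hA (le_max_left _ _)
  refine ⟨h * g, M.G.mul_mem hh hg, fun a ha => ?_, fun x hx => ?_⟩
  · rw [Equiv.Perm.mul_apply, h1 a ha]
    exact hh1 _ (mem_image_of_mem f ha)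
  · have h3 : g x = g₁ x := by rw [h2 x hx, hg₁e x hx]
    rw [Equiv.Perm.mul_apply, h3, hh2 _ (mem_image_of_mem _ hx), Equiv.Perm.mul_apply, inv_ap]

/-- **Homogeneity over arbitrary sets**: a map which preserves the types of the small subsets of
`X` extends to an element of the group, if the types over the image are tame. -/
theorem LE.exists_aut (hR : M.Real) {X : Set C} {N : Set C} (hN : N ∈ M.S) (hXN : X ⊆ N)
    {f : C → C} (hf : M.LE f X) (hT : M.Tm (f '' X)) : ∃ g ∈ M.G, ∀ x ∈ X, g x = f x := by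
  have hX : #X ≤ M.χ := (mk_le_mk_of_subset hXN).trans (M.S_card hN).le
  obtain ⟨R, hRm, hRT, hRN⟩ := exists_filtration hN
  let Q : ℕ → Equiv.Perm C → Prop := fun n e => e ∈ M.G ∧ ∀ A ⊆ X, #A < M.χ →
    ∃ g ∈ M.G, (∀ a ∈ A, g a = f a) ∧ ∀ x ∈ R n, g x = e x
  obtain ⟨s, hs1, hs2⟩ := exists_seq Q (fun n e e' => ∀ x ∈ R n, e' x = e x) (by
    obtain ⟨e, he, -, h⟩ := hR.step hX hT (M.T_card (hRT 0)) (empty_subset _) (k := id) (by
      intro A hA hAc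
      obtain ⟨g, hg, h1⟩ := hf A hA hAc
      exact ⟨g, hg, h1, fun x hx => absurd hx (notMem_empty x)⟩)
    exact ⟨e, he, h⟩) (by
    rintro n e ⟨-, h1⟩
    obtain ⟨e', he', h2, h3⟩ := hR.step hX hT (M.T_card (hRT (n + 1)))
      (hRm (Nat.le_succ n)) h1
    exact ⟨e', ⟨he', h3⟩, h2⟩)
  obtain ⟨h, hh, hhs⟩ := M.lim R hRm hRT (by rw [hRN]; exact hN) s (fun n => (hs1 n).1) hs2
  refine ⟨h, hh, fun x hx => ?_⟩
  have hx' : x ∈ ⋃ n, R n := by
    rw [hRN]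
    exact hXN hx
  obtain ⟨n, hn⟩ := mem_iUnion.1 hx'
  obtain ⟨g, -, h1, h2⟩ := (hs1 n).2 {x} (singleton_subset_iff.2 hx)
    (small_finite (finite_singleton x))
  rw [hhs n x hn, ← h2 x hn, h1 x rfl]

end PG

end Vale.Agent.P307.R2.H541
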