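import Vale.Agent.P307.R2.H806.Two
import Vale.Agent.P307.R2.H296.TrIso

/-!
The trace theorem: closed traces of independent systems and of their extensions by one direction,
from the upper level to the lower level.
-/

universe u v

open Set Cardinal Function

namespace Vale.Agent.P307.R2.H541

open Vale.Agent.P307.R2.H533 Vale.Agent.P307.R2.H296

open scoped Classical

namespace PG

variable {ι : Type v} {C : Type u}

/-- Joint reflection of the pieces of size less than `τ` of a family into its trace on `H`, over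
the pieces of size less than `τ` of `Q`. -/
def JR (M : PG C) (τ : Cardinal.{u}) (A : Finset ι → Set C) (F : Finset (Finset ι))
    (H Q : Set C) : Prop :=
  ∀ E ⊆ iun A F, #E < τ → ∀ q ⊆ Q, #q < τ →
    ∃ g ∈ M.G, (∀ x ∈ q, g x = x) ∧ ∀ v ∈ F, ∀ e ∈ E, e ∈ A v → g e ∈ A v ∩ H

variable {M : PG C} {τ : Cardinal.{u}} {A : Finset ι → Set C} {F F' : Finset (Finset ι)}
  {H Q Q' D X Y : Set C} {s S : Finset ι} {c : ι}

theorem JR.mono (h : M.JR τ A F H Q) (hF : F' ⊆ F) (hQ : Q' ⊆ Q) : M.JR τ A F' H Q' := by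
  intro E hE hEc q hq hqc
  obtain ⟨g, hg, h1, h2⟩ := h E (hE.trans (iun_mono hF)) hEc q (hq.trans hQ) hqc
  exact ⟨g, hg, h1, fun v hv => h2 v (hF hv)⟩

/-- One face. -/
theorem JR.face (h : M.JR τ A F H Q) {v : Finset ι} (hv : v ∈ F) {E : Set C} (hE : E ⊆ A v)
    (hEc : #E < τ) {q : Set C} (hq : q ⊆ Q) (hqc : #q < τ) :
    ∃ g ∈ M.G, (∀ x ∈ q, g x = x) ∧ ∀ e ∈ E, g e ∈ A v ∩ H := by
  obtain ⟨g, hg, h1, h2⟩ := h E (fun e he => ⟨v, hv, hE he⟩) hEc q hq hqc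
  exact ⟨g, hg, h1, fun e he => h2 v hv e he (hE he)⟩

theorem iun_tr : iun (fun t => tr D (A t ∩ H)) F = tr D (iun A F ∩ H) := by
  ext x
  constructor
  · rintro ⟨v, hv, hx⟩
    exact ⟨⟨v, hv, hx.1⟩, hx.2⟩
  · rintro ⟨⟨v, hv, hx⟩, hx'⟩
    exact ⟨v, hv, hx, hx'⟩

theorem ibd_tr {t : Finset ι} : ibd (fun t => tr D (A t ∩ H)) t = tr D (ibd A t ∩ H) := by
  ext x
  constructor
  · rintro ⟨v, hv, hx⟩
    exact ⟨⟨v, hv, hx.1⟩, hx.2⟩
  · rintro ⟨⟨v, hv, hx⟩, hx'⟩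
    exact ⟨v, hv, hx, hx'⟩

theorem JR.indT {P B : Set C} {v₀ : Finset ι} (hv₀ : v₀ ∈ F) (hP : A v₀ = P)
    (h : M.JR τ A F H Q) (hI : M.IndT τ P Y B) (hQ : (P ∪ Y) ∩ H ⊆ Q) :
    M.IndT τ (P ∩ H) (Y ∩ H) (B ∩ H) := by
  intro A' hA' hAc B' hB' hBc
  have hA1 : A' ⊆ (P ∪ Y) ∩ H := by
    rintro x hx
    rcases hA' hx with h1 | h1
    · exact ⟨Or.inl h1.1, h1.2⟩
    · exact ⟨Or.inr h1.1, h1.2⟩
  obtain ⟨g, hg, h1, h2⟩ := hI A' (fun x hx => (hA1 hx).1) hAc B' (fun x hx => (hB' hx).1) hBc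
  obtain ⟨k, hk, h3, h4⟩ := h.face hv₀ (E := g '' B') (by
    rintro _ ⟨b, hb, rfl⟩
    rw [hP]
    exact h2 b hb) (mk_image_le.trans_lt hBc) (hA1.trans hQ) hAc
  refine ⟨k * g, M.G.mul_mem hk hg, fun a ha => ?_, fun b hb => ?_⟩
  · rw [Equiv.Perm.mul_apply, h1 a ha, h3 a ha]
  · rw [Equiv.Perm.mul_apply, ← hP]
    exact h4 _ ⟨b, hb, rfl⟩

variable {M' : PG D}

/-- Reflection of the trace of a family. -/
theorem Low.iref_tr (hL : M.Low D M') (hF : Down F) (hR : IRef M A F)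
    (hJ : M.JR M'.χ A F H (iun A F ∩ H)) (hD : iun A F ∩ H ⊆ D) :
    IRef M' (fun t => tr D (A t ∩ H)) F := by
  intro x E hE hEc
  rw [iun_tr] at hE
  have hE1 : (Subtype.val '' E : Set C) ⊆ iun A F ∩ H := val_sub hE
  obtain ⟨g, hg, h1⟩ := hR x (Subtype.val '' E) (fun e he => (hE1 he).1)
    (by rw [mk_val]; exact hEc.trans_le hL.le)
  obtain ⟨k, hk, h2, h3⟩ := hJ (g '' (Subtype.val '' E)) (by
    rintro _ ⟨e, he, rfl⟩
    obtain ⟨v, hv, hev⟩ := (hE1 he).1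
    exact ⟨_, down_sdiff_erase hF hv x, (h1 v hv e he hev).1⟩)
    (mk_image_le.trans_lt (by rwa [mk_val])) {e | e ∈ (Subtype.val '' E : Set C) ∧ g e = e}
    (fun e he => hE1 he.1) ((mk_le_mk_of_subset fun e he => he.1).trans_lt (by rwa [mk_val]))
  have h4 : ∀ v ∈ F, ∀ e ∈ E, (e : C) ∈ A v → k (g e) ∈ A (v.erase x) ∩ H := by
    intro v hv e he hev
    exact h3 _ (down_sdiff_erase hF hv x) _ ⟨e, ⟨e, he, rfl⟩, rfl⟩ (h1 v hv e ⟨e, he, rfl⟩ hev).1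
  obtain ⟨g', hg', h5⟩ := hL.dn E hEc (k * g) (M.G.mul_mem hk hg) (by
    intro e he
    obtain ⟨v, hv, hev⟩ := (hE1 ⟨e, he, rfl⟩).1
    have h6 := h4 v hv e he hev
    exact hD ⟨⟨_, down_sdiff_erase hF hv x, h6.1⟩, h6.2⟩)
  refine ⟨g', hg', fun v hv e he hev => ⟨?_, fun hx => Subtype.ext ?_⟩⟩
  · change (g' e : C) ∈ A (v.erase x) ∩ H
    rw [h5 e he]
    exact h4 v hv e he hev.1
  · have h6 := (h1 v hv e ⟨e, he, rfl⟩ hev.1).2 hx
    rw [h5 e he, Equiv.Perm.mul_apply, h6]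
    exact h2 e ⟨⟨e, he, rfl⟩, h6⟩

/-- Traces of independent systems. -/
theorem Low.isys_tr (hL : M.Low D M') (h : ISys M A s) (hS : ∀ t ⊆ s, tr D (A t ∩ H) ∈ M'.S)
    (hD : A s ∩ H ⊆ D) (hJ : M.JR M'.χ A s.powerset H (A s ∩ H)) :
    ISys M' (fun t => tr D (A t ∩ H)) s := by
  refine ⟨⟨down_powerset s, fun t ht => hS t (Finset.mem_powerset.1 ht), fun t ht r hr =>
    tr_mono (inter_subset_inter_left H (h.fam.mono t ht r hr))⟩, ?_⟩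
  have h1 := iun_powerset h.fam
  exact hL.iref_tr (down_powerset s) h.ref (by rwa [h1]) (by rwa [h1])

theorem singleton_ssubset_insert (hS : S.Nonempty) (hc : c ∉ S) :
    ({c} : Finset ι) ⊂ insert c S := by
  refine lt_of_le_of_ne (Finset.singleton_subset_iff.2 (Finset.mem_insert_self c S)) ?_
  intro h1
  obtain ⟨z, hz⟩ := hS
  have h2 : z ∈ ({c} : Finset ι) := by
    rw [h1]
    exact Finset.mem_insert_of_mem hz
  rw [Finset.mem_singleton] at h2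
  exact hc (h2 ▸ hz)

/-- Traces of the proper faces of the extension of a system by one direction. -/
theorem Low.ext1_tr (hL : M.Low D M') (h : Ext1 M A S c) (hne : S.Nonempty)
    (hS : ∀ t, t ⊂ insert c S → tr D (A t ∩ H) ∈ M'.S)
    (hD : ∀ t, t ⊂ insert c S → A t ∩ H ⊆ D)
    (hJ : M.JR M'.χ A (insert c S).ssubsets H (ibd A (insert c S) ∩ H))
    (hiso : ∀ u, u ⊂ S → u.Nonempty → ∀ E ⊆ A (insert c u) ∩ H, #E < M'.χ →
      ∃ B ⊆ ibd A (insert c u) ∩ H, #B < M'.χ ∧ M.IsolT M'.χ B (ibd A (insert c u)) E) :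
    Ext1 M' (fun t => tr D (A t ∩ H)) S c := by
  have hSc : S ⊂ insert c S := Finset.ssubset_insert h.notMem
  have hsub : ∀ t, t ⊂ insert c S → A t ∩ H ⊆ ibd A (insert c S) ∩ H :=
    fun t ht x hx => ⟨⟨t, ht, hx.1⟩, hx.2⟩
  have h0 : (∅ : Finset ι) ⊂ insert c S := lt_of_le_of_lt (Finset.empty_subset S) hSc
  have hc1 := singleton_ssubset_insert hne h.notMem
  have hpow : S.powerset ⊆ (insert c S).ssubsets := fun v hv =>
    Finset.mem_ssubsets.2 (lt_of_le_of_lt (Finset.mem_powerset.1 hv) hSc)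
  refine ⟨hL.isys_tr h.sys (fun t ht => hS t (lt_of_le_of_lt ht hSc)) (hD S hSc)
    (hJ.mono hpow (hsub S hSc)), h.notMem, hS _ hc1,
    tr_mono (inter_subset_inter_left H h.base), ?_, fun u hu hu0 => ?_⟩
  · refine hL.ind_dn (hD ∅ h0) (JR.indT (Finset.mem_ssubsets.2 h0) rfl hJ (h.ind.toT hL.le) ?_)
    rintro x ⟨hx | hx, hx'⟩
    · exact ⟨⟨∅, h0, hx⟩, hx'⟩
    · exact ⟨⟨_, hc1, hx⟩, hx'⟩
  · rw [ibd_tr]
    have hu1 : insert c u ⊂ insert c S := insert_ssubset_insert' h.notMem hu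
    refine hL.atomic_dn (hS _ hu1) (hD _ hu1)
      (inter_subset_inter_left H (h.atomic u hu hu0).sub) fun E hE hEc => ?_
    obtain ⟨B, hB, hBc, hI⟩ := hiso u hu hu0 E hE hEc
    exact ⟨B, hB, hBc, hI.mono inter_subset_left⟩

/-- Isolating sets inside the trace, from the trace isolation lemma. -/
theorem exists_isol_tr (hτ : ℵ₀ ≤ τ) (hτM : τ ≤ M.χ) (hno : NoOrd M.G τ) {N : Set C}
    (hXN : X ⊆ N) (hrefl : ∀ q ⊆ N ∩ H, #q < τ → ∀ B ⊆ X, #B < τ →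
      ∃ k ∈ M.G, (∀ x ∈ q, k x = x) ∧ ∀ b ∈ B, k b ∈ X ∩ H)
    (hsat : ∀ q ⊆ N ∩ H, #q < τ → ∀ E : Set C, #E < τ →
      ∃ k ∈ M.G, (∀ x ∈ q, k x = x) ∧ ∀ d ∈ E, k d ∈ N ∩ H)
    (htiny : ∀ E ⊆ N ∩ H, #E < τ → ∃ B ⊆ X, #B < τ ∧ M.Isol B X E) :
    ∀ E ⊆ N ∩ H, #E < τ → ∃ B ⊆ X ∩ H, #B < τ ∧ M.Isol B X E := by
  intro E hE hEc
  obtain ⟨B, hB, hBc, hI⟩ := htiny E hE hEc
  exact tr_isol M hτ hτM hno (inter_subset_inter_left H hXN) inter_subset_left hrefl hsat hE hEc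
    hB hBc hI

/-- The trace theorem for the extension of a system by one direction: from joint reflection and
tiny isolating sets. -/
theorem Low.ext1_tr' (hL : M.Low D M') (hno : NoOrd M.G M'.χ) (h : Ext1 M A S c)
    (hne : S.Nonempty) (hS : ∀ t, t ⊂ insert c S → tr D (A t ∩ H) ∈ M'.S)
    (hD : ∀ t, t ⊂ insert c S → A t ∩ H ⊆ D)
    (hJ : M.JR M'.χ A (insert c S).ssubsets H (ibd A (insert c S) ∩ H))
    (htiny : ∀ u, u ⊂ S → u.Nonempty → ∀ E ⊆ A (insert c u) ∩ H, #E < M'.χ →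
      ∃ B ⊆ ibd A (insert c u), #B < M'.χ ∧ M.Isol B (ibd A (insert c u)) E) :
    Ext1 M' (fun t => tr D (A t ∩ H)) S c := by
  refine hL.ext1_tr h hne hS hD hJ fun u hu hu0 E hE hEc => ?_
  have hu1 : insert c u ⊂ insert c S := insert_ssubset_insert' h.notMem hu
  have hsub : A (insert c u) ∩ H ⊆ ibd A (insert c S) ∩ H := fun x hx => ⟨⟨_, hu1, hx.1⟩, hx.2⟩
  have h1 : (insert c u).ssubsets ⊆ (insert c S).ssubsets := fun v hv =>
    Finset.mem_ssubsets.2 ((Finset.mem_ssubsets.1 hv).trans hu1)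
  have h2 := exists_isol_tr (H := H) M'.hχ hL.le hno (h.atomic u hu hu0).sub
    (fun q hq hqc B hB hBc => by
      obtain ⟨k, hk, h3, h4⟩ := (hJ.mono h1 hsub) B (by rwa [iun_ssubsets]) hBc q hq hqc
      refine ⟨k, hk, h3, fun b hb => ?_⟩
      obtain ⟨r, hr, hbr⟩ := hB hb
      have h5 := h4 r (Finset.mem_ssubsets.2 hr) b hb hbr
      exact ⟨⟨r, hr, h5.1⟩, h5.2⟩)
    (fun q hq hqc E hEc => by
      obtain ⟨g, hg, h3, h4⟩ := M.sat (h.memu hu) (fun x hx => (hq hx).1) (hqc.trans_le hL.le)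
        (hEc.trans_le hL.le)
      obtain ⟨k, hk, h5, h6⟩ := hJ.face (Finset.mem_ssubsets.2 hu1) (E := g '' E) (by
        rintro _ ⟨e, he, rfl⟩
        exact h4 e he) (mk_image_le.trans_lt hEc) (hq.trans hsub) hqc
      refine ⟨k * g, M.G.mul_mem hk hg, fun x hx => ?_, fun e he => h6 _ ⟨e, he, rfl⟩⟩
      rw [Equiv.Perm.mul_apply, h3 x hx, h5 x hx])
    (htiny u hu hu0) E hE hEc
  obtain ⟨B, hB, hBc, hI⟩ := h2
  exact ⟨B, hB, hBc, hI.toT hL.le⟩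

/-- Traces of atomic models. -/
theorem Low.atomic_tr (hL : M.Low D M') (hno : NoOrd M.G M'.χ) {N : Set C} (hXN : X ⊆ N)
    (hN : tr D (N ∩ H) ∈ M'.S) (hD : N ∩ H ⊆ D)
    (hrefl : ∀ q ⊆ N ∩ H, #q < M'.χ → ∀ B ⊆ X, #B < M'.χ →
      ∃ k ∈ M.G, (∀ x ∈ q, k x = x) ∧ ∀ b ∈ B, k b ∈ X ∩ H)
    (hsat : ∀ q ⊆ N ∩ H, #q < M'.χ → ∀ E : Set C, #E < M'.χ →
      ∃ k ∈ M.G, (∀ x ∈ q, k x = x) ∧ ∀ d ∈ E, k d ∈ N ∩ H)
    (htiny : ∀ E ⊆ N ∩ H, #E < M'.χ → ∃ B ⊆ X, #B < M'.χ ∧ M.Isol B X E) :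
    M'.Atomic (tr D (N ∩ H)) (tr D (X ∩ H)) := by
  refine hL.atomic_dn hN hD (inter_subset_inter_left H hXN) fun E hE hEc => ?_
  obtain ⟨B, hB, hBc, hI⟩ := exists_isol_tr M'.hχ hL.le hno hXN hrefl hsat htiny E hE hEc
  exact ⟨B, hB, hBc, (hI.toT hL.le).mono inter_subset_left⟩

end PG

end Vale.Agent.P307.R2.H541
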