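import Vale.Agent.P307.R2.H806.RealX
import Vale.Agent.P307.R2.H541.Free

/-!
Locally consistent types over arbitrary sets of size `θ` are realized in the saturated member.
-/

set_option linter.unusedSectionVars false

universe u

open FirstOrder Cardinal Set

namespace Vale.Agent.P307.R2.H541

open Vale.Agent.P307 Vale.Agent.P307.H304 Vale.Agent.P307.R2.H287 Vale.Agent.P307.R2.H1
  Vale.Agent.P307.R2.H971 Vale.Agent.P307.R2.H804 Language.Structure Language.Substructure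

variable {L : Language.{u, u}} {K : AEC L} {ℓ θ : Cardinal.{u}}
  {κf α : Cardinal.{u} → Cardinal.{u}} {C : Type u} [L.Structure C]

section

variable (h₀ : BasePt K ℓ κf α θ) (hK : K.IsLS ℓ)
  (hunb : ∀ ν, ν < κf ν ∧ K.CategoricalIn (κf ν)) (hst : Stab K ℓ α (H287.thr κf))
  (hCm : K.mem C) (hs : Sat K θ C) (hCc : #C = Order.succ θ)

include h₀ hK hunb hst hCm hs hCc

theorem pg_real : (pg h₀ hK hunb hst hCm hs hCc).Real := by
  have hθ := aleph0_le_pt h₀ hK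
  intro ν hν
  change ν < θ at hν
  let σ : Cardinal.{u} := max ℓ ν
  have hσ : σ < θ := max_lt h₀.pt.lt hν
  have hℓσ : ℓ ≤ σ := le_max_left _ _
  have hνσ : ν ≤ σ := le_max_right _ _
  let ν₁ : Cardinal.{u} := α σ
  have hν₁ : ν₁ < θ := h₀.al σ hσ
  have hσν₁ : σ ≤ ν₁ := (hst σ hℓσ).1
  have hℓν₁ : ℓ ≤ ν₁ := hℓσ.trans hσν₁
  have h0σ : ℵ₀ ≤ σ := hK.1.trans hℓσ
  have h0ν₁ : ℵ₀ ≤ ν₁ := h0σ.trans hσν₁
  have hlim : limB κf ν₁ < θ := h₀.pt.lim ν₁ hν₁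
  have hν₁lim : ν₁ ≤ limB κf ν₁ := (le_opB hunb ν₁).trans (opB_le_limB κf ν₁)
  refine ⟨ν₁, hν₁, limB κf ν₁, hlim, hνσ.trans hσν₁, hν₁lim, ?_⟩
  intro X E f hX hE hloc
  change #X ≤ θ at hX
  have hEν₁ : #E ≤ ν₁ := hE.trans (hνσ.trans hσν₁)
  obtain ⟨t⟩ := exists_tpl' hK hunb
  obtain ⟨J, _, hJ, hJc⟩ := exists_nice θ (H287.thr κf θ)
  obtain ⟨F⟩ := exists_em t J
  have hFc : H287.thr κf θ ≤ #F.N := hJc.trans F.le_card
  have hFθ : θ ≤ #F.N := (le_thr hunb θ).trans hFc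
  -- a strong submodel around the image and its copy in the standard model
  obtain ⟨D, hD, hDc, hDX⟩ := pg_ls h₀ hK hCm hCc (X := f '' X) (mk_image_le.trans hX)
  obtain ⟨S₀, hS₀, -, hS₀c⟩ := exists_sub_card hK h₀.pt.lt.le F.mem hFθ ∅ (by simp)
  obtain ⟨e₀⟩ := h₀.pt.cat.2 D S₀ (K.mem_of_le _ hD).1 (K.mem_of_le _ hS₀).1 hDc hS₀c
  let i : D ↪[L] F.N := S₀.subtype.comp e₀.toEmbedding
  have hi : K.Emb i := AEC.Emb.comp (AEC.emb_subtype.2 hS₀)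
    (AEC.Emb.of_equiv e₀ (K.mem_of_le _ hD).1)
  have hfX : ∀ x : X, f x ∈ D := fun x => hDX (mem_image_of_mem f x.2)
  have hthr : H287.thr κf (limB κf ν₁) ≤ #D := (h₀.pt.thr _ hlim).le.trans hDc.ge
  have hthr1 : H287.thr κf ν₁ ≤ #D := (h₀.pt.thr _ hν₁).le.trans hDc.ge
  -- the local solutions
  obtain ⟨c', hc'⟩ := exists_real hK hunb hℓν₁ hν₁.le hJ F
    ((h₀.pt.thr _ ((opB_le_limB κf ν₁).trans_lt hlim)).le.trans hFθ) hEν₁
    (fun x : E => (x : C)) (range fun x : X => ((x : C), i ⟨f x, hfX x⟩)) (by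
      refine mk_image_le.trans (mk_range_le.trans hX)) (by
    intro Y hY hYB
    -- the piece of `X`
    choose p hp using fun y : Y => hY y.2
    obtain ⟨e, he⟩ := hloc (range fun y => (p y : C)) (by
      rintro _ ⟨y, rfl⟩
      exact (p y).2) (mk_range_le.trans hYB)
    -- a strong submodel around the image of the piece and the solution
    obtain ⟨D', hD', hD'c, hD'X⟩ := pg_ls h₀ hK hCm hCc (X := (D : Set C) ∪ e '' E)
      ((mk_union_le _ _).trans (add_le_of_le hθ hDc.le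
        (mk_image_le.trans (hEν₁.trans hν₁.le))))
    have hDD' : D ≤ D' := fun x hx => hD'X (Or.inl hx)
    have hsle := AEC.sle_of_le_le hDD' hD hD'
    have hsF : Sat K θ F.N := h₀.sat hK hunb hFc
    obtain ⟨j, hj, hj'⟩ := hsF D D' i (Language.Substructure.inclusion hDD') hi hsle.2 hDc hD'c
    have hthr2 : H287.thr κf ν₁ ≤ #D' := (h₀.pt.thr _ hν₁).le.trans hD'c.ge
    have heE : ∀ x : E, e x ∈ D' := fun x => hD'X (Or.inr (mem_image_of_mem e x.2))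
    refine ⟨fun x => j ⟨e x, heE x⟩, fun Y' hY' hY'ν => ?_⟩
    obtain ⟨g, ⟨eg, heg⟩, hg1, hg2⟩ := he (range fun y : Y' => (p ⟨y, hY' y.2⟩ : C)) (by
      rintro _ ⟨y, rfl⟩
      exact ⟨⟨y, hY' y.2⟩, rfl⟩) (mk_range_le.trans hY'ν)
    have hYE : #(Y' ⊕ E) ≤ ν₁ := mk_sum_le' h0ν₁ hY'ν hEν₁
    have h1 := H804.EqS.equiv h0ν₁ hYE eg
      (Sum.elim (fun y : Y' => (p ⟨y, hY' y.2⟩ : C)) fun x : E => (x : C))
    have h2 := EqS.map_emb hK hunb hℓν₁ D'.subtype (AEC.emb_subtype.2 hD') hthr2 hYE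
      (Sum.elim (fun y : Y' => (⟨f (p ⟨y, hY' y.2⟩), hDD' (hfX _)⟩ : D'))
        fun x : E => (⟨e x, heE x⟩ : D'))
    have h3 := EqS.map_emb hK hunb hℓν₁ j hj hthr2 hYE
      (Sum.elim (fun y : Y' => (⟨f (p ⟨y, hY' y.2⟩), hDD' (hfX _)⟩ : D'))
        fun x : E => (⟨e x, heE x⟩ : D'))
    have h4 : (fun z => eg ((Sum.elim (fun y : Y' => (p ⟨y, hY' y.2⟩ : C))
        fun x : E => (x : C)) z)) = fun z => D'.subtype ((Sum.elim
        (fun y : Y' => (⟨f (p ⟨y, hY' y.2⟩), hDD' (hfX _)⟩ : D'))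
        fun x : E => (⟨e x, heE x⟩ : D')) z) := by
      funext z
      rcases z with y | x
      · change eg _ = f _
        rw [heg]
        exact hg1 _ ⟨y, rfl⟩
      · change eg _ = e _
        rw [heg]
        exact hg2 _ x.2
    rw [h4] at h1
    have h5 := (h1.trans h2.symm).trans h3
    refine Good.subset h5 ?_
    rintro q (hq | ⟨x, rfl⟩)
    · refine ⟨Sum.inl ⟨q, hq⟩, ?_⟩
      have h6 := hp ⟨q, hY' hq⟩
      refine Eq.trans ?_ h6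
      refine Prod.ext rfl ?_
      exact hj' ⟨f (p ⟨q, hY' hq⟩), hfX _⟩
    · exact ⟨Sum.inr x, rfl⟩)
  -- back to `C`
  obtain ⟨S, hS, hSX, hSc⟩ := exists_sub_card hK h₀.pt.lt.le F.mem hFθ (range i ∪ range c')
    ((mk_union_le _ _).trans (add_le_of_le hθ (mk_range_le.trans hDc.le)
      (mk_range_le.trans (hEν₁.trans hν₁.le))))
  have hiS : ∀ d, i d ∈ S := fun d => hSX (Or.inl ⟨d, rfl⟩)
  have hcS : ∀ x, c' x ∈ S := fun x => hSX (Or.inr ⟨x, rfl⟩)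
  let i' : D ↪[L] S := i.codRestrict _ hiS
  have hi' : K.Emb i' := AEC.Emb.of_comp (g := S.subtype) (AEC.emb_subtype.2 hS) (by
    have h1 : S.subtype.comp i' = i := Language.Embedding.ext fun _ => rfl
    rw [h1]
    exact hi)
  obtain ⟨k, hk, hk'⟩ := hs D S D.subtype i' (AEC.emb_subtype.2 hD) hi' hDc hSc
  have hthrS : H287.thr κf ν₁ ≤ #S := (h₀.pt.thr _ hν₁).le.trans hSc.ge
  classical
  refine ⟨fun x => if hx : x ∈ E then k ⟨c' ⟨x, hx⟩, hcS _⟩ else x, fun A hA hAν => ?_⟩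
  have hAE : #(A ⊕ E) ≤ σ := mk_sum_le' h0σ (hAν.trans hνσ) (hE.trans hνσ)
  have hAE' : #(A ⊕ E) ≤ ν₁ := hAE.trans hσν₁
  have h1 : EqS L ν₁ (Sum.elim (fun a : A => (a : C)) fun x : E => (x : C))
      (Sum.elim (fun a : A => i ⟨f a, hfX ⟨a, hA a.2⟩⟩) c') := by
    have h2 := hc' (range fun a : A => ((a : C), i ⟨f a, hfX ⟨a, hA a.2⟩⟩)) (by
      rintro _ ⟨a, rfl⟩
      exact ⟨⟨a, hA a.2⟩, rfl⟩) (mk_range_le.trans (hAν.trans (hνσ.trans hσν₁)))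
    refine h2.subset ?_
    rintro _ ⟨a | x, rfl⟩
    · exact Or.inl ⟨a, rfl⟩
    · exact Or.inr ⟨x, rfl⟩
  have h2 := EqS.map_emb hK hunb hℓν₁ S.subtype (AEC.emb_subtype.2 hS) hthrS hAE'
    (Sum.elim (fun a : A => i' ⟨f a, hfX ⟨a, hA a.2⟩⟩) fun x => (⟨c' x, hcS x⟩ : S))
  have h3 := EqS.map_emb hK hunb hℓν₁ k hk hthrS hAE'
    (Sum.elim (fun a : A => i' ⟨f a, hfX ⟨a, hA a.2⟩⟩) fun x => (⟨c' x, hcS x⟩ : S))
  have h4 : (fun z => S.subtype ((Sum.elim (fun a : A => i' ⟨f a, hfX ⟨a, hA a.2⟩⟩)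
      fun x => (⟨c' x, hcS x⟩ : S)) z)) =
      Sum.elim (fun a : A => i ⟨f a, hfX ⟨a, hA a.2⟩⟩) c' := by
    funext z
    rcases z with a | x <;> rfl
  rw [h4] at h2
  have h5 := (h1.trans h2.symm).trans h3
  obtain ⟨g, hg, hg'⟩ := exists_mem_autG h₀ hK hunb hst hCm hs hCc hℓσ hσ hAE _ _ h5
  refine ⟨g, hg, fun a ha => ?_, fun x hx => ?_⟩
  · have h6 := hg' (Sum.inl ⟨a, ha⟩)
    exact h6.trans (hk' ⟨f a, hfX ⟨a, hA ha⟩⟩)
  · have h6 := hg' (Sum.inr ⟨x, hx⟩)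
    change g x = if hx : x ∈ E then k ⟨c' ⟨x, hx⟩, hcS _⟩ else x
    rw [dif_pos hx]
    exact h6

end

end Vale.Agent.P307.R2.H541
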