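import Vale.Agent.P307.R2.H806.TwoTr
import Vale.Agent.P307.R2.H427.Low
import Vale.Agent.P307.R2.H296.NoOrd

/-!
The two levels for the saturated members.
-/

set_option linter.unusedSectionVars false

universe u

open FirstOrder Cardinal Set

namespace Vale.Agent.P307.R2.H541

open Vale.Agent.P307 Vale.Agent.P307.H304 Vale.Agent.P307.R2.H287 Vale.Agent.P307.R2.H1
  Vale.Agent.P307.R2.H971 Vale.Agent.P307.R2.H804 Language.Structure Language.Substructure

variable {L : Language.{u, u}} {K : AEC L} {ℓ θ τ : Cardinal.{u}}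
  {κf α : Cardinal.{u} → Cardinal.{u}} {C : Type u} [L.Structure C]

section

variable (h₀ : BasePt K ℓ κf α θ) (hK : K.IsLS ℓ)
  (hunb : ∀ ν, ν < κf ν ∧ K.CategoricalIn (κf ν)) (hst : Stab K ℓ α (H287.thr κf))
  (hCm : K.mem C) (hs : Sat K θ C) (hCc : #C = Order.succ θ)

/-- The geometry of a saturated strong submodel of size `τ⁺`. -/
def pgLow (hK : K.IsLS ℓ) (hunb : ∀ ν, ν < κf ν ∧ K.CategoricalIn (κf ν))
    (hst : Stab K ℓ α (H287.thr κf)) (hτ : BasePt K ℓ κf α τ) {C' : L.Substructure C}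
    (hC' : K.le C') (hC'c : #C' = Order.succ τ) (hC's : Sat K τ C') : PG (C' : Set C) :=
  pg (C := C') hτ hK hunb hst (K.mem_of_le _ hC').1 hC's hC'c

theorem pg_low (hτ : BasePt K ℓ κf α τ) (hτθ : τ < θ) {C' : L.Substructure C}
    (hC' : K.le C') (hC'c : #C' = Order.succ τ) (hC's : Sat K τ C') :
    (pg h₀ hK hunb hst hCm hs hCc).Low (C' : Set C) (pgLow hK hunb hst hτ hC' hC'c hC's) where
  le := hτθ.le
  dn := by
    intro A hA g hg hgA
    classical
    let f : C' → C' := fun x => if h : g (x : C) ∈ C' then ⟨g x, h⟩ else x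
    obtain ⟨g', hg', h1⟩ := (low_conj h₀ hK hunb hst hCm hs hCc hτ hτθ hC' hC'c hC's (A := A) hA
      f).2 ⟨g, hg, fun a ha => by
        have h2 : g (a : C) ∈ C' := hgA a ha
        have h3 : f a = ⟨g a, h2⟩ := dif_pos h2
        exact (congrArg Subtype.val h3).symm⟩
    refine ⟨g', hg', fun a ha => ?_⟩
    have h2 : g (a : C) ∈ C' := hgA a ha
    have h3 : f a = ⟨g a, h2⟩ := dif_pos h2
    exact congrArg Subtype.val ((h1 a ha).trans h3)
  up := by
    intro A hA g' hg'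
    exact (low_conj h₀ hK hunb hst hCm hs hCc hτ hτθ hC' hC'c hC's (A := A) hA
      (fun x => g' x)).1 ⟨g', hg', fun _ _ => rfl⟩
  rf := by
    intro A hA hAc B hBc
    change #A < τ at hAc
    change #B < τ at hBc
    have hτ0 := aleph0_le_pt hτ hK
    let σ : Cardinal.{u} := max ℓ (#A + #B)
    have hσ : ℓ ≤ σ := le_max_left _ _
    have hστ : σ < τ := max_lt hτ.pt.lt (add_lt_of_lt hτ0 hAc hBc)
    have hσα : σ ≤ α σ := (hst σ hσ).1
    have hAB : #(A ⊕ B) ≤ σ := by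
      rw [mk_sum, lift_id, lift_id]
      exact le_max_right _ _
    have hAσ : #A ≤ σ := (self_le_add_right _ _).trans (le_max_right _ _)
    have hBσ : #B ≤ σ := (self_le_add_left _ _).trans (le_max_right _ _)
    have h1 := H804.refl_of_le hK hunb (hσ.trans hσα) hC'
      ((hτ.pt.thr _ (hτ.al σ hστ)).le.trans ((Order.le_succ τ).trans hC'c.ge))
    obtain ⟨y', h2, h3⟩ := h1 A B (hAσ.trans hσα) (hBσ.trans hσα) (fun a => a) (fun a => hA a.2)
      (fun b => b)
    obtain ⟨g, hg, hg'⟩ := exists_mem_autG h₀ hK hunb hst hCm hs hCc hσ (hστ.trans hτθ) hAB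
      (Sum.elim (fun a : A => (a : C)) fun b : B => (b : C))
      (Sum.elim (fun a : A => (a : C)) y') h3.symm
    refine ⟨g, hg, fun a ha => hg' (Sum.inl ⟨a, ha⟩), fun b hb => ?_⟩
    have h4 : g b = y' ⟨b, hb⟩ := hg' (Sum.inr ⟨b, hb⟩)
    rw [h4]
    exact h2 _

/-- Membership in the class of models of the lower level. -/
theorem tr_mem (hτ : BasePt K ℓ κf α τ) {C' : L.Substructure C} (hC' : K.le C')
    (hC'c : #C' = Order.succ τ) (hC's : Sat K τ C') {N : Set C} (hN : ∃ E : L.Substructure C,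
      K.le E ∧ #E = τ ∧ (E : Set C) = N) (hND : N ⊆ C') :
    PG.tr (C' : Set C) N ∈ (pgLow hK hunb hst hτ hC' hC'c hC's).S := by
  obtain ⟨E, hE, hEc, rfl⟩ := hN
  obtain ⟨k, hk, hk'⟩ := exists_lift E.subtype C'.subtype (AEC.emb_subtype.2 hE)
    (AEC.emb_subtype.2 hC') fun d => ⟨⟨d, hND d.2⟩, rfl⟩
  refine ⟨k.toHom.range, hk, ?_, ?_⟩
  · exact (mk_congr k.equivRange.toEquiv).symm.trans hEc
  · ext y
    constructor
    · rintro ⟨d, rfl⟩
      have h2 : ((k d : C') : C) = d := hk' d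
      change ((k d : C') : C) ∈ (E : Set C)
      rw [h2]
      exact d.2
    · intro hy
      exact ⟨⟨y, hy⟩, Subtype.ext (hk' ⟨y, hy⟩)⟩

include h₀ hCm hs hCc in
theorem pg_noOrd (hτ : BasePt K ℓ κf α τ) (hτθ : τ < θ) :
    H296.NoOrd (pg h₀ hK hunb hst hCm hs hCc).G τ :=
  H296.noOrd h₀ hK hunb hst hCm hs hCc hτ hτθ.le

end

end Vale.Agent.P307.R2.H541
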