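import Vale.Agent.P307.R2.H806.Lim2
import Vale.Agent.P307.R2.H806.TwoPG

/-!
Limits of coherent maps on closed traces, for the saturated member of size `θ⁺` and a smaller base
point `τ`.
-/

set_option linter.unusedSectionVars false

universe u

open FirstOrder Cardinal Set

namespace Vale.Agent.P307.R2.H806

open Vale.Agent.P307 Vale.Agent.P307.H304 Vale.Agent.P307.R2.H287 Vale.Agent.P307.R2.H1
  Vale.Agent.P307.R2.H971 Vale.Agent.P307.R2.H804 Vale.Agent.P307.R2.H541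
  Vale.Agent.P307.R2.H541.PG Vale.Agent.P307.R2.H533 Language.Structure Language.Substructure

variable {L : Language.{u, u}} {K : AEC L} {ℓ θ τ : Cardinal.{u}}
  {κf α : Cardinal.{u} → Cardinal.{u}} {C : Type u} [L.Structure C]

section

variable (h₀ : BasePt K ℓ κf α θ) (hK : K.IsLS ℓ)
  (hunb : ∀ ν, ν < κf ν ∧ K.CategoricalIn (κf ν)) (hst : Stab K ℓ α (H287.thr κf))
  (hCm : K.mem C) (hs : Sat K θ C) (hCc : #C = Order.succ θ)

/-- The chain conditions in all the saturated strong submodels of size `τ⁺`. -/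
def ChnAt (hK : K.IsLS ℓ) (hunb : ∀ ν, ν < κf ν ∧ K.CategoricalIn (κf ν))
    (hst : Stab K ℓ α (H287.thr κf)) (hτ : BasePt K ℓ κf α τ) (C : Type u) [L.Structure C] :
    Prop :=
  ∀ (C' : L.Substructure C) (hC' : K.le C') (hC'c : #C' = Order.succ τ) (hC's : Sat K τ C'),
    H650.Chn (pgLow hK hunb hst hτ hC' hC'c hC's)

open scoped Classical

/-- The closed sets meet the proper faces in strong submodels of size `τ`. -/
def StrZ (K : AEC L) (τ : Cardinal.{u}) {ι : Type u} (A : Finset ι → Set C) (S : Finset ι)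
    (c : ι) (Z : Set (Set C)) : Prop :=
  ∀ w ∈ Z, ∀ t, t ⊂ (insert c S : Finset ι) → ∃ E : L.Substructure C, K.le E ∧ #E = τ ∧
    (E : Set C) = A t ∩ w

variable {ι : Type u} {A : Finset ι → Set C} {S : Finset ι} {c : ι} {Z : Set (Set C)}

theorem exists_low' (hτ : BasePt K ℓ κf α τ) (hτθ : τ < θ) {Y : Set C} {f : C → C}
    (hY : #Y ≤ τ) (h₀ : BasePt K ℓ κf α θ) (hK : K.IsLS ℓ)
    (hunb : ∀ ν, ν < κf ν ∧ K.CategoricalIn (κf ν)) (hCm : K.mem C) (hCc : #C = Order.succ θ) :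
    ∃ C' : L.Substructure C, K.le C' ∧ #C' = Order.succ τ ∧ Sat K τ C' ∧ Y ⊆ C' ∧
      ∀ x ∈ Y, f x ∈ (C' : Set C) := by
  have hτ0 := aleph0_le_pt hτ hK
  obtain ⟨C', h1, h2, h3, h4⟩ := exists_low h₀ hK hunb hCm hCc hτ hτθ (Y := Y ∪ f '' Y)
    ((mk_union_le _ _).trans ((add_le_add hY (mk_image_le.trans hY)).trans
      (add_eq_self hτ0).le))
  exact ⟨C', h1, h2, h3, subset_union_left.trans h4, fun x hx => h4 (Or.inr ⟨x, hx, rfl⟩)⟩

/-- **The limit lemma** for a direction generated by finitely many points. -/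
theorem pg_lim_point (hτ : BasePt K ℓ κf α τ) (hτθ : τ < θ)
    (h : Good1 (pg h₀ hK hunb hst hCm hs hCc) τ A S c Z) (hZc : ∀ z ∈ Z, #z ≤ τ)
    (hZS : StrZ K τ A S c Z) (hC : ChnAt hK hunb hst hτ C) {p : Set C} (hp : p.Finite)
    (hpZ : ∀ z ∈ Z, p ⊆ z) (hat : (pg h₀ hK hunb hst hCm hs hCc).Atomic (A {c}) (p ∪ A ∅))
    (htiny : ∀ z ∈ Z, ∀ E ⊆ A {c} ∩ z, #E < τ →
      ∃ B ⊆ p ∪ A ∅, #B < τ ∧ (pg h₀ hK hunb hst hCm hs hCc).Isol B (p ∪ A ∅) E)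
    {I : Type u} [LinearOrder I] [Nonempty I] {z : I → Set C} (hz : Monotone z)
    (hzZ : ∀ i, z i ∈ Z) (hZ : (⋃ i, z i) ∈ Z) {f : C → C}
    (hf : ∀ i, (pg h₀ hK hunb hst hCm hs hCc).LET τ f (ibd A (insert c S) ∩ z i)) :
    (pg h₀ hK hunb hst hCm hs hCc).LET τ f (ibd A (insert c S) ∩ ⋃ i, z i) := by
  obtain ⟨C', hC', hC'c, hC's, hY, hfY⟩ := exists_low' hτ hτθ (f := f)
    (Y := ibd A (insert c S) ∩ ⋃ i, z i)
    ((mk_le_mk_of_subset inter_subset_right).trans (hZc _ hZ)) h₀ hK hunb hCm hCc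
  have hL := pg_low h₀ hK hunb hst hCm hs hCc hτ hτθ hC' hC'c hC's
  refine Good1.lim_point (M' := pgLow hK hunb hst hτ hC' hC'c hC's) h hL
    (pg_noOrd h₀ hK hunb hst hCm hs hCc hτ hτθ)
    (pg_calc hτ hK hunb hst (K.mem_of_le _ hC').1 hC's hC'c) (hC C' hC' hC'c hC's) hz hzZ hZ
    (fun w hw t ht hD => tr_mem hK hunb hst hτ hC' hC'c hC's (hZS w hw t ht) hD) hY hfY hf hp
    (hpZ _ hZ) hat (htiny _ hZ)

/-- **The limit lemma** for an arbitrary direction, from the limit lemma for the pair. -/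
theorem pg_lim_pair (hτ : BasePt K ℓ κf α τ) (hτθ : τ < θ)
    (h : Good1 (pg h₀ hK hunb hst hCm hs hCc) τ A S c Z) (hZc : ∀ z ∈ Z, #z ≤ τ)
    (hZS : StrZ K τ A S c Z) (hC : ChnAt hK hunb hst hτ C)
    {I : Type u} [LinearOrder I] [Nonempty I] {z : I → Set C} (hz : Monotone z)
    (hzZ : ∀ i, z i ∈ Z) (hZ : (⋃ i, z i) ∈ Z) {f : C → C}
    (hf : ∀ i, (pg h₀ hK hunb hst hCm hs hCc).LET τ f (ibd A (insert c S) ∩ z i))
    (hLL : (pg h₀ hK hunb hst hCm hs hCc).LET τ f ((A {c} ∪ A S) ∩ ⋃ i, z i)) :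
    (pg h₀ hK hunb hst hCm hs hCc).LET τ f (ibd A (insert c S) ∩ ⋃ i, z i) := by
  obtain ⟨C', hC', hC'c, hC's, hY, hfY⟩ := exists_low' hτ hτθ (f := f)
    (Y := ibd A (insert c S) ∩ ⋃ i, z i)
    ((mk_le_mk_of_subset inter_subset_right).trans (hZc _ hZ)) h₀ hK hunb hCm hCc
  have hL := pg_low h₀ hK hunb hst hCm hs hCc hτ hτθ hC' hC'c hC's
  refine Good1.lim_pair (M' := pgLow hK hunb hst hτ hC' hC'c hC's) h hL
    (pg_noOrd h₀ hK hunb hst hCm hs hCc hτ hτθ)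
    (pg_calc hτ hK hunb hst (K.mem_of_le _ hC').1 hC's hC'c) (hC C' hC' hC'c hC's) hz hzZ hZ
    (fun w hw t ht hD => tr_mem hK hunb hst hτ hC' hC'c hC's (hZS w hw t ht) hD) hY hfY hf hLL

end

end Vale.Agent.P307.R2.H806
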