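import Mathlib.Order.Bounds.Basic
import Mathlib.Order.WellFounded
import Mathlib.Order.Cover
import Mathlib.Order.Interval.Set.Basic

/-!
Continuous chains in preorders.
-/

set_option linter.unusedSectionVars false

universe u v

open Set

namespace Vale.Agent.P307.R2.H806

variable {P : Type u} [Preorder P] {I : Type v} [LinearOrder I] [WellFoundedLT I]

/-- `i` is a limit point. -/
def IsLim (i : I) : Prop := (∃ j, j < i) ∧ ∀ j < i, ∃ k, j < k ∧ k < i

theorem trichotomy (i : I) : (∀ j, ¬ j < i) ∨ (∃ j, j ⋖ i) ∨ IsLim i := by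
  by_cases h1 : ∃ j, j < i
  · by_cases h2 : ∀ j < i, ∃ k, j < k ∧ k < i
    · exact Or.inr (Or.inr ⟨h1, h2⟩)
    · push Not at h2
      obtain ⟨j, hj, hj'⟩ := h2
      exact Or.inr (Or.inl ⟨j, hj, fun k hk hk' => absurd hk' (hj' k hk).not_gt⟩)
  · push Not at h1
    exact Or.inl fun j hj => absurd hj (h1 j).not_gt

theorem IsLim.not_covBy {i : I} (h : IsLim i) (j : I) : ¬ j ⋖ i := by
  intro hj
  obtain ⟨k, h1, h2⟩ := h.2 j hj.1
  exact hj.2 h1 h2

/-- **Continuous recursion.** Chains which are continuous at limits and whose successive members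
are in the relations `Q i`. -/
theorem exists_cont (hU : ∀ i : I, IsLim i → ∀ c : Iio i → P, Monotone c →
      ∃ b, IsLUB (range c) b)
    (x₀ : P) (Q : I → P → P → Prop) (step : ∀ i x, ∃ y, x ≤ y ∧ Q i x y) :
    ∃ b : I → P, Monotone b ∧ (∀ i, (∀ j, ¬ j < i) → b i = x₀) ∧
      (∀ i j, i ⋖ j → Q i (b i) (b j)) ∧
      ∀ i, IsLim i → IsLUB (b '' Iio i) (b i) := by
  classical
  choose st hst1 hst2 using step
  let b : I → P := WellFounded.fix (r := (· < ·)) wellFounded_lt (fun i rec =>
    if h1 : ∃ j, j ⋖ i then st h1.choose (rec h1.choose h1.choose_spec.1) else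
    if h2 : IsLim i ∧ ∃ z, IsLUB (range fun j : Iio i => rec j.1 j.2) z then h2.2.choose else x₀)
  have hb : ∀ i, b i = if h1 : ∃ j, j ⋖ i then st h1.choose (b h1.choose) else
      if h2 : IsLim i ∧ ∃ z, IsLUB (range fun j : Iio i => b j.1) z then h2.2.choose else x₀ :=
    fun i => WellFounded.fix_eq _ _ i
  have hb0 : ∀ i, (∀ j, ¬ j < i) → b i = x₀ := by
    intro i hi
    rw [hb, dif_neg (fun ⟨j, hj⟩ => hi j hj.1), dif_neg (fun h => hi _ h.1.1.choose_spec)]
  have hbs : ∀ i j, j ⋖ i → b i = st j (b j) := by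
    intro i j hj
    have hex : ∃ j, j ⋖ i := ⟨j, hj⟩
    have h1 : hex.choose = j := by
      by_contra hne
      rcases lt_or_gt_of_ne hne with h2 | h2
      · exact hex.choose_spec.2 h2 hj.1
      · exact hj.2 h2 hex.choose_spec.1
    rw [hb, dif_pos hex, h1]
  have key : ∀ i, (∀ j < i, b j ≤ b i) ∧ (IsLim i → IsLUB (b '' Iio i) (b i)) := by
    intro i
    induction i using WellFoundedLT.induction with
    | ind i ih =>
    rcases trichotomy i with h | ⟨j, hj⟩ | h
    · exact ⟨fun j hj => absurd hj (h j), fun h' => absurd h'.1.choose_spec (h _)⟩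
    · refine ⟨fun k hk => ?_, fun h => absurd hj (h.not_covBy j)⟩
      rw [hbs i j hj]
      have h2 : k ≤ j := by
        by_contra h3
        exact hj.2 (not_le.1 h3) hk
      rcases h2.eq_or_lt with h3 | h3
      · rw [h3]
        exact hst1 _ _
      · exact ((ih j hj.1).1 k h3).trans (hst1 _ _)
    · have hex : IsLim i ∧ ∃ z, IsLUB (range fun j : Iio i => b j.1) z := by
        refine ⟨h, hU i h _ ?_⟩
        intro j k hjk
        change b j.1 ≤ b k.1
        rcases (show j.1 ≤ k.1 from hjk).eq_or_lt with h3 | h3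
        · rw [h3]
        · exact (ih k.1 k.2).1 j.1 h3
      have h1 : b i = hex.2.choose := by
        rw [hb, dif_neg (fun ⟨j, hj⟩ => h.not_covBy j hj), dif_pos hex]
      have h2 : IsLUB (range fun j : Iio i => b j.1) (b i) := by
        rw [h1]
        exact hex.2.choose_spec
      have h3 : (range fun j : Iio i => b j.1) = b '' Iio i := by
        rw [image_eq_range]
      rw [h3] at h2
      exact ⟨fun j hj => h2.1 ⟨j, hj, rfl⟩, fun _ => h2⟩
  refine ⟨b, ?_, hb0, ?_, fun i => (key i).2⟩
  · intro i j hij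
    rcases hij.eq_or_lt with h | h
    · rw [h]
    · exact (key j).1 i h
  · intro i j hij
    rw [hbs j i hij]
    exact hst2 _ _

end Vale.Agent.P307.R2.H806
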