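import Vale.Agent.P307.R2.H806.SatTail
import Vale.Agent.P307.R2.H806.Cont

/-!
Standard submodels of a saturated member of size `θ⁺`: charts by EM models over `a + F`.
-/

set_option linter.unusedSectionVars false

universe u v w

open FirstOrder Cardinal Set

namespace Vale.Agent.P307.R2.H806

open Vale.Agent.P307 Vale.Agent.P307.H304 Vale.Agent.P307.R2.H287 Vale.Agent.P307.R2.H971
  Language.Structure Language.Substructure

variable {L : Language.{u, u}} {K : AEC L} {ℓ θ T ν : Cardinal.{u}}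

section hullL

variable {t : Tpl K ν} {J : Type u} [LinearOrder J]

/-- The strong submodel generated by a set of indices. -/
def hullL (E : EM t J) (W : Set J) : L.Substructure E.N :=
  (exHom L t.Λ).substructureReduct (closure (exLang L t.Λ) (E.c '' W))

theorem mem_hullL {E : EM t J} {W : Set J} {x : E.N} : x ∈ hullL E W ↔ x ∈ hull E W := Iff.rfl

theorem le_hullL (E : EM t J) (W : Set J) : K.le (hullL E W) :=
  (em_le (exHom L t.Λ) E.isEM E.top t.cl).2 W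

theorem hullL_mono (E : EM t J) {W W' : Set J} (h : W ⊆ W') : hullL E W ≤ hullL E W' :=
  fun _ hx => hull_mono E h hx

theorem mk_hullL_le (E : EM t J) {W : Set J} (hν : ν ≤ θ) (hW : #W ≤ θ) : #(hullL E W) ≤ θ := by
  have h1 : ∀ x : hullL E W, ∃ s : (exLang L t.Λ).Term W, s.realize (fun q : W => E.c q) = x.1 :=
    fun x => (mem_closure_image_iff E.c W x.1).1 x.2
  choose s hs using h1
  refine (mk_le_of_injective (f := s) ?_).trans (mk_term_le (t.hν.trans hν) (t.hx.trans hν) W hW)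
  intro x y hxy
  apply Subtype.ext
  rw [← hs x, ← hs y, hxy]

theorem le_mk_hullL (E : EM t J) {W : Set J} (hW : θ ≤ #W) : θ ≤ #(hullL E W) := by
  refine hW.trans ?_
  refine mk_le_of_injective (f := fun q : W => (⟨E.c q.1, subset_closure ⟨q.1, q.2, rfl⟩⟩ :
    hullL E W)) ?_
  intro x y hxy
  exact Subtype.ext (E.inj (congrArg Subtype.val hxy))

theorem hullL_iUnion (E : EM t J) {ι : Type*} [Nonempty ι] (W : ι → Set J)
    (hW : Directed (· ≤ ·) W) :
    (hullL E (⋃ i, W i) : Set E.N) = ⋃ i, (hullL E (W i) : Set E.N) := by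
  ext x
  rw [mem_iUnion]
  change x ∈ closure (exLang L t.Λ) (E.c '' ⋃ i, W i) ↔
    ∃ i, x ∈ closure (exLang L t.Λ) (E.c '' W i)
  rw [image_iUnion, closure_iUnion, mem_iSup_of_directed]
  intro i j
  obtain ⟨k, h1, h2⟩ := hW i j
  exact ⟨k, closure_mono (image_mono h1), closure_mono (image_mono h2)⟩

theorem exists_cover_hullL (hθ : ℵ₀ ≤ θ) (E : EM t J) (A : Set E.N) (hA : #A ≤ θ) :
    ∃ V : Set J, #V ≤ θ ∧ A ⊆ hullL E V := by
  obtain ⟨V, hV, h⟩ := exists_cover' hθ E.top A hA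
  refine ⟨V, hV, fun x hx => ?_⟩
  obtain ⟨s, hs⟩ := h x hx
  exact (mem_closure_image_iff E.c V x).2 ⟨s, hs⟩

end hullL

/-- Small sets have least upper bounds in `θ⁺`. -/
theorem exists_isLUB_succTy (hθ : ℵ₀ ≤ θ) (s : Set (SuccTy θ)) (hs : #s ≤ θ) : ∃ a, IsLUB s a := by
  obtain ⟨x, hx⟩ := exists_gt_of_small hθ s hs
  have h1 : (upperBounds s).Nonempty := ⟨x, fun y hy => (hx y hy).le⟩
  refine ⟨WellFounded.min wellFounded_lt (upperBounds s) h1, WellFounded.min_mem _ _ _, ?_⟩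
  intro y hy
  exact not_lt.1 (WellFounded.not_lt_min _ _ hy)

theorem iUnion_Iio_of_isLUB {A : Type*} [LinearOrder A] {ι : Type*} {a : ι → A} {b : A}
    (h : IsLUB (range a) b) : ⋃ i, Iio (a i) = Iio b := by
  ext x
  rw [mem_iUnion, mem_Iio, lt_isLUB_iff h]
  constructor
  · rintro ⟨i, hi⟩
    exact ⟨_, ⟨i, rfl⟩, hi⟩
  · rintro ⟨_, ⟨i, rfl⟩, hi⟩
    exact ⟨i, hi⟩

section std

variable {t : Tpl K ν} {F : Type u} [LinearOrder F] {E : EM t (SuccTy θ ⊕ₗ F)} {C : Type u}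
  [L.Structure C]

/-- The position has as domain the model over `a + F`. -/
def IsStd (x : Pos K θ E.N C) (a : SuccTy θ) : Prop :=
  x.S = hullL E (low F (Iio a))

theorem exists_bound' (hθ : ℵ₀ ≤ θ) (E : EM t (SuccTy θ ⊕ₗ F)) (A : Set E.N) (hA : #A ≤ θ)
    (a₀ : SuccTy θ) :
    ∃ a, a₀ < a ∧ #(Iio a) = θ ∧ A ⊆ hullL E (low F (Iio a)) := by
  obtain ⟨V, hV, hVA⟩ := exists_cover_hullL hθ E A hA
  have hinl : Function.Injective (fun a : SuccTy θ => (toLex (Sum.inl a) : SuccTy θ ⊕ₗ F)) :=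
    fun a b hab => Sum.inl_injective (toLex.injective hab)
  obtain ⟨i, hi, hic⟩ := exists_bound hθ
    (insert a₀ ((fun a : SuccTy θ => (toLex (Sum.inl a) : SuccTy θ ⊕ₗ F)) ⁻¹' V))
    (mk_insert_le.trans (add_le_of_le hθ ((mk_preimage_of_injective _ _ hinl).trans hV)
      (one_le_aleph0.trans hθ)))
  refine ⟨i, hi _ (mem_insert _ _), hic, hVA.trans ?_⟩
  refine hullL_mono E ?_
  intro x hx a ha
  refine hi a (Or.inr ?_)
  change toLex (Sum.inl a) ∈ V
  rw [← ha]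
  exact hx

theorem mk_hullL_low (hθ : ℵ₀ ≤ θ) (hν : ν ≤ θ) (hF : #F ≤ θ) {a : SuccTy θ} (ha : #(Iio a) = θ) :
    #(hullL E (low F (Iio a))) = θ :=
  le_antisymm (mk_hullL_le E hν (mk_low_le hθ ha.le hF)) (le_mk_hullL E (le_mk_low ha.ge))

/-- Every strong submodel of size `θ` has a chart. -/
theorem exists_std_init (hθ : ℵ₀ ≤ θ) (hν : ν ≤ θ) (hF : #F ≤ θ) (hcat : K.CategoricalIn θ)
    (E : EM t (SuccTy θ ⊕ₗ F)) (M : L.Substructure C) (hM : K.le M) (hMc : #M = θ)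
    (a₀ : SuccTy θ) : ∃ (x : Pos K θ E.N C) (a : SuccTy θ), IsStd x a ∧ x.S' = M ∧ a₀ < a := by
  obtain ⟨a, ha, hac, -⟩ := exists_bound' hθ E ∅ (by simp) a₀
  obtain ⟨e⟩ := hcat.2 (hullL E (low F (Iio a))) M (K.mem_of_le _ (le_hullL E _)).1
    (K.mem_of_le _ hM).1 (mk_hullL_low hθ hν hF hac) hMc
  obtain ⟨x, hx⟩ := exists_pos_of_emb (hullL E (low F (Iio a))).subtype
    (M.subtype.comp e.toEmbedding) (AEC.emb_subtype.2 (le_hullL E _))
    (AEC.Emb.comp (AEC.emb_subtype.2 hM) (AEC.Emb.of_equiv e (K.mem_of_le _ (le_hullL E _)).1))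
    (mk_hullL_low hθ hν hF hac)
  refine ⟨x, a, ?_, ?_, ha⟩
  · apply SetLike.coe_injective
    rw [x.fst, hx]
    ext z
    constructor
    · rintro ⟨_, ⟨y, rfl⟩, rfl⟩
      exact y.2
    · intro hz
      exact ⟨_, ⟨⟨z, hz⟩, rfl⟩, rfl⟩
  · apply SetLike.coe_injective
    rw [x.snd, hx]
    ext z
    constructor
    · rintro ⟨_, ⟨y, rfl⟩, rfl⟩
      exact (e y).2
    · intro hz
      refine ⟨_, ⟨e.symm ⟨z, hz⟩, rfl⟩, ?_⟩
      change ((e (e.symm ⟨z, hz⟩) : M) : C) = z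
      rw [e.apply_symm_apply]

/-- Unions of charts. -/
theorem exists_std_iUnion (hθ : ℵ₀ ≤ θ) {ι : Type u} [LinearOrder ι] [Nonempty ι] (hι : #ι ≤ θ)
    (x : ι → Pos K θ E.N C) (a : ι → SuccTy θ) (hx : Monotone x) (ha : Monotone a)
    (h : ∀ i, IsStd (x i) (a i)) :
    ∃ (y : Pos K θ E.N C) (b : SuccTy θ), IsStd y b ∧ y.R = ⋃ i, (x i).R ∧ IsLUB (range a) b := by
  obtain ⟨y, hy1, hy2⟩ := Pos.exists_iUnion hθ hι x hx
  obtain ⟨b, hb⟩ := exists_isLUB_succTy hθ (range a) (mk_range_le.trans hι)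
  refine ⟨y, b, ?_, hy2, hb⟩
  apply SetLike.coe_injective
  rw [y.fst, hy2, image_iUnion, ← iUnion_Iio_of_isLUB hb, low_iUnion, hullL_iUnion]
  · refine iUnion_congr fun i => ?_
    rw [← (x i).fst, h i]
  · exact (show Monotone fun i => low F (Iio (a i)) from fun i j hij =>
      low_mono (Iio_subset_Iio (ha hij))).directed_le

/-- **The step.** -/
theorem exists_std_ext (hK : K.IsLS ℓ) (hℓ : ℓ ≤ θ) (hν : ν ≤ θ) (hF : #F ≤ θ) (hC : K.mem C)
    (hCc : θ ≤ #C) (hsE : Sat K θ E.N) (hs : Sat K θ C) (x : Pos K θ E.N C) (A : Set E.N)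
    (B : Set C) (hA : #A ≤ θ) (hB : #B ≤ θ) (a₀ : SuccTy θ) :
    ∃ (y : Pos K θ E.N C) (b : SuccTy θ), IsStd y b ∧ x ≤ y ∧ A ⊆ y.S ∧ B ⊆ y.S' ∧ a₀ < b := by
  have hθ : ℵ₀ ≤ θ := hK.1.trans hℓ
  have hEc : θ ≤ #E.N := by
    refine le_trans ?_ E.le_card
    have h1 : #(SuccTy θ) ≤ #(SuccTy θ ⊕ₗ F) := mk_le_of_injective
      (f := fun a : SuccTy θ => (toLex (Sum.inl a) : SuccTy θ ⊕ₗ F))
      fun a b hab => Sum.inl_injective (toLex.injective hab)
    refine le_trans ?_ h1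
    rw [mk_toType, card_ord]
    exact Order.le_succ θ
  obtain ⟨x₀, h1, h2⟩ := x.exists_left hK hℓ E.mem hEc hs A hA
  obtain ⟨x₁, h3, h4⟩ := x₀.exists_right hK hℓ hC hCc hsE B hB
  have step : ∀ p : Pos K θ E.N C × SuccTy θ, ∃ q : Pos K θ E.N C × SuccTy θ,
      p.1 ≤ q.1 ∧ p.2 < q.2 ∧ (p.1.S : Set E.N) ⊆ hullL E (low F (Iio q.2)) ∧
        (hullL E (low F (Iio q.2)) : Set E.N) ⊆ q.1.S := by
    intro p
    obtain ⟨a, ha, hac, ha'⟩ := exists_bound' hθ E (p.1.S : Set E.N) p.1.card.le p.2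
    obtain ⟨q, h5, h6⟩ := p.1.exists_left hK hℓ E.mem hEc hs (hullL E (low F (Iio a)))
      (mk_hullL_le E hν (mk_low_le hθ hac.le hF))
    exact ⟨⟨q, a⟩, h5, ha, ha', h6⟩
  choose st hst1 hst2 hst3 hst4 using step
  let s : ℕ → Pos K θ E.N C × SuccTy θ := fun n => Nat.rec (x₁, a₀) (fun _ p => st p) n
  have hs1 : ∀ n, s (n + 1) = st (s n) := fun n => rfl
  have hm1 : Monotone fun n => (s n).1 := monotone_nat_of_le_succ fun n => hst1 (s n)
  have hm2 : StrictMono fun n => (s n).2 := strictMono_nat_of_lt_succ fun n => hst2 (s n)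
  have hN : #(ULift.{u} ℕ) ≤ θ := by
    rw [mk_uLift, mk_nat, lift_aleph0]
    exact hθ
  obtain ⟨y, hy1, hy2⟩ := Pos.exists_iUnion (ι := ULift.{u} ℕ) hθ hN (fun n => (s n.down).1)
    fun n m hnm => hm1 hnm
  obtain ⟨b, hb⟩ := exists_isLUB_succTy hθ (range fun n : ULift.{u} ℕ => (s n.down).2)
    (mk_range_le.trans hN)
  have hxy : ∀ n, (s n).1 ≤ y := fun n => hy1 ⟨n⟩
  refine ⟨y, b, ?_, (h1.trans h3).trans (hxy 0), ?_, ?_, ?_⟩
  · apply SetLike.coe_injective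
    rw [y.fst, hy2, image_iUnion, ← iUnion_Iio_of_isLUB hb, low_iUnion, hullL_iUnion]
    · apply Subset.antisymm
      · refine iUnion_subset fun n => ?_
        rw [← (s n.down).1.fst]
        exact (hst3 (s n.down)).trans (subset_iUnion (fun n : ULift.{u} ℕ =>
          (hullL E (low F (Iio (s n.down).2)) : Set E.N)) ⟨n.down + 1⟩)
      · refine iUnion_subset fun n => ?_
        have h5 : (hullL E (low F (Iio (s n.down).2)) : Set E.N) ⊆
            hullL E (low F (Iio (s (n.down + 1)).2)) :=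
          hullL_mono E (low_mono (Iio_subset_Iio (hst2 (s n.down)).le))
        refine (h5.trans (hst4 (s n.down))).trans ?_
        rw [(st (s n.down)).1.fst]
        exact subset_iUnion (fun n : ULift.{u} ℕ => Prod.fst '' (s n.down).1.R) ⟨n.down + 1⟩
    · exact (show Monotone fun n : ULift.{u} ℕ => low F (Iio (s n.down).2) from fun i j hij =>
        low_mono (Iio_subset_Iio (hm2.monotone hij))).directed_le
  · exact (h2.trans (Pos.S_mono h3)).trans (Pos.S_mono (hxy 0))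
  · exact h4.trans (Pos.S'_mono (hxy 0))
  · exact lt_of_lt_of_le (hm2 (Nat.zero_lt_one)) (hb.1 ⟨⟨1⟩, rfl⟩)

end std

end Vale.Agent.P307.R2.H806
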