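import Vale.Agent.P307.R2.H806.Tail

set_option linter.unusedSectionVars false

universe u v w

open FirstOrder Cardinal Set

namespace Vale.Agent.P307.R2.H806

open Vale.Agent.P307 Vale.Agent.P307.H304 Vale.Agent.P307.R2.H287 Vale.Agent.P307.R2.H1
  Language.Structure Language.Substructure

variable {L : Language.{u, u}} {K : AEC L} {ℓ : Cardinal.{u}} {κf : Cardinal.{u} → Cardinal.{u}}

/-- The part of an EM model generated by a set of indices. -/
def hull {t : Tpl K ℓ} {J : Type u} [LinearOrder J] (F : EM t J) (W : Set J) :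
    (exLang L t.Λ).Substructure F.N :=
  closure (exLang L t.Λ) (F.c '' W)

theorem hull_mono {t : Tpl K ℓ} {J : Type u} [LinearOrder J] (F : EM t J) {W W' : Set J}
    (h : W ⊆ W') : hull F W ≤ hull F W' :=
  closure_mono (image_mono h)

theorem exists_nat_term_of_mem {t : Tpl K ℓ} {J : Type u} [LinearOrder J] (F : EM t J)
    {W : Set J} (hW : W.Nonempty) {z : F.N} (hz : z ∈ hull F W) :
    ∃ (s : (exLang L t.Λ).Term (ULift.{u} ℕ)) (q : ULift.{u} ℕ → J), (∀ k, q k ∈ W) ∧
      s.realize (fun k => F.c (q k)) = z := by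
  classical
  obtain ⟨s, hs⟩ := (mem_closure_image_iff F.c W z).1 hz
  obtain ⟨w₀, hw₀⟩ := hW
  let b := s.varFinset
  let s' : (exLang L t.Λ).Term b := s.restrictVar id
  have hs' : s'.realize (fun q : b => F.c q.1.1) = z := by
    rw [← hs]
    exact Language.Term.realize_restrictVar (fun q : W => F.c q) (fun q => rfl)
  refine ⟨s'.relabel fun d => ULift.up (b.equivFin d).1, fun k =>
    if h : k.down < b.card then (b.equivFin.symm ⟨k.down, h⟩).1.1 else w₀, ?_, ?_⟩
  · intro k
    by_cases h : k.down < b.card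
    · change dite _ _ _ ∈ W
      rw [dif_pos h]
      exact (b.equivFin.symm ⟨k.down, h⟩).1.2
    · change dite _ _ _ ∈ W
      rw [dif_neg h]
      exact hw₀
  · rw [Language.Term.realize_relabel, ← hs']
    congr 1
    funext d
    have h1 : (b.equivFin d).1 < b.card := (b.equivFin d).2
    change F.c (dite _ _ _) = F.c d.1.1
    rw [dif_pos h1]
    simp

/-- **Free position.** A tuple with support in `T`, where `T ∩ W ⊆ W₀`, can be moved into the hull
of `W₀` over any small tuple of the hull of `W`. -/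
theorem exists_coheir (hK : K.IsLS ℓ) (hunb : ∀ ν, ν < κf ν ∧ K.CategoricalIn (κf ν))
    {σ : Cardinal.{u}} (hℓ : ℓ ≤ σ) {t : Tpl K ℓ} {J : Type u} [LinearOrder J] (F : EM t J)
    (hF : thr κf σ ≤ #F.N) {W W₀ E : Set J} (hE : IsTail σ E) (hJ : IsCutExt W E)
    (hE₀ : E ⊆ W₀) {T : Set J} (hT : T ∩ W ⊆ W₀) {ι ζ : Type u} (hι : #ι ≤ σ) (hζ : #ζ ≤ σ)
    (m : ζ → F.N) (r : ι → F.N) (hm : ∀ j, m j ∈ hull F W) (hr : ∀ i, r i ∈ hull F T) :
    ∃ r' : ι → F.N, (∀ i, r' i ∈ hull F W₀) ∧ EqS L σ (Sum.elim m r) (Sum.elim m r') := by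
  have hσ : ℵ₀ ≤ σ := t.hν.trans hℓ
  have hN : #(ULift.{u} ℕ) ≤ σ := by
    rw [mk_uLift, mk_nat, lift_aleph0]
    exact hσ
  obtain ⟨e₀, he₀⟩ : E.Nonempty := by
    obtain ⟨g, -, hg, -⟩ := hE ∅ (empty_subset _) (by simp) PUnit.{u + 1} (by
      rw [mk_punit]
      exact one_le_aleph0.trans hσ)
    exact ⟨g PUnit.unit, hg _⟩
  have hTE : ∀ q ∈ T ∪ E, q ∈ W → q ∈ W₀ := by
    rintro q (h | h) hq
    · exact hT ⟨h, hq⟩
    · exact hE₀ h
  have hr' : ∀ i, r i ∈ hull F (T ∪ E) := fun i => hull_mono F subset_union_left (hr i)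
  choose sm qm hqm hsm using fun j => exists_nat_term_of_mem F ⟨e₀, hJ.sub he₀⟩ (hm j)
  choose sr qr hqr hsr using fun i =>
    exists_nat_term_of_mem F (⟨e₀, Or.inr he₀⟩ : (T ∪ E).Nonempty) (hr' i)
  have hP : ∀ X : Type u, #X ≤ σ → #(X × ULift.{u} ℕ) ≤ σ := by
    intro X hX
    rw [mk_prod, lift_id, lift_id]
    exact (mul_le_mul' hX hN).trans (mul_eq_self hσ).le
  let v : ζ × ULift.{u} ℕ → J := fun p => qm p.1 p.2
  let w : ι × ULift.{u} ℕ → J := fun p => qr p.1 p.2
  obtain ⟨w', h1, -, h3⟩ := exists_shift hE hJ hE₀ (hP ζ hζ) (hP ι hι) hσ v w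
    (fun p => hqm p.1 p.2) (fun p hp => hTE _ (hqr p.1 p.2) hp)
  let s : ζ ⊕ ι → (exLang L t.Λ).Term ((ζ × ULift.{u} ℕ) ⊕ (ι × ULift.{u} ℕ)) :=
    Sum.elim (fun j => (sm j).relabel fun k => Sum.inl (j, k))
      (fun i => (sr i).relabel fun k => Sum.inr (i, k))
  have hQ : #((ζ × ULift.{u} ℕ) ⊕ (ι × ULift.{u} ℕ)) ≤ σ := by
    rw [mk_sum, lift_id, lift_id]
    exact (add_le_add (hP ζ hζ) (hP ι hι)).trans (add_eq_self hσ).le
  have hζι : #(ζ ⊕ ι) ≤ σ := by
    rw [mk_sum, lift_id, lift_id]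
    exact (add_le_add hζ hι).trans (add_eq_self hσ).le
  have h4 := eqS_pat hK hunb hℓ F F hF hF hQ (Sum.elim v w) (Sum.elim v w') h3 hζι s
  have h5 : (fun x => (s x).realize fun q => F.c (Sum.elim v w q)) = Sum.elim m r := by
    funext x
    rcases x with j | i
    · change ((sm j).relabel fun k => Sum.inl (j, k)).realize _ = m j
      rw [Language.Term.realize_relabel, ← hsm j]
      rfl
    · change ((sr i).relabel fun k => Sum.inr (i, k)).realize _ = r i
      rw [Language.Term.realize_relabel, ← hsr i]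
      rfl
  refine ⟨fun i => (sr i).realize fun k => F.c (w' (i, k)), fun i => ?_, ?_⟩
  · exact (mem_closure_image_iff F.c W₀ _).2 ⟨(sr i).relabel fun k => ⟨w' (i, k), h1 _⟩, by
      rw [Language.Term.realize_relabel]
      rfl⟩
  · have h6 : (fun x => (s x).realize fun q => F.c (Sum.elim v w' q)) =
        Sum.elim m (fun i => (sr i).realize fun k => F.c (w' (i, k))) := by
      funext x
      rcases x with j | i
      · change ((sm j).relabel fun k => Sum.inl (j, k)).realize _ = m j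
        rw [Language.Term.realize_relabel, ← hsm j]
        rfl
      · change ((sr i).relabel fun k => Sum.inr (i, k)).realize _ = _
        rw [Language.Term.realize_relabel]
        rfl
    rw [h5, h6] at h4
    exact h4

end Vale.Agent.P307.R2.H806
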