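import Vale.Agent.P307.R2.H806.Base
import Vale.Agent.P307.R2.H773.Cp

/-!
Two-level version of the small bases over standard submodels.
-/

set_option linter.unusedSectionVars false

universe u v w

open FirstOrder Cardinal Set

namespace Vale.Agent.P307.R2.H806

open Vale.Agent.P307 Vale.Agent.P307.H304 Vale.Agent.P307.R2.H287 Vale.Agent.P307.R2.H971
  Language.Structure Language.Substructure

variable {L : Language.{u, u}} {K : AEC L} {ℓ θ T ν Λ : Cardinal.{u}}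

variable (L) in
/-- The tuples of `A` of length at most `τ` are in free position over `D` with respect to `B`, at
level `ν`. -/
def CoH (τ ν : Cardinal.{u}) {C : Type u} [L.Structure C] (A B D : Set C) : Prop :=
  ∀ (ι ζ : Type u), #ι ≤ τ → #ζ ≤ τ → ∀ (r : ι → C) (m : ζ → C), (∀ i, r i ∈ A) →
    (∀ z, m z ∈ B) → ∃ r' : ι → C, (∀ i, r' i ∈ D) ∧ EqS L ν (Sum.elim m r) (Sum.elim m r')

theorem CoH.mono {τ ν : Cardinal.{u}} {C : Type u} [L.Structure C] {A A' B B' D D' : Set C}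
    (h : CoH L τ ν A B D) (hA : A' ⊆ A) (hB : B' ⊆ B) (hD : D ⊆ D') : CoH L τ ν A' B' D' := by
  intro ι ζ hι hζ r m hr hm
  obtain ⟨r', h1, h2⟩ := h ι ζ hι hζ r m (fun i => hA (hr i)) fun z => hB (hm z)
  exact ⟨r', fun i => hD (h1 i), h2⟩

/-- Free position implies that the common part is in the base. -/
theorem CoH.inter_subset {τ ν : Cardinal.{u}} (hτ : ℵ₀ ≤ τ) {C : Type u} [L.Structure C]
    {A B D : Set C} (h : CoH L τ ν A B D) : A ∩ B ⊆ D := by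
  rintro c ⟨hA, hB⟩
  obtain ⟨r', h1, h2⟩ := h PUnit PUnit (by simpa using one_le_aleph0.trans hτ)
    (by simpa using one_le_aleph0.trans hτ) (fun _ => c) (fun _ => c) (fun _ => hA) fun _ => hB
  have h3 : IsPI L (Set.range fun i => (Sum.elim (fun _ : PUnit => c) (fun _ : PUnit => c) i,
      Sum.elim (fun _ : PUnit => c) r' i)) := h2.1
  have h4 := h3.eq_iff (c, c) ⟨Sum.inl PUnit.unit, rfl⟩ (c, r' PUnit.unit)
    ⟨Sum.inr PUnit.unit, rfl⟩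
  have h5 : c = r' PUnit.unit := h4.1 rfl
  rw [h5]
  exact h1 _

/-- Transport by an isomorphism. -/
theorem CoH.equiv {τ ν : Cardinal.{u}} (hν : ℵ₀ ≤ ν) (hτν : τ ≤ ν) {C C' : Type u}
    [L.Structure C] [L.Structure C'] {A B D : Set C} (h : CoH L τ ν A B D) (g : C ≃[L] C') :
    CoH L τ ν (g '' A) (g '' B) (g '' D) := by
  intro ι ζ hι hζ r m hr hm
  choose r₁ hr₁ hr₂ using hr
  choose m₁ hm₁ hm₂ using hm
  obtain ⟨r', h1, h2⟩ := h ι ζ hι hζ r₁ m₁ hr₁ hm₁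
  have hζι : #(ζ ⊕ ι) ≤ ν := by
    rw [mk_sum, lift_id, lift_id]
    exact add_le_of_le hν (hζ.trans hτν) (hι.trans hτν)
  refine ⟨fun i => g (r' i), fun i => ⟨_, h1 i, rfl⟩, ?_⟩
  have h3 := eqS_equiv g hν hζι (Sum.elim m₁ r₁)
  have h4 := eqS_equiv g hν hζι (Sum.elim m₁ r')
  have h5 : (fun i => g (Sum.elim m₁ r₁ i)) = Sum.elim m r := by
    funext i
    rcases i with z | i
    · exact hm₂ z
    · exact hr₂ i
  have h6 : (fun i => g (Sum.elim m₁ r' i)) = Sum.elim m fun i => g (r' i) := by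
    funext i
    rcases i with z | i
    · exact hm₂ z
    · rfl
  rw [h5] at h3
  rw [h6] at h4
  exact (h3.symm.trans h2).trans h4

section

variable {κf : Cardinal.{u} → Cardinal.{u}} {t : Tpl K ℓ} {τ : Cardinal.{u}}

theorem isTail_inr {A : Type u} [LinearOrder A] (hτ : ℵ₀ ≤ τ) :
    IsTail τ (range fun y : TailTy τ => (toLex (Sum.inr y) : A ⊕ₗ TailTy τ)) := by
  rw [← image_univ]
  exact (isTail_tailTy hτ).image _ fun y y' h => Sum.Lex.inr_lt_inr_iff.2 h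

/-- Free position in the EM model. -/
theorem coH_em (hK : K.IsLS ℓ) (hunb : ∀ ν, ν < κf ν ∧ K.CategoricalIn (κf ν)) (hℓ : ℓ ≤ τ)
    (hτν : τ ≤ ν) {A : Type u} [LinearOrder A] [WellFoundedLT A] (E : EM t (A ⊕ₗ TailTy τ))
    (hE : thr κf ν ≤ #E.N) {s s' : Set A} (hs : ∀ a ∈ s, ∀ b, b ∉ s → a < b)
    {W : Set (A ⊕ₗ TailTy τ)} (hW : ∀ a ∈ s, toLex (Sum.inl a) ∈ W → a ∈ s') :
    CoH L τ ν (hullL E W : Set E.N) (hullL E (low (TailTy τ) s)) (hullL E (low (TailTy τ) s')) := by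
  intro ι ζ hι hζ r m hr hm
  have hτ : ℵ₀ ≤ τ := hK.1.trans hℓ
  obtain ⟨r', h1, h2⟩ := Vale.Agent.P307.R2.H773.coheir_tail hK hunb hτ hτν (hℓ.trans hτν) E hE
    (isTail_inr hτ) (isCutExt_low hs) (W₀ := low (TailTy τ) s') (by
      rintro _ ⟨y, rfl⟩
      exact inr_mem_low) (T := W) (by
      rintro q ⟨hq1, hq2⟩ c hc
      refine hW c (hq2 c hc) ?_
      rw [← hc]
      exact hq1) hι hζ r m hr hm
  refine ⟨r', h1, ?_⟩
  refine h2.symm.subset ?_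
  rintro _ ⟨z | i, rfl⟩
  · exact ⟨Sum.inr z, rfl⟩
  · exact ⟨Sum.inl i, rfl⟩

variable {E : EM t (SuccTy Λ ⊕ₗ TailTy τ)} {C : Type u} [L.Structure C]

/-- **Small bases**, two levels. -/
theorem exists_base2 (hK : K.IsLS ℓ) (hunb : ∀ ν, ν < κf ν ∧ K.CategoricalIn (κf ν))
    (hℓ : ℓ ≤ τ) (hτν : τ ≤ ν) (hτΛ : Order.succ τ ≤ Λ) (hthr : thr κf ν ≤ Order.succ Λ)
    (hsE : Sat K Λ E.N) (hC : K.mem C) (hCc : #C = Order.succ Λ) (hs : Sat K Λ C)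
    {x : Pos K Λ E.N C} {a : SuccTy Λ} (hx : IsStd x a) {ρ : Cardinal.{u}} (hρ : ℵ₀ ≤ ρ)
    (hρΛ : ρ ≤ Λ) (R : Set C) (hR : #R ≤ ρ) :
    ∃ V : Set (SuccTy Λ), V ⊆ Iio a ∧ #V ≤ ρ ∧ ∀ V' : Set (SuccTy Λ), V ⊆ V' → V' ⊆ Iio a →
      CoH L τ ν R x.S' (chA x V') := by
  have hτ : ℵ₀ ≤ τ := hK.1.trans hℓ
  have hℓΛ : ℓ ≤ Λ := (hℓ.trans (Order.le_succ τ)).trans hτΛ
  have hΛ : ℵ₀ ≤ Λ := hK.1.trans hℓΛ
  have hEc := card_em hΛ hℓΛ hτ hτΛ E
  have hF : #(TailTy τ) ≤ Λ := (mk_tailTy hτ).trans_le hτΛ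
  obtain ⟨y, b, hy, hxy, -, hRy, -⟩ := exists_std_ext hK hℓΛ hℓΛ hF hC ((Order.le_succ Λ).trans
    hCc.ge) hsE hs x ∅ R (by simp) (hR.trans hρΛ) a
  obtain ⟨g, hg⟩ := y.exists_iso hK hℓΛ E.mem hC hsE hs hEc hCc
  obtain ⟨W, hW, hRW⟩ := exists_cover_hullL hρ E (g.symm '' R) (mk_image_le.trans hR)
  have hinl : Function.Injective
      (fun a : SuccTy Λ => (toLex (Sum.inl a) : SuccTy Λ ⊕ₗ TailTy τ)) :=
    fun a b hab => Sum.inl_injective (toLex.injective hab)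
  refine ⟨((fun a : SuccTy Λ => (toLex (Sum.inl a) : SuccTy Λ ⊕ₗ TailTy τ)) ⁻¹' W) ∩ Iio a,
    inter_subset_right, (mk_le_mk_of_subset inter_subset_left).trans
      ((mk_preimage_of_injective _ _ hinl).trans hW), ?_⟩
  intro V' hV' hV'a
  have hgx : ∀ p ∈ x.R, g p.1 = p.2 := fun p hp => hg p (hxy hp)
  have h1 := (coH_em hK hunb hℓ hτν E (hthr.trans hEc.ge) (s := Iio a) (s' := V')
    (fun c hc d hd => lt_of_lt_of_le hc (not_lt.1 hd)) (W := W)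
    fun c hc hcW => hV' ⟨hcW, hc⟩).equiv (hτ.trans hτν) hτν g
  rw [← chA_eq hx hV'a g hgx, ← chA_eq hx Subset.rfl g hgx, chA_Iio hx] at h1
  refine h1.mono ?_ Subset.rfl Subset.rfl
  intro c hc
  exact ⟨g.symm c, hRW ⟨c, hc, rfl⟩, g.apply_symm_apply c⟩

end

end Vale.Agent.P307.R2.H806
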