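import Vale.Agent.P307.R2.H1.Pat

set_option linter.unusedSectionVars false

universe u v w

open FirstOrder Cardinal Set

namespace Vale.Agent.P307.R2.H806

open Vale.Agent.P307

/-- Below every set of at most `σ` points of `E` there is in `E` a copy of every well order of
size at most `σ`. -/
def IsTail (σ : Cardinal.{u}) {J : Type u} [LinearOrder J] (E : Set J) : Prop :=
  ∀ A : Set J, A ⊆ E → #A ≤ σ → ∀ (X : Type u) [LinearOrder X] [WellFoundedLT X], #X ≤ σ →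
    ∃ g : X → J, StrictMono g ∧ (∀ x, g x ∈ E) ∧ ∀ x, ∀ a ∈ A, g x < a

/-- The order `σ⁺ × (σ⁺)*`. -/
abbrev TailTy (σ : Cardinal.{u}) : Type u := (SuccTy σ)ᵒᵈ ×ₗ SuccTy σ

theorem exists_strictMono_succTy {σ : Cardinal.{u}} (X : Type u) [LinearOrder X]
    [WellFoundedLT X] (hX : #X ≤ σ) : ∃ g : X → SuccTy σ, StrictMono g := by
  have h1 : Ordinal.type (α := X) (· < ·) < (Order.succ σ).ord := by
    rw [Cardinal.lt_ord, Ordinal.card_type]
    exact Order.lt_succ_of_le hX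
  have h2 : Ordinal.type (α := X) (· < ·) ≤
      Ordinal.type (α := SuccTy σ) (· < ·) := by
    rw [Ordinal.type_toType]
    exact h1.le
  obtain ⟨f⟩ := Ordinal.type_le_iff'.1 h2
  exact ⟨f, fun a b hab => f.map_rel_iff.2 hab⟩

theorem isTail_tailTy {σ : Cardinal.{u}} (hσ : ℵ₀ ≤ σ) : IsTail σ (univ : Set (TailTy σ)) := by
  intro A _ hA X _ _ hX
  obtain ⟨g, hg⟩ := exists_strictMono_succTy X hX
  obtain ⟨x, hx⟩ := exists_gt_of_small hσ ((fun a : TailTy σ => OrderDual.ofDual (ofLex a).1) '' A)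
    (mk_image_le.trans hA)
  refine ⟨fun y => toLex (OrderDual.toDual x, g y), ?_, fun _ => mem_univ _, ?_⟩
  · intro y z hyz
    rw [Prod.Lex.toLex_lt_toLex]
    exact Or.inr ⟨rfl, hg hyz⟩
  · intro y a ha
    rw [Prod.Lex.lt_iff]
    left
    have h1 := hx _ (mem_image_of_mem _ ha)
    exact h1

/-- A tail of a sum. -/
theorem IsTail.image {σ : Cardinal.{u}} {J J' : Type u} [LinearOrder J] [LinearOrder J']
    {E : Set J} (h : IsTail σ E) (f : J → J') (hf : StrictMono f) : IsTail σ (f '' E) := by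
  intro A hA hAσ X _ _ hX
  obtain ⟨g, h1, h2, h3⟩ := h (f ⁻¹' A) (fun x hx => by
    obtain ⟨y, hy, hyx⟩ := hA hx
    rwa [← hf.injective hyx]) ((mk_preimage_of_injective _ _ hf.injective).trans hAσ) X hX
  refine ⟨fun x => f (g x), fun x y hxy => hf (h1 hxy), fun x => mem_image_of_mem _ (h2 x), ?_⟩
  intro x a ha
  obtain ⟨y, hy, rfl⟩ := hA ha
  exact hf (h3 x y ha)

/-- `J` is `W` with a well ordered set inserted in the cut of the tail `E`. -/
structure IsCutExt {J : Type u} [LinearOrder J] (W E : Set J) : Prop where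
  sub : E ⊆ W
  lt : ∀ s, s ∉ W → ∀ e ∈ E, s < e
  gt : ∀ x ∈ W, x ∉ E → ∀ s, s ∉ W → x < s
  wf : (Wᶜ).IsWF

/-- The shift of the new points into the tail. -/
theorem exists_shift {σ : Cardinal.{u}} {J : Type u} [LinearOrder J] {W W₀ E : Set J}
    (hE : IsTail σ E) (hJ : IsCutExt W E) (hE₀ : E ⊆ W₀)
    {P Q : Type u} (hP : #P ≤ σ) (hQ : #Q ≤ σ) (hσ : ℵ₀ ≤ σ) (v : P → J) (w : Q → J)
    (hv : ∀ p, v p ∈ W) (hw : ∀ q, w q ∈ W → w q ∈ W₀) :
    ∃ w' : Q → J, (∀ q, w' q ∈ W₀) ∧ (∀ q, w q ∈ W → w' q = w q) ∧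
      ∀ x y : P ⊕ Q, Sum.elim v w x ≤ Sum.elim v w y ↔ Sum.elim v w' x ≤ Sum.elim v w' y := by
  classical
  let R : Set J := range (Sum.elim v w)
  have hR : #R ≤ σ := by
    refine mk_range_le.trans ?_
    rw [mk_sum, lift_id, lift_id]
    exact (add_le_add hP hQ).trans (add_eq_self hσ).le
  let X : Type u := {s : J // s ∈ R ∧ s ∉ W}
  have hX : #X ≤ σ := (mk_subtype_mono fun s hs => hs.1).trans hR
  have : WellFoundedLT X := by
    constructor
    have h1 : WellFounded (Subrel (· < ·) (· ∈ (Wᶜ : Set J))) := hJ.wf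
    exact InvImage.wf (fun x : X => (⟨x.1, x.2.2⟩ : (Wᶜ : Set J))) h1
  obtain ⟨g, hg1, hg2, hg3⟩ := hE (E ∩ R) inter_subset_left
    ((mk_le_mk_of_subset inter_subset_right).trans hR) X hX
  let F : J → J := fun y => if h : y ∈ R ∧ y ∉ W then g ⟨y, h⟩ else y
  have hFW : ∀ y, y ∈ W → F y = y := fun y hy => dif_neg fun h => h.2 hy
  have hF : ∀ y ∈ R, ∀ z ∈ R, y < z → F y < F z := by
    intro y hy z hz hyz
    by_cases h1 : y ∈ W <;> by_cases h2 : z ∈ W
    · rw [hFW y h1, hFW z h2]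
      exact hyz
    · rw [hFW y h1]
      have h3 : F z = g ⟨z, hz, h2⟩ := dif_pos ⟨hz, h2⟩
      rw [h3]
      have h4 : y ∉ E := fun h4 => absurd (hJ.lt z h2 y h4) hyz.not_gt
      exact (hJ.gt y h1 h4 z h2).trans (hJ.lt z h2 _ (hg2 _))
    · rw [hFW z h2]
      have h3 : F y = g ⟨y, hy, h1⟩ := dif_pos ⟨hy, h1⟩
      rw [h3]
      have h4 : z ∈ E := by
        by_contra h4
        exact absurd (hJ.gt z h2 h4 y h1) hyz.not_gt
      exact hg3 _ z ⟨h4, hz⟩
    · have h3 : F y = g ⟨y, hy, h1⟩ := dif_pos ⟨hy, h1⟩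
      have h4 : F z = g ⟨z, hz, h2⟩ := dif_pos ⟨hz, h2⟩
      rw [h3, h4]
      exact hg1 hyz
  refine ⟨fun q => F (w q), ?_, fun q hq => hFW _ hq, ?_⟩
  · intro q
    by_cases h1 : w q ∈ W
    · change F (w q) ∈ W₀
      rw [hFW _ h1]
      exact hw q h1
    · have h3 : F (w q) = g ⟨w q, ⟨Sum.inr q, rfl⟩, h1⟩ := dif_pos ⟨⟨Sum.inr q, rfl⟩, h1⟩
      change F (w q) ∈ W₀
      rw [h3]
      exact hE₀ (hg2 _)
  · have h1 : ∀ x : P ⊕ Q, Sum.elim v (fun q => F (w q)) x = F (Sum.elim v w x) := by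
      rintro (p | q)
      · exact (hFW _ (hv p)).symm
      · rfl
    intro x y
    rw [h1, h1]
    have hx : Sum.elim v w x ∈ R := ⟨x, rfl⟩
    have hy : Sum.elim v w y ∈ R := ⟨y, rfl⟩
    constructor
    · intro h
      rcases h.lt_or_eq with h | h
      · exact (hF _ hx _ hy h).le
      · rw [h]
    · intro h
      by_contra h2
      exact absurd (hF _ hy _ hx (not_le.1 h2)) h.not_gt

end Vale.Agent.P307.R2.H806
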