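import Vale.Agent.P307.R2.H806.DBase

/-!
The chain for true domination.
-/

set_option linter.unusedSectionVars false

universe u v w

open FirstOrder Cardinal Set

namespace Vale.Agent.P307.R2.H806

open Vale.Agent.P307 Vale.Agent.P307.H304 Vale.Agent.P307.R2.H287 Vale.Agent.P307.R2.H971
  Language.Structure Language.Substructure

variable {L : Language.{u, u}} {K : AEC L} {ℓ θ ν Λ τ : Cardinal.{u}}
  {κf : Cardinal.{u} → Cardinal.{u}} {t : Tpl K ℓ}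
  {E : EM t (SuccTy Λ ⊕ₗ TailTy τ)} {C : Type u} [L.Structure C]

theorem exists_covBy_succTy (hθ : ℵ₀ ≤ θ) (i : SuccTy θ) : ∃ j, i ⋖ j := by
  obtain ⟨k, hk⟩ := exists_gt_of_small hθ {i} (by
    rw [mk_singleton]
    exact one_le_aleph0.trans hθ)
  obtain ⟨j, hj, hmin⟩ := WellFounded.has_min (wellFounded_lt (α := SuccTy θ)) {j | i < j}
    ⟨k, hk i rfl⟩
  exact ⟨j, hj, fun l hl hlj => hmin l hl hlj⟩

theorem covBy_le {A : Type*} [LinearOrder A] {i j k : A} (h : i ⋖ j) (hk : i < k) : j ≤ k :=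
  not_lt.1 fun h' => h.2 hk h'

/-- The elements of `C` in the state. -/
def St.Rs (s : St E C (C ⊕ SuccTy Λ)) : Set C := Sum.inl ⁻¹' s.D

/-- The indices in the state. -/
def St.Vs (s : St E C (C ⊕ SuccTy Λ)) : Set (SuccTy Λ) := Sum.inr ⁻¹' s.D

theorem St.Rs_mono {s s' : St E C (C ⊕ SuccTy Λ)} (h : s ≤ s') : s.Rs ⊆ s'.Rs :=
  fun _ hx => h.2.2 hx

theorem St.Vs_mono {s s' : St E C (C ⊕ SuccTy Λ)} (h : s ≤ s') : s.Vs ⊆ s'.Vs :=
  fun _ hx => h.2.2 hx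

/-- Bounds for a state. -/
def St.Inv (θ : Cardinal.{u}) (s : St E C (C ⊕ SuccTy Λ)) : Prop :=
  #s.Rs ≤ θ ∧ s.Vs ⊆ Iio s.a ∧ #s.Vs ≤ θ

/-- The relation between successive states. -/
def St.Q (θ ν : Cardinal.{u}) (P : L.Substructure C → L.Substructure C → Prop)
    (s s' : St E C (C ⊕ SuccTy Λ)) : Prop :=
  s.a < s'.a ∧ P s.M s'.M ∧ (s.Inv θ → s'.Inv θ ∧ s'.Vs ⊆ Iio s.a ∧
    (∀ V'', s'.Vs ⊆ V'' → V'' ⊆ Iio s.a → CoH L τ ν s.Rs s.M (chA s.x V'')) ∧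
    chA s'.x s'.Vs ⊆ s'.Rs ∧
    (∃ N : L.Substructure C, K.le N ∧ #N = θ ∧ (N : Set C) = s'.Rs) ∧
    ((∃ M' : L.Substructure C, K.le M' ∧ #M' = Λ ∧ s.M ≤ M' ∧ P s.M M' ∧
      ¬ CoH L τ ν s.Rs M' s.M) → ¬ CoH L τ ν s.Rs s'.M s.M))

/-- The step. -/
theorem St.exists_step (hK : K.IsLS ℓ) (hunb : ∀ ν, ν < κf ν ∧ K.CategoricalIn (κf ν))
    (hℓ : ℓ ≤ τ) (hτν : τ ≤ ν) (hτθ : Order.succ τ ≤ θ) (hθΛ : θ ≤ Λ)
    (hthr : thr κf ν ≤ Order.succ Λ)
    (hsE : Sat K Λ E.N) (hC : K.mem C) (hCc : #C = Order.succ Λ) (hs : Sat K Λ C)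
    (P : L.Substructure C → L.Substructure C → Prop)
    (hrefl : ∀ (x : Pos K Λ E.N C) (a : SuccTy Λ), IsStd x a → P x.S' x.S')
    (hstep : ∀ (x : Pos K Λ E.N C) (a : SuccTy Λ), IsStd x a → ∀ M : L.Substructure C, K.le M →
      #M = Λ → x.S' ≤ M → P x.S' M → ∃ (y : Pos K Λ E.N C) (b : SuccTy Λ), IsStd y b ∧ x ≤ y ∧
        a < b ∧ M ≤ y.S' ∧ P x.S' y.S')
    (s : St E C (C ⊕ SuccTy Λ)) : ∃ s', s ≤ s' ∧ St.Q θ ν P s s' := by
  classical
  have hτ : ℵ₀ ≤ τ := hK.1.trans hℓ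
  have hℓθ : ℓ ≤ θ := (hℓ.trans (Order.le_succ τ)).trans hτθ
  have hθ : ℵ₀ ≤ θ := hK.1.trans hℓθ
  have hτΛ : Order.succ τ ≤ Λ := hτθ.trans hθΛ
  have hℓΛ : ℓ ≤ Λ := hℓθ.trans hθΛ
  have hF : #(TailTy τ) ≤ Λ := (mk_tailTy hτ).trans_le hτΛ
  have hF' : #(TailTy τ) ≤ θ := (mk_tailTy hτ).trans_le hτθ
  obtain ⟨M', hM', hM'c, hsM', hPM', hM'v⟩ : ∃ M' : L.Substructure C, K.le M' ∧ #M' = Λ ∧
      s.M ≤ M' ∧ P s.M M' ∧ ((∃ M' : L.Substructure C, K.le M' ∧ #M' = Λ ∧ s.M ≤ M' ∧ P s.M M' ∧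
      ¬ CoH L τ ν s.Rs M' s.M) → ¬ CoH L τ ν s.Rs M' s.M) := by
    by_cases h : ∃ M' : L.Substructure C, K.le M' ∧ #M' = Λ ∧ s.M ≤ M' ∧ P s.M M' ∧
        ¬ CoH L τ ν s.Rs M' s.M
    · obtain ⟨M', h1, h2, h3, h4, h5⟩ := h
      exact ⟨M', h1, h2, h3, h4, fun _ => h5⟩
    · exact ⟨s.M, s.le_M, s.mk_M, le_rfl, hrefl s.x s.a s.std, fun h' => absurd h' h⟩
  obtain ⟨y, b, hy, hxy, hab, hM'y, hPy⟩ := hstep s.x s.a s.std M' hM' hM'c hsM' hPM'
  by_cases hInv : s.Inv θ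
  · obtain ⟨V, hVa, hVc, hV⟩ := exists_base2 hK hunb hℓ hτν hτΛ hthr hsE hC hCc hs s.std hθ
      hθΛ s.Rs hInv.1
    have hVV : V ∪ s.Vs ⊆ Iio s.a := union_subset hVa hInv.2.1
    have hVVc : #(V ∪ s.Vs : Set (SuccTy Λ)) ≤ θ := (mk_union_le _ _).trans
      (add_le_of_le hθ hVc hInv.2.2)
    have hVb : V ∪ s.Vs ⊆ Iio b := hVV.trans (Iio_subset_Iio hab.le)
    obtain ⟨A, -, hAc, -, hAθ⟩ := exists_chA hsE hs hK hℓΛ hℓΛ hF hC hCc hy hVb
    have hAθ' : #(chA y (V ∪ s.Vs) : Set C) ≤ θ := by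
      rw [← hAc]
      exact hAθ θ hℓθ hF' hVVc
    obtain ⟨N, hN, hNs, hNc⟩ := exists_sub_card hK hℓθ hC ((hθΛ.trans (Order.le_succ Λ)).trans
      hCc.ge) (s.Rs ∪ chA y (V ∪ s.Vs)) ((mk_union_le _ _).trans (add_le_of_le hθ hInv.1 hAθ'))
    let s' : St E C (C ⊕ SuccTy Λ) := ⟨y, b, hy, Sum.inl '' (N : Set C) ∪
      Sum.inr '' (V ∪ s.Vs)⟩
    have hR' : s'.Rs = N := by
      ext c
      constructor
      · rintro (⟨c', hc', h⟩ | ⟨c', hc', h⟩)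
        · rw [← Sum.inl_injective h]
          exact hc'
        · exact absurd h Sum.inr_ne_inl
      · intro hc
        exact Or.inl ⟨c, hc, rfl⟩
    have hV' : s'.Vs = V ∪ s.Vs := by
      ext c
      constructor
      · rintro (⟨c', hc', h⟩ | ⟨c', hc', h⟩)
        · exact absurd h Sum.inl_ne_inr
        · rw [← Sum.inr_injective h]
          exact hc'
      · intro hc
        exact Or.inr ⟨c, hc, rfl⟩
    refine ⟨s', ⟨hxy, hab.le, ?_⟩, hab, hPy, fun _ => ⟨⟨?_, ?_, ?_⟩, ?_, ?_, ?_, ?_, ?_⟩⟩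
    · rintro (c | v) hc
      · exact Or.inl ⟨c, hNs (Or.inl hc), rfl⟩
      · exact Or.inr ⟨v, Or.inr hc, rfl⟩
    · rw [hR']
      exact hNc.le
    · rw [hV']
      exact hVb
    · rw [hV']
      exact hVVc
    · rw [hV']
      exact hVV
    · intro V'' h1 h2
      rw [hV'] at h1
      exact hV V'' (subset_union_left.trans h1) h2
    · rw [hV', hR']
      exact subset_union_right.trans hNs
    · exact ⟨N, hN, hNc, hR'.symm⟩
    · intro h1 h2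
      exact hM'v h1 (h2.mono Subset.rfl hM'y Subset.rfl)
  · exact ⟨⟨y, b, hy, s.D⟩, ⟨hxy, hab.le, Subset.rfl⟩, hab, hPy, fun h => absurd h hInv⟩

/-- The result of the construction. -/
structure DomChain (E : EM t (SuccTy Λ ⊕ₗ TailTy τ)) (C : Type u) [L.Structure C]
    (θ ν : Cardinal.{u}) (P : L.Substructure C → L.Substructure C → Prop)
    (x₀ : Pos K Λ E.N C) (a₀ : SuccTy Λ) (R₀ : Set C) where
  M : SuccTy θ → L.Substructure C
  x : SuccTy θ → Pos K Λ E.N C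
  a : SuccTy θ → SuccTy Λ
  g : E.N ≃[L] C
  std : ∀ i, IsStd (x i) (a i)
  xM : ∀ i, M i = (x i).S'
  xmono : Monotone x
  xg : ∀ i, ∀ p ∈ (x i).R, g p.1 = p.2
  mono : Monotone M
  amono : StrictMono a
  bot : ∀ i, (∀ j, ¬ j < i) → M i = x₀.S' ∧ x i = x₀ ∧ a i = a₀
  gx : ∀ p ∈ x₀.R, g p.1 = p.2
  succ : ∀ i j, i ⋖ j → P (M i) (M j)
  lim : ∀ i, IsLim i → (M i : Set C) = ⋃ j : Iio i, (M j : Set C)
  alim : ∀ i, IsLim i → Iio (a i) = ⋃ j : Iio i, Iio (a j)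
  hM : ∀ i, (M i : Set C) = g '' (hullL E (low (TailTy τ) (Iio (a i))) : Set E.N)
  leM : ∀ i, K.le (M i)
  cardM : ∀ i, #(M i) = Λ
  δ : SuccTy θ
  hδ : IsLim δ
  N : L.Substructure C
  D : L.Substructure C
  leN : K.le N
  leD : K.le D
  cardN : #N = θ
  hR₀ : R₀ ⊆ N
  hD : (D : Set C) = (N : Set C) ∩ M δ
  h1 : ∀ M' : L.Substructure C, K.le M' → #M' = Λ → M δ ≤ M' → P (M δ) M' →
    CoH L τ ν (N : Set C) M' (M δ)
  h2 : CoH L τ ν (N : Set C) (M δ) D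

/-- **The chain.** -/
theorem exists_domChain (hK : K.IsLS ℓ) (hunb : ∀ ν, ν < κf ν ∧ K.CategoricalIn (κf ν))
    (hℓ : ℓ ≤ τ) (hτν : τ ≤ ν) (hτθ : Order.succ τ ≤ θ) (hθΛ : Order.succ θ ≤ Λ)
    (hthr : thr κf ν ≤ Order.succ Λ)
    (hsE : Sat K Λ E.N) (hC : K.mem C) (hCc : #C = Order.succ Λ) (hs : Sat K Λ C)
    (P : L.Substructure C → L.Substructure C → Prop)
    (hrefl : ∀ (x : Pos K Λ E.N C) (a : SuccTy Λ), IsStd x a → P x.S' x.S')
    (hstep : ∀ (x : Pos K Λ E.N C) (a : SuccTy Λ), IsStd x a → ∀ M : L.Substructure C, K.le M →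
      #M = Λ → x.S' ≤ M → P x.S' M → ∃ (y : Pos K Λ E.N C) (b : SuccTy Λ), IsStd y b ∧ x ≤ y ∧
        a < b ∧ M ≤ y.S' ∧ P x.S' y.S')
    (x₀ : Pos K Λ E.N C) (a₀ : SuccTy Λ) (hx₀ : IsStd x₀ a₀) (R₀ : Set C) (hR₀ : #R₀ ≤ θ) :
    Nonempty (DomChain E C θ ν P x₀ a₀ R₀) := by
  classical
  have hτ : ℵ₀ ≤ τ := hK.1.trans hℓ
  have hℓθ : ℓ ≤ θ := (hℓ.trans (Order.le_succ τ)).trans hτθ
  have hθ : ℵ₀ ≤ θ := hK.1.trans hℓθ
  have hθΛ' : θ ≤ Λ := (Order.le_succ θ).trans hθΛ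
  have hτΛ : Order.succ τ ≤ Λ := hτθ.trans hθΛ'
  have hℓΛ : ℓ ≤ Λ := hℓθ.trans hθΛ'
  have hΛ : ℵ₀ ≤ Λ := hK.1.trans hℓΛ
  have hF : #(TailTy τ) ≤ Λ := (mk_tailTy hτ).trans_le hτΛ
  have hEc := card_em hΛ hℓΛ hτ hτΛ E
  have hI : #(SuccTy θ) ≤ Λ := by
    rw [mk_toType, card_ord]
    exact hθΛ
  obtain ⟨i₀, -⟩ := exists_gt_of_small hθ (∅ : Set (SuccTy θ)) (by simp)
  have hne : Nonempty (SuccTy θ) := ⟨i₀⟩
  let s₀ : St E C (C ⊕ SuccTy Λ) := ⟨x₀, a₀, hx₀, Sum.inl '' R₀⟩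
  obtain ⟨b, g, hb1, hb2, hb3, hb4, hb5, hb6⟩ := exists_std_chain hK hℓΛ hℓΛ hF hC hCc hsE hs
    (I := SuccTy θ) hI s₀ (fun _ s s' => St.Q θ ν P s s') (fun _ s =>
      St.exists_step hK hunb hℓ hτν hτθ hθΛ' hthr hsE hC hCc hs P hrefl hstep s)
  -- unions of the components
  have hRlim : ∀ i, IsLim i → (b i).Rs = ⋃ j : Iio i, (b j).Rs := by
    intro i hi
    change Sum.inl ⁻¹' (b i).D = _
    rw [(hb4 i hi).1, preimage_iUnion]
    rfl
  have hVlim : ∀ i, IsLim i → (b i).Vs = ⋃ j : Iio i, (b j).Vs := by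
    intro i hi
    change Sum.inr ⁻¹' (b i).D = _
    rw [(hb4 i hi).1, preimage_iUnion]
    rfl
  have hInv : ∀ i, (b i).Inv θ := by
    intro i
    induction i using WellFoundedLT.induction with
    | ind i ih =>
    rcases trichotomy i with h | ⟨j, hj⟩ | h
    · rw [hb2 i h]
      refine ⟨?_, ?_, ?_⟩
      · change #(Sum.inl ⁻¹' (Sum.inl '' R₀) : Set C) ≤ θ
        rw [preimage_image_eq _ Sum.inl_injective]
        exact hR₀
      · rintro v ⟨c, -, h⟩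
        exact absurd h Sum.inl_ne_inr
      · have h1 : s₀.Vs = ∅ := by
          ext v
          constructor
          · rintro ⟨c, -, h⟩
            exact absurd h Sum.inl_ne_inr
          · exact fun h => h.elim
        rw [h1]
        simp
    · exact ((hb3 j i hj).2.2 (ih j hj.1)).1
    · refine ⟨?_, ?_, ?_⟩
      · rw [hRlim i h]
        exact mk_iUnion_le_of_le hθ (mk_Iio_succTy i) _ fun j => (ih j.1 j.2).1
      · rw [hVlim i h]
        refine iUnion_subset fun j => ?_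
        exact (ih j.1 j.2).2.1.trans (Iio_subset_Iio (hb1 (le_of_lt j.2)).2.1)
      · rw [hVlim i h]
        exact mk_iUnion_le_of_le hθ (mk_Iio_succTy i) _ fun j => (ih j.1 j.2).2.2
  have hQ : ∀ i j, i ⋖ j → _ := fun i j hij => (hb3 i j hij).2.2 (hInv i)
  choose nx hnx using exists_covBy_succTy (θ := θ) hθ
  -- the growth function
  choose supp sm hsm using fun x : E.N => exists_finset_term E.top x
  have hA : Monotone fun j : SuccTy θ => low (TailTy τ) (Iio (b j).a) := fun i j hij =>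
    low_mono (Iio_subset_Iio (hb1 hij).2.1)
  obtain ⟨gw, hgw⟩ := Vale.Agent.P307.R2.H773.exists_growth hθ supp
    (fun i : SuccTy θ => g.symm '' (b i).Rs) (fun i => mk_image_le.trans (hInv i).1)
    (fun j : SuccTy θ => low (TailTy τ) (Iio (b j).a)) hA
  obtain ⟨δ, -, hδ1, hδ2, -⟩ := Vale.Agent.P307.R2.H773.exists_closed_cof hθ
    (isRegular_succ hτ) hτθ gw i₀
  have hsing : ∀ i : SuccTy θ, #({i} : Set (SuccTy θ)) < Order.succ τ := by
    intro i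
    rw [mk_singleton]
    exact (one_lt_aleph0.trans_le hτ).trans_le (Order.le_succ τ)
  have hδ : IsLim δ := by
    refine ⟨?_, fun j hj => ?_⟩
    · obtain ⟨j, hj, -⟩ := hδ2 ∅ (by simp) (by
        rw [mk_eq_zero]
        exact (aleph0_pos.trans_le hτ).trans_le (Order.le_succ τ))
      exact ⟨j, hj⟩
    · obtain ⟨k, hk, h⟩ := hδ2 {j} (by
        rintro i rfl
        exact hj) (hsing j)
      exact ⟨k, h j rfl, hk⟩
  have hnxδ : ∀ i < δ, nx i < δ := by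
    intro i hi
    obtain ⟨k, h1, h2⟩ := hδ.2 i hi
    exact (covBy_le (hnx i) h1).trans_lt h2
  -- free position of the union
  have hcp : CoH L τ ν (b δ).Rs (b (nx δ)).M (b δ).M := by
    have h1 := (coH_em hK hunb hℓ hτν E (hthr.trans hEc.ge) (s := Iio (b (nx δ)).a)
      (s' := Iio (b δ).a) (fun c hc d hd => lt_of_lt_of_le hc (not_lt.1 hd))
      (W := ⋃ x ∈ g.symm '' (b δ).Rs, (supp x : Set (SuccTy Λ ⊕ₗ TailTy τ))) (by
        intro c hc hcW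
        rw [mem_iUnion₂] at hcW
        obtain ⟨x, hx, hcx⟩ := hcW
        obtain ⟨y, hy, rfl⟩ := hx
        rw [hRlim δ hδ, mem_iUnion] at hy
        obtain ⟨i, hi⟩ := hy
        have h2 := hgw i.1 (g.symm y) ⟨y, hi, rfl⟩ (toLex (Sum.inl c)) hcx
          (mem_iUnion.2 ⟨nx δ, inl_mem_low.2 hc⟩)
        exact inl_mem_low.1 (hA (hδ1 i.1 i.2).le h2))).equiv (hτ.trans hτν) hτν g
    rw [← hb6, ← hb6] at h1
    refine h1.mono ?_ Subset.rfl Subset.rfl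
    intro c hc
    refine ⟨g.symm c, ?_, g.apply_symm_apply c⟩
    change g.symm c ∈ closure (exLang L t.Λ) _
    rw [← hsm (g.symm c)]
    exact Vale.Agent.P307.R2.H773.realize_mem_cl (sm (g.symm c)) (fun d : supp (g.symm c) => d.1)
      fun d => mem_iUnion₂.2 ⟨g.symm c, ⟨c, hc, rfl⟩, d.2⟩
  -- the model `N`
  have hNi : ∀ i : Iio δ, ∃ N : L.Substructure C, K.le N ∧ #N = θ ∧
      (N : Set C) = (b (nx i)).Rs := fun i => (hQ i.1 (nx i) (hnx i.1)).2.2.2.2.1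
  choose Ni hNi1 hNi2 hNi3 using hNi
  have hNm : Monotone Ni := by
    intro i j hij
    rcases eq_or_lt_of_le hij with h | h
    · rw [h]
    · rw [← SetLike.coe_subset_coe, hNi3, hNi3]
      exact St.Rs_mono (hb1 ((covBy_le (hnx i.1) h).trans (hnx j.1).1.le))
  have hne' : Nonempty (Iio δ) := ⟨⟨_, hδ.1.choose_spec⟩⟩
  have hNle : K.le (⨆ i, Ni i) := AEC.le_iSup_directed _ hNm hNi1
  have hNs : ((⨆ i, Ni i : L.Substructure C) : Set C) = (b δ).Rs := by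
    ext c
    rw [SetLike.mem_coe, Language.Substructure.mem_iSup_of_directed hNm.directed_le, hRlim δ hδ,
      mem_iUnion]
    constructor
    · rintro ⟨i, hi⟩
      rw [← SetLike.mem_coe, hNi3] at hi
      exact ⟨⟨nx i, hnxδ i.1 i.2⟩, hi⟩
    · rintro ⟨i, hi⟩
      refine ⟨i, ?_⟩
      rw [← SetLike.mem_coe, hNi3]
      exact St.Rs_mono (hb1 (hnx i.1).1.le) hi
  have hNc : #(⨆ i, Ni i : L.Substructure C) = θ := by
    apply le_antisymm
    · change #((⨆ i, Ni i : L.Substructure C) : Set C) ≤ θ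
      rw [hNs]
      exact (hInv δ).1
    · refine (hNi2 (Classical.arbitrary (Iio δ))).symm.trans_le ?_
      exact mk_le_mk_of_subset (le_iSup Ni _)
  -- the model `D`
  obtain ⟨D, hD1, hD2, hD3, -⟩ := exists_chA hsE hs hK hℓΛ hℓΛ hF hC hCc (b δ).std (hInv δ).2.1
  have hDN : (D : Set C) ⊆ (b δ).Rs := by
    rw [hD2, chA_eq (b δ).std (hInv δ).2.1 g (hb5 δ), hVlim δ hδ, low_iUnion, hullL_iUnion]
    · rintro _ ⟨z, hz, rfl⟩
      obtain ⟨i, hi⟩ := mem_iUnion.1 hz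
      have h1 : g z ∈ chA (b (nx i)).x (b (nx i)).Vs := by
        rw [chA_eq (b (nx i)).std (hInv (nx i)).2.1 g (hb5 (nx i))]
        exact ⟨z, hullL_mono E (low_mono (St.Vs_mono (hb1 (hnx i.1).1.le))) hi, rfl⟩
      exact St.Rs_mono (hb1 (hnxδ i.1 i.2).le) ((hQ i.1 (nx i) (hnx i.1)).2.2.2.1 h1)
    · exact (show Monotone fun i : Iio δ => low (TailTy τ) (b i).Vs from fun i j hij =>
        low_mono (St.Vs_mono (hb1 hij))).directed_le
  have hii : CoH L τ ν (b δ).Rs (b δ).M D := by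
    intro ι ζ hι hζ r m hr hm
    have hr' : ∀ k, ∃ i : Iio δ, r k ∈ (b i).Rs := by
      intro k
      have h := hr k
      rw [hRlim δ hδ, mem_iUnion] at h
      exact h
    have hm' : ∀ z, ∃ i : Iio δ, m z ∈ (b i).M := by
      intro z
      have h := hm z
      rw [(hb4 δ hδ).2.2, mem_iUnion] at h
      exact h
    choose fr hfr using hr'
    choose fm hfm using hm'
    obtain ⟨j, hj, hj'⟩ := hδ2 (range (fun k => (fr k).1) ∪ range fun z => (fm z).1) (by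
      rintro i (⟨k, rfl⟩ | ⟨z, rfl⟩)
      · exact (fr k).2
      · exact (fm z).2) (Order.lt_succ_of_le ((mk_union_le _ _).trans (add_le_of_le hτ
        (mk_range_le.trans hι) (mk_range_le.trans hζ))))
    obtain ⟨r', h1, h2⟩ := (hQ j (nx j) (hnx j)).2.2.1 (b (nx j)).Vs Subset.rfl
      (hQ j (nx j) (hnx j)).2.1 ι ζ hι hζ r m
      (fun k => St.Rs_mono (hb1 (hj' _ (Or.inl ⟨k, rfl⟩)).le) (hfr k))
      (fun z => St.M_mono (hb1 (hj' _ (Or.inr ⟨z, rfl⟩)).le) (hfm z))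
    refine ⟨r', fun k => ?_, h2⟩
    rw [hD2]
    have h3 := h1 k
    rw [← chA_of_le (b j).std (hb1 hj.le).1 (hQ j (nx j) (hnx j)).2.1] at h3
    exact chA_mono _ (St.Vs_mono (hb1 (hnxδ j hj).le)) h3
  refine ⟨{
    M := fun i => (b i).M
    x := fun i => (b i).x
    a := fun i => (b i).a
    g := g
    std := fun i => (b i).std
    xM := fun i => rfl
    xmono := fun i j hij => (hb1 hij).1
    xg := hb5
    mono := fun i j hij => St.M_mono (hb1 hij)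
    amono := ?_
    bot := fun i hi => by
      rw [hb2 i hi]
      exact ⟨rfl, rfl, rfl⟩
    gx := ?_
    succ := fun i j hij => (hb3 i j hij).2.1
    lim := fun i hi => (hb4 i hi).2.2
    alim := fun i hi => (hb4 i hi).2.1
    hM := hb6
    leM := fun i => (b i).le_M
    cardM := fun i => (b i).mk_M
    δ := δ
    hδ := hδ
    N := ⨆ i, Ni i
    D := D
    leN := hNle
    leD := hD1
    cardN := hNc
    hR₀ := ?_
    hD := ?_
    h1 := ?_
    h2 := ?_ }⟩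
  · intro i j hij
    exact (hb3 i (nx i) (hnx i)).1.trans_le (hb1 (covBy_le (hnx i) hij)).2.1
  · intro p hp
    obtain ⟨j, -, hj⟩ := WellFounded.has_min (wellFounded_lt (α := SuccTy θ)) Set.univ ⟨i₀, trivial⟩
    have h1 := hb5 j
    rw [hb2 j fun k => hj k trivial] at h1
    exact h1 p hp
  · rw [hNs]
    obtain ⟨j, -, hj⟩ := WellFounded.has_min (wellFounded_lt (α := SuccTy θ)) Set.univ ⟨i₀, trivial⟩
    intro c hc
    have h1 : c ∈ (b j).Rs := by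
      rw [hb2 j fun k => hj k trivial]
      exact ⟨c, hc, rfl⟩
    exact St.Rs_mono (hb1 (not_lt.1 (hj δ trivial))) h1
  · rw [hNs]
    exact Subset.antisymm (subset_inter hDN hD3) (hii.inter_subset hτ)
  · intro M' h1 h2 h3 h4
    rw [hNs]
    by_contra h5
    exact (hQ δ (nx δ) (hnx δ)).2.2.2.2.2 ⟨M', h1, h2, h3, h4, h5⟩ hcp
  · rw [hNs]
    exact hii

end Vale.Agent.P307.R2.H806
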