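import Vale.Agent.P307.R2.H806.Std

/-!
Continuous chains of standard submodels in a saturated member of size `θ⁺`.
-/

set_option linter.unusedSectionVars false

universe u v w

open FirstOrder Cardinal Set

namespace Vale.Agent.P307.R2.H806

open Vale.Agent.P307 Vale.Agent.P307.H304 Vale.Agent.P307.R2.H287 Vale.Agent.P307.R2.H971
  Language.Structure Language.Substructure

variable {L : Language.{u, u}} {K : AEC L} {ℓ θ T ν : Cardinal.{u}}

variable {t : Tpl K ν} {F : Type u} [LinearOrder F] {E : EM t (SuccTy θ ⊕ₗ F)} {C : Type u}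
  [L.Structure C] {Z : Type u}

/-- A stage of the construction of a chain: a chart and a set. -/
structure St (E : EM t (SuccTy θ ⊕ₗ F)) (C : Type u) [L.Structure C] (Z : Type u) where
  x : Pos K θ E.N C
  a : SuccTy θ
  std : IsStd x a
  D : Set Z

instance : Preorder (St E C Z) where
  le s s' := s.x ≤ s'.x ∧ s.a ≤ s'.a ∧ s.D ⊆ s'.D
  le_refl s := ⟨le_rfl, le_rfl, Subset.rfl⟩
  le_trans s s' s'' h h' := ⟨h.1.trans h'.1, h.2.1.trans h'.2.1, h.2.2.trans h'.2.2⟩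

theorem St.le_def {s s' : St E C Z} : s ≤ s' ↔ s.x ≤ s'.x ∧ s.a ≤ s'.a ∧ s.D ⊆ s'.D := Iff.rfl

/-- The submodel of `C`. -/
def St.M (s : St E C Z) : L.Substructure C := s.x.S'

theorem St.le_M (s : St E C Z) : K.le s.M := s.x.le'

theorem St.mk_M (s : St E C Z) : #s.M = θ := s.x.card'

theorem St.M_mono {s s' : St E C Z} (h : s ≤ s') : s.M ≤ s'.M := Pos.S'_mono h.1

theorem St.exists_isLUB (hθ : ℵ₀ ≤ θ) {ι : Type u} [LinearOrder ι] [Nonempty ι] (hι : #ι ≤ θ)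
    (c : ι → St E C Z) (hc : Monotone c) :
    ∃ s : St E C Z, IsLUB (range c) s ∧ s.x.R = ⋃ i, (c i).x.R ∧ s.D = ⋃ i, (c i).D ∧
      IsLUB (range fun i => (c i).a) s.a := by
  obtain ⟨y, b, h1, h2, h3⟩ := exists_std_iUnion hθ hι (fun i => (c i).x) (fun i => (c i).a)
    (fun i j hij => (hc hij).1) (fun i j hij => (hc hij).2.1) fun i => (c i).std
  refine ⟨⟨y, b, h1, ⋃ i, (c i).D⟩, ⟨?_, ?_⟩, h2, rfl, h3⟩
  · rintro _ ⟨i, rfl⟩
    refine ⟨?_, h3.1 ⟨i, rfl⟩, subset_iUnion (fun i => (c i).D) i⟩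
    rw [Pos.le_def, h2]
    exact subset_iUnion (fun i => (c i).x.R) i
  · intro s hs
    have h4 : ∀ i, c i ≤ s := fun i => hs ⟨i, rfl⟩
    refine ⟨?_, h3.2 ?_, iUnion_subset fun i => (h4 i).2.2⟩
    · rw [Pos.le_def, h2]
      exact iUnion_subset fun i => (h4 i).1
    · rintro _ ⟨i, rfl⟩
      exact (h4 i).2.1

/-- **Continuous chains of standard submodels.** -/
theorem exists_std_chain (hK : K.IsLS ℓ) (hℓ : ℓ ≤ θ) (hν : ν ≤ θ) (hF : #F ≤ θ) (hC : K.mem C)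
    (hCc : #C = Order.succ θ) (hsE : Sat K θ E.N) (hs : Sat K θ C) {I : Type u} [LinearOrder I]
    [WellFoundedLT I] [Nonempty I] (hI : #I ≤ θ) (s₀ : St E C Z)
    (Q : I → St E C Z → St E C Z → Prop) (step : ∀ i s, ∃ s', s ≤ s' ∧ Q i s s') :
    ∃ (b : I → St E C Z) (g : E.N ≃[L] C), Monotone b ∧ (∀ i, (∀ j, ¬ j < i) → b i = s₀) ∧
      (∀ i j, i ⋖ j → Q i (b i) (b j)) ∧
      (∀ i, IsLim i → (b i).D = ⋃ j : Iio i, (b j).D ∧ Iio (b i).a = ⋃ j : Iio i, Iio (b j).a ∧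
        ((b i).M : Set C) = ⋃ j : Iio i, ((b j).M : Set C)) ∧
      (∀ i, ∀ p ∈ (b i).x.R, g p.1 = p.2) ∧
      ∀ i, ((b i).M : Set C) = g '' (hullL E (low F (Iio (b i).a)) : Set E.N) := by
  have hθ : ℵ₀ ≤ θ := hK.1.trans hℓ
  have hEc : #E.N = Order.succ θ := by
    refine E.card_eq (hν.trans (Order.le_succ θ)) ?_
    have h1 : #(SuccTy θ) = Order.succ θ := by rw [mk_toType, card_ord]
    have h2 : #(SuccTy θ ⊕ₗ F) = #(SuccTy θ) + #F := by
      change #(SuccTy θ ⊕ F) = _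
      rw [mk_sum, lift_id, lift_id]
    rw [h2, h1]
    exact add_eq_left (hθ.trans (Order.le_succ θ)) (hF.trans (Order.le_succ θ))
  have hU : ∀ i : I, IsLim i → ∀ c : Iio i → St E C Z, Monotone c → ∃ b, IsLUB (range c) b := by
    intro i hi c hc
    have hne : Nonempty (Iio i) := ⟨⟨_, hi.1.choose_spec⟩⟩
    obtain ⟨s, hs, -⟩ := St.exists_isLUB hθ ((mk_set_le _).trans hI) c hc
    exact ⟨s, hs⟩
  obtain ⟨b, hb1, hb2, hb3, hb4⟩ := exists_cont hU s₀ Q step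
  obtain ⟨s, -, hs2, -, -⟩ := St.exists_isLUB hθ hI b hb1
  obtain ⟨g, hg⟩ := s.x.exists_iso hK hℓ E.mem hC hsE hs hEc hCc
  have hg' : ∀ i, ∀ p ∈ (b i).x.R, g p.1 = p.2 := fun i p hp => hg p (by
    rw [hs2]
    exact mem_iUnion.2 ⟨i, hp⟩)
  refine ⟨b, g, hb1, hb2, hb3, fun i hi => ?_, hg', fun i => ?_⟩
  · have hne : Nonempty (Iio i) := ⟨⟨_, hi.1.choose_spec⟩⟩
    obtain ⟨s', hs1, hs2, hs3, hs4⟩ := St.exists_isLUB hθ ((mk_set_le _).trans hI)
      (fun j : Iio i => b j) (fun j k hjk => hb1 hjk)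
    have h1 : IsLUB (range fun j : Iio i => b j) (b i) := by
      have h2 := hb4 i hi
      rw [image_eq_range] at h2
      exact h2
    have h2 : b i ≤ s' := h1.2 hs1.1
    have h3 : s' ≤ b i := hs1.2 h1.1
    have h4 : (b i).x.R = s'.x.R := Subset.antisymm h2.1 h3.1
    refine ⟨?_, ?_, ?_⟩
    · rw [← hs3]
      exact Subset.antisymm h2.2.2 h3.2.2
    · rw [iUnion_Iio_of_isLUB hs4, le_antisymm h2.2.1 h3.2.1]
    · change ((b i).x.S' : Set C) = ⋃ j : Iio i, ((b j).x.S' : Set C)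
      rw [(b i).x.snd, h4, hs2, image_iUnion]
      exact iUnion_congr fun j => (b j).x.snd.symm
  · change ((b i).x.S' : Set C) = _
    rw [← (b i).std, (b i).x.snd, (b i).x.fst]
    ext z
    constructor
    · rintro ⟨p, hp, rfl⟩
      exact ⟨p.1, ⟨p, hp, rfl⟩, hg' i p hp⟩
    · rintro ⟨_, ⟨p, hp, rfl⟩, rfl⟩
      exact ⟨p, hp, (hg' i p hp).symm⟩

/-- Isomorphisms preserve the equality of types. -/
theorem eqS_equiv {M N : Type u} [L.Structure M] [L.Structure N] (g : M ≃[L] N)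
    {μ : Cardinal.{u}} (hμ : ℵ₀ ≤ μ) {ι : Type u} (hι : #ι ≤ μ) (a : ι → M) :
    EqS L μ a (fun i => g (a i)) := by
  refine (good_gr_equiv hμ g (A := range a) (mk_range_le.trans hι)).subset ?_
  rintro _ ⟨i, rfl⟩
  exact mem_gr.2 ⟨⟨i, rfl⟩, rfl⟩

end Vale.Agent.P307.R2.H806
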