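import Vale.Agent.P307.R2.H806.Chain

/-!
Small tuples are in free position from standard submodels over small standard submodels.
-/

set_option linter.unusedSectionVars false

universe u v w

open FirstOrder Cardinal Set

namespace Vale.Agent.P307.R2.H806

open Vale.Agent.P307 Vale.Agent.P307.H304 Vale.Agent.P307.R2.H287 Vale.Agent.P307.R2.H971
  Language.Structure Language.Substructure

variable {L : Language.{u, u}} {K : AEC L} {ℓ θ T ν : Cardinal.{u}}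

section

variable {t : Tpl K ν} {F : Type u} [LinearOrder F] {E : EM t (SuccTy θ ⊕ₗ F)} {C : Type u}
  [L.Structure C]

/-- The part of `C` over the indices `V`, for the chart `x`. -/
def chA (x : Pos K θ E.N C) (V : Set (SuccTy θ)) : Set C :=
  {c | ∃ z ∈ hullL E (low F V), (z, c) ∈ x.R}

theorem chA_subset (x : Pos K θ E.N C) (V : Set (SuccTy θ)) : chA x V ⊆ x.S' := by
  rintro c ⟨z, hz, h⟩
  rw [x.snd]
  exact ⟨_, h, rfl⟩

theorem chA_mono (x : Pos K θ E.N C) {V V' : Set (SuccTy θ)} (h : V ⊆ V') : chA x V ⊆ chA x V' := by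
  rintro c ⟨z, hz, h'⟩
  exact ⟨z, hullL_mono E (low_mono h) hz, h'⟩

/-- Description with an isomorphism. -/
theorem chA_eq {x : Pos K θ E.N C} {a : SuccTy θ} (hx : IsStd x a) {V : Set (SuccTy θ)}
    (hV : V ⊆ Iio a) (g : E.N ≃[L] C) (hg : ∀ p ∈ x.R, g p.1 = p.2) :
    chA x V = g '' (hullL E (low F V) : Set E.N) := by
  ext c
  constructor
  · rintro ⟨z, hz, h⟩
    exact ⟨z, hz, hg _ h⟩
  · rintro ⟨z, hz, rfl⟩
    have h1 : z ∈ x.S := by
      rw [hx]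
      exact hullL_mono E (low_mono hV) hz
    rw [← SetLike.mem_coe, x.fst] at h1
    obtain ⟨p, hp, rfl⟩ := h1
    refine ⟨p.1, hz, ?_⟩
    rw [hg p hp]
    exact hp

theorem chA_Iio {x : Pos K θ E.N C} {a : SuccTy θ} (hx : IsStd x a) : chA x (Iio a) = x.S' := by
  apply Subset.antisymm (chA_subset x _)
  rw [x.snd]
  rintro _ ⟨p, hp, rfl⟩
  refine ⟨p.1, ?_, hp⟩
  rw [← hx, ← SetLike.mem_coe, x.fst]
  exact ⟨p, hp, rfl⟩

theorem chA_of_le {x y : Pos K θ E.N C} {a : SuccTy θ} (hx : IsStd x a) (h : x ≤ y)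
    {V : Set (SuccTy θ)} (hV : V ⊆ Iio a) : chA y V = chA x V := by
  apply Subset.antisymm
  · rintro c ⟨z, hz, h'⟩
    have h1 : z ∈ x.S := by
      rw [hx]
      exact hullL_mono E (low_mono hV) hz
    rw [← SetLike.mem_coe, x.fst] at h1
    obtain ⟨p, hp, rfl⟩ := h1
    refine ⟨p.1, hz, ?_⟩
    have h2 : p.2 = c := (y.pi.eq_iff _ (h hp) _ h').1 rfl
    rw [← h2]
    exact hp
  · rintro c ⟨z, hz, h'⟩
    exact ⟨z, hz, h h'⟩

/-- The strong submodel over a set of indices. -/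
theorem exists_chA (hE : Sat K θ E.N) (hs : Sat K θ C) (hK : K.IsLS ℓ) (hℓ : ℓ ≤ θ) (hν : ν ≤ θ)
    (hF : #F ≤ θ) (hC : K.mem C) (hCc : #C = Order.succ θ) {x : Pos K θ E.N C} {a : SuccTy θ}
    (hx : IsStd x a) {V : Set (SuccTy θ)} (hV : V ⊆ Iio a) :
    ∃ A : L.Substructure C, K.le A ∧ (A : Set C) = chA x V ∧ A ≤ x.S' ∧
      ∀ ρ, ν ≤ ρ → #F ≤ ρ → #V ≤ ρ → #A ≤ ρ := by
  have hθ : ℵ₀ ≤ θ := hK.1.trans hℓ
  have hEc : #E.N = Order.succ θ := by
    refine E.card_eq (hν.trans (Order.le_succ θ)) ?_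
    have h1 : #(SuccTy θ) = Order.succ θ := by rw [mk_toType, card_ord]
    have h2 : #(SuccTy θ ⊕ₗ F) = #(SuccTy θ) + #F := by
      change #(SuccTy θ ⊕ F) = _
      rw [mk_sum, lift_id, lift_id]
    rw [h2, h1]
    exact add_eq_left (hθ.trans (Order.le_succ θ)) (hF.trans (Order.le_succ θ))
  obtain ⟨g, hg⟩ := x.exists_iso hK hℓ E.mem hC hE hs hEc hCc
  have h1 : K.Emb (g.toEmbedding.comp (hullL E (low F V)).subtype) :=
    AEC.Emb.comp (AEC.Emb.of_equiv g E.mem) (AEC.emb_subtype.2 (le_hullL E _))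
  have h2 : ((g.toEmbedding.comp (hullL E (low F V)).subtype).toHom.range : Set C) = chA x V := by
    rw [chA_eq hx hV g hg]
    ext c
    constructor
    · rintro ⟨z, rfl⟩
      exact ⟨z.1, z.2, rfl⟩
    · rintro ⟨z, hz, rfl⟩
      exact ⟨⟨z, hz⟩, rfl⟩
  refine ⟨_, h1, h2, ?_, ?_⟩
  · intro c hc
    have h3 : c ∈ chA x V := h2 ▸ hc
    exact chA_subset x V h3
  · intro ρ h3 h4 h5
    refine (mk_range_le (f := g.toEmbedding.comp (hullL E (low F V)).subtype)).trans ?_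
    exact mk_hullL_le E h3 (mk_low_le (t.hν.trans h3) h5 h4)

end

section

variable {κf : Cardinal.{u} → Cardinal.{u}} {t : Tpl K ℓ} {τ : Cardinal.{u}}
  {E : EM t (SuccTy θ ⊕ₗ TailTy τ)} {C : Type u} [L.Structure C]

theorem mk_tailTy {τ : Cardinal.{u}} (hτ : ℵ₀ ≤ τ) : #(TailTy τ) = Order.succ τ := by
  have h1 : #(TailTy τ) = #(SuccTy τ) * #(SuccTy τ) := by
    change #((SuccTy τ) × SuccTy τ) = _
    rw [mul_def]
  rw [h1, mk_toType, card_ord]
  exact mul_eq_self (hτ.trans (Order.le_succ τ))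

theorem card_em (hθ : ℵ₀ ≤ θ) (hℓ : ℓ ≤ θ) (hτ : ℵ₀ ≤ τ) (hτθ : Order.succ τ ≤ θ)
    (E : EM t (SuccTy θ ⊕ₗ TailTy τ)) : #E.N = Order.succ θ := by
  refine E.card_eq (hℓ.trans (Order.le_succ θ)) ?_
  have h1 : #(SuccTy θ) = Order.succ θ := by rw [mk_toType, card_ord]
  have h2 : #(SuccTy θ ⊕ₗ TailTy τ) = #(SuccTy θ) + #(TailTy τ) := by
    change #(SuccTy θ ⊕ TailTy τ) = _
    rw [mk_sum, lift_id, lift_id]
  rw [h2, h1, mk_tailTy hτ]
  exact add_eq_left (hθ.trans (Order.le_succ θ)) (hτθ.trans (Order.le_succ θ))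

/-- **Small bases.** For a set `R` there is a small set `V` of indices such that all small tuples of
`R` can be moved into the part over `V` over small tuples of the standard submodel. -/
theorem exists_base (hK : K.IsLS ℓ) (hunb : ∀ ν, ν < κf ν ∧ K.CategoricalIn (κf ν))
    (hℓ : ℓ ≤ τ) (hτθ : Order.succ τ ≤ θ) (hthr : thr κf τ ≤ Order.succ θ)
    (hsE : Sat K θ E.N) (hC : K.mem C) (hCc : #C = Order.succ θ) (hs : Sat K θ C)
    {x : Pos K θ E.N C} {a : SuccTy θ} (hx : IsStd x a) {ρ : Cardinal.{u}} (hρ : ℵ₀ ≤ ρ)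
    (hρθ : ρ ≤ θ) (R : Set C) (hR : #R ≤ ρ) :
    ∃ V : Set (SuccTy θ), V ⊆ Iio a ∧ #V ≤ ρ ∧ ∀ V' : Set (SuccTy θ), V ⊆ V' → V' ⊆ Iio a →
      ∀ (ι ζ : Type u), #ι ≤ τ → #ζ ≤ τ → ∀ (r : ι → C) (m : ζ → C), (∀ i, r i ∈ R) →
        (∀ z, m z ∈ x.S') → ∃ r' : ι → C, (∀ i, r' i ∈ chA x V') ∧
          EqS L τ (Sum.elim m r) (Sum.elim m r') := by
  have hτ : ℵ₀ ≤ τ := hK.1.trans hℓ
  have hℓθ : ℓ ≤ θ := (hℓ.trans (Order.le_succ τ)).trans hτθ
  have hθ : ℵ₀ ≤ θ := hK.1.trans hℓθ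
  have hEc := card_em hθ hℓθ hτ hτθ E
  have hF : #(TailTy τ) ≤ θ := (mk_tailTy hτ).trans_le hτθ
  obtain ⟨y, b, hy, hxy, -, hRy, -⟩ := exists_std_ext hK hℓθ hℓθ hF hC ((Order.le_succ θ).trans
    hCc.ge) hsE hs x ∅ R (by simp) (hR.trans hρθ) a
  obtain ⟨g, hg⟩ := y.exists_iso hK hℓθ E.mem hC hsE hs hEc hCc
  obtain ⟨W, hW, hRW⟩ := exists_cover_hullL hρ E (g.symm '' R) (mk_image_le.trans hR)
  have hinl : Function.Injective
      (fun a : SuccTy θ => (toLex (Sum.inl a) : SuccTy θ ⊕ₗ TailTy τ)) :=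
    fun a b hab => Sum.inl_injective (toLex.injective hab)
  refine ⟨((fun a : SuccTy θ => (toLex (Sum.inl a) : SuccTy θ ⊕ₗ TailTy τ)) ⁻¹' W) ∩ Iio a,
    inter_subset_right, (mk_le_mk_of_subset inter_subset_left).trans
      ((mk_preimage_of_injective _ _ hinl).trans hW), ?_⟩
  intro V' hV' hV'a ι ζ hι hζ r m hr hm
  have hgx : ∀ p ∈ x.R, g p.1 = p.2 := fun p hp => hg p (hxy hp)
  have hm' : ∀ z, g.symm (m z) ∈ hull E (low (TailTy τ) (Iio a)) := by
    intro z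
    have h1 := hm z
    rw [← SetLike.mem_coe, ← chA_Iio hx, chA_eq hx Subset.rfl g hgx] at h1
    obtain ⟨w, hw, hw'⟩ := h1
    rw [← hw', g.symm_apply_apply]
    exact hw
  have hr' : ∀ i, g.symm (r i) ∈ hull E W := fun i => hRW ⟨r i, hr i, rfl⟩
  have htail : IsTail τ (range fun y : TailTy τ =>
      (toLex (Sum.inr y) : SuccTy θ ⊕ₗ TailTy τ)) := by
    rw [← image_univ]
    exact (isTail_tailTy hτ).image _ fun y y' h => Sum.Lex.inr_lt_inr_iff.2 h
  have hcut : IsCutExt (low (TailTy τ) (Iio a)) (range fun y : TailTy τ =>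
      (toLex (Sum.inr y) : SuccTy θ ⊕ₗ TailTy τ)) :=
    isCutExt_low fun c hc d hd => lt_of_lt_of_le hc (not_lt.1 hd)
  obtain ⟨r', h1, h2⟩ := exists_coheir hK hunb hℓ E (hthr.trans hEc.ge) htail hcut
    (W₀ := low (TailTy τ) V') (by
      rintro _ ⟨y, rfl⟩
      exact inr_mem_low) (T := W) (by
      rintro q ⟨hq1, hq2⟩ c hc
      refine hV' ⟨?_, hq2 c hc⟩
      change toLex (Sum.inl c) ∈ W
      rw [← hc]
      exact hq1) hι hζ (fun z => g.symm (m z)) (fun i => g.symm (r i)) hm' hr'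
  refine ⟨fun i => g (r' i), fun i => ?_, ?_⟩
  · rw [chA_eq hx hV'a g hgx]
    exact ⟨r' i, h1 i, rfl⟩
  · have hζι : #(ζ ⊕ ι) ≤ τ := by
      rw [mk_sum, lift_id, lift_id]
      exact add_le_of_le hτ hζ hι
    have h3 := eqS_equiv g hτ hζι (Sum.elim (fun z => g.symm (m z)) fun i => g.symm (r i))
    have h4 := eqS_equiv g hτ hζι (Sum.elim (fun z => g.symm (m z)) r')
    have h5 : (fun i => g (Sum.elim (fun z => g.symm (m z)) (fun i => g.symm (r i)) i)) =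
        Sum.elim m r := by
      funext i
      rcases i with z | i
      · exact g.apply_symm_apply _
      · exact g.apply_symm_apply _
    have h6 : (fun i => g (Sum.elim (fun z => g.symm (m z)) r' i)) =
        Sum.elim m fun i => g (r' i) := by
      funext i
      rcases i with z | i
      · exact g.apply_symm_apply _
      · rfl
    rw [h5] at h3
    rw [h6] at h4
    exact (h3.symm.trans h2).trans h4

end

end Vale.Agent.P307.R2.H806
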