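import Vale.Agent.P307.R2.H296.TrIso

/-!
Extension of a prescribed reflection by one more face: the set `B` is independent from the set `Y`
over the model `P`, and the closed trace of `B` is saturated.
-/

universe u v

open Set Cardinal Function

namespace Vale.Agent.P307.R2.H806

open Vale.Agent.P307.R2.H541 Vale.Agent.P307.R2.H296

variable {C : Type u}

/-- `p` is a base of `x` for the subsets of `Y` of size less than `τ`. -/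
def Bas (M : PG C) (τ : Cardinal.{u}) (p x Y : Set C) : Prop :=
  ∀ g ∈ M.G, (∀ a ∈ p, g a = a) → ∀ D ⊆ Y, #D < τ → (∀ d ∈ D, g d ∈ Y) →
    ∃ h ∈ M.G, (∀ a ∈ p, h a = a) ∧ (∀ a ∈ x, h a = a) ∧ ∀ d ∈ D, h d = g d

/-- The sets of size less than `τ` have copies in `A` over the subsets of `A` of size less than
`τ`. -/
def Sa (M : PG C) (τ : Cardinal.{u}) (A : Set C) : Prop :=
  ∀ q ⊆ A, #q < τ → ∀ D : Set C, #D < τ → ∃ k ∈ M.G, (∀ x ∈ q, k x = x) ∧ ∀ d ∈ D, k d ∈ A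

/-- The subsets of `B` of size less than `τ` have copies in `P` over the subsets of `Q` of size less
than `τ`. -/
def Mv (M : PG C) (τ : Cardinal.{u}) (B P Q : Set C) : Prop :=
  ∀ E ⊆ B, #E < τ → ∀ q ⊆ Q, #q < τ → ∃ k ∈ M.G, (∀ x ∈ q, k x = x) ∧ ∀ e ∈ E, k e ∈ P

variable {M : PG C} {τ : Cardinal.{u}} {P B Y H p x x₀ y₀ q P₀ P₁ : Set C}

theorem Bas.mono {x' Y' : Set C} (h : Bas M τ p x Y) (hx : x' ⊆ x) (hY : Y' ⊆ Y) :
    Bas M τ p x' Y' := by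
  intro g hg hgp D hD hDc hgD
  by_cases hne : ∀ d ∈ D, g d ∈ Y
  · obtain ⟨k, hk, h1, h2, h3⟩ := h g hg hgp D (hD.trans hY) hDc hne
    exact ⟨k, hk, h1, fun a ha => h2 a (hx ha), h3⟩
  · exact absurd (fun d hd => hY (hgD d hd)) hne

/-- A base for the pieces of `P` is a base for the pieces of `Y`. -/
theorem Bas.up (hτ : ℵ₀ ≤ τ) (h : Bas M τ p x P) (hx : #x < τ) (hp : #p < τ)
    (hY : Mv M τ Y P (p ∪ x)) : Bas M τ p x Y := by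
  intro g hg hgp D hD hDc hgD
  obtain ⟨k, hk, h1, h2⟩ := hY (D ∪ g '' D) (union_subset hD (by
      rintro _ ⟨d, hd, rfl⟩
      exact hgD d hd))
    ((mk_union_le _ _).trans_lt (add_lt_of_lt hτ hDc (mk_image_le.trans_lt hDc)))
    (p ∪ x) Subset.rfl ((mk_union_le _ _).trans_lt (add_lt_of_lt hτ hp hx))
  obtain ⟨f, hf, h3, h4, h5⟩ := h (k * g * k⁻¹) (M.G.mul_mem (M.G.mul_mem hk hg) (M.G.inv_mem hk))
    (fun a ha => by
      have h6 : k⁻¹ a = a := PG.fix_inv (h1 a (Or.inl ha))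
      rw [Equiv.Perm.mul_apply, Equiv.Perm.mul_apply, h6, hgp a ha, h1 a (Or.inl ha)])
    (k '' D) (by
      rintro _ ⟨d, hd, rfl⟩
      exact h2 d (Or.inl hd)) (mk_image_le.trans_lt hDc) (by
      rintro _ ⟨d, hd, rfl⟩
      rw [Equiv.Perm.mul_apply, Equiv.Perm.mul_apply, PG.inv_ap]
      exact h2 _ (Or.inr ⟨d, hd, rfl⟩))
  refine ⟨k⁻¹ * f * k, M.G.mul_mem (M.G.mul_mem (M.G.inv_mem hk) hf) hk, fun a ha => ?_,
    fun a ha => ?_, fun d hd => ?_⟩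
  · rw [Equiv.Perm.mul_apply, Equiv.Perm.mul_apply, h1 a (Or.inl ha), h3 a ha,
      PG.fix_inv (h1 a (Or.inl ha))]
  · rw [Equiv.Perm.mul_apply, Equiv.Perm.mul_apply, h1 a (Or.inr ha), h4 a ha,
      PG.fix_inv (h1 a (Or.inr ha))]
  · rw [Equiv.Perm.mul_apply, Equiv.Perm.mul_apply, h5 _ ⟨d, hd, rfl⟩, Equiv.Perm.mul_apply,
      Equiv.Perm.mul_apply, PG.inv_ap, PG.inv_ap]

/-- **One more face.** -/
theorem ext_pair (hτ : ℵ₀ ≤ τ) (hno : NoOrd M.G τ) (hPY : P ⊆ Y) (hPB : P ⊆ B)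
    (hP : Sa M τ P) (hPH : Sa M τ (P ∩ H)) (hBH : Sa M τ (B ∩ H))
    (hMv : Mv M τ (B ∩ H) (P ∩ H) (Y ∩ H))
    {u₀ : Equiv.Perm C} (hu₀ : u₀ ∈ M.G) (hx₀ : x₀ ⊆ Y) (hx₀c : #x₀ < τ)
    (hux : ∀ x ∈ x₀, u₀ x ∈ Y ∩ H) (hy₀ : y₀ ⊆ B) (hy₀c : #y₀ < τ) (hqy : q ⊆ y₀)
    (hqH : q ⊆ H) (hP₀ : P₀ ⊆ P₁) (hP₁ : P₁ ⊆ x₀) (hP₁P : P₁ ⊆ P)
    (huP : ∀ x ∈ P₁, u₀ x ∈ P ∩ H) (huP₀ : ∀ x ∈ P₀, u₀ x = x)
    (hb₁ : Bas M τ P₁ y₀ Y) (hb₀ : Bas M τ P₀ q Y) :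
    ∃ g ∈ M.G, (∀ x ∈ x₀, g x = u₀ x) ∧ (∀ x ∈ q, g x = x) ∧ ∀ y ∈ y₀, g y ∈ B ∩ H := by
  classical
  have hP₁c : #P₁ < τ := (mk_le_mk_of_subset hP₁).trans_lt hx₀c
  have hqc : #q < τ := (mk_le_mk_of_subset hqy).trans_lt hy₀c
  have huPc : #(u₀ '' P₁) < τ := mk_image_le.trans_lt hP₁c
  have huPH : u₀ '' P₁ ⊆ P ∩ H := by
    rintro _ ⟨x, hx, rfl⟩
    exact huP x hx
  -- the copies of `y₀` over the small subsets of the trace of `P`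
  have hcopy : ∀ N ⊆ P ∩ H, #N < τ → ∃ f ∈ M.G, (∀ x ∈ q, f x = x) ∧ (∀ y ∈ y₀, f y ∈ B ∩ H) ∧
      ∃ N₁ ⊆ P, f '' N₁ = N ∧ ∀ x ∈ P₁, f x = u₀ x := by
    intro N hN hNc
    obtain ⟨v, hv, hv1, hv2⟩ := hP P₁ hP₁P hP₁c ((u₀⁻¹ : Equiv.Perm C) '' N)
      (mk_image_le.trans_lt hNc)
    let w : Equiv.Perm C := u₀ * v⁻¹
    have hw : w ∈ M.G := M.G.mul_mem hu₀ (M.G.inv_mem hv)
    have hw1 : ∀ x ∈ P₁, w x = u₀ x := fun x hx => by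
      change u₀ (v⁻¹ x) = u₀ x
      rw [PG.fix_inv (hv1 x hx)]
    let N₁ : Set C := (w⁻¹ : Equiv.Perm C) '' N
    have hN₁ : N₁ ⊆ P := by
      rintro _ ⟨n, hn, rfl⟩
      have h1 : w⁻¹ n = v (u₀⁻¹ n) := by
        rw [show w⁻¹ = v * u₀⁻¹ by simp [w], Equiv.Perm.mul_apply]
      rw [h1]
      exact hv2 _ ⟨n, hn, rfl⟩
    have hwN : ∀ n ∈ N₁, w n ∈ N := by
      rintro _ ⟨n, hn, rfl⟩
      rw [PG.ap_inv]
      exact hn
    obtain ⟨k, hk, hk1, hk2, hk3⟩ := hb₀ w hw (fun a ha => (hw1 a (hP₀ ha)).trans (huP₀ a ha))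
      (N₁ ∪ P₁) (union_subset (hN₁.trans hPY) (hP₁P.trans hPY))
      ((mk_union_le _ _).trans_lt (add_lt_of_lt hτ (mk_image_le.trans_lt hNc) hP₁c)) (by
        rintro d (hd | hd)
        · exact hPY (hN (hwN d hd)).1
        · rw [hw1 d hd]
          exact hPY (huP d hd).1)
    obtain ⟨s, hs, hs1, hs2⟩ := hBH (q ∪ (N ∪ u₀ '' P₁)) (union_subset
      (fun x hx => ⟨hy₀ (hqy hx), hqH hx⟩) (union_subset (fun x hx => ⟨hPB (hN hx).1, (hN hx).2⟩)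
        fun x hx => ⟨hPB (huPH hx).1, (huPH hx).2⟩))
      ((mk_union_le _ _).trans_lt (add_lt_of_lt hτ hqc ((mk_union_le _ _).trans_lt
        (add_lt_of_lt hτ hNc huPc)))) (k '' y₀) (mk_image_le.trans_lt hy₀c)
    have h5 : ∀ n ∈ N₁, (s * k) n = w n := by
      intro n hn
      rw [Equiv.Perm.mul_apply, hk3 n (Or.inl hn), hs1 _ (Or.inr (Or.inl (hwN n hn)))]
    refine ⟨s * k, M.G.mul_mem hs hk, fun x hx => ?_, fun y hy => hs2 _ ⟨y, hy, rfl⟩, N₁, hN₁, ?_,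
      fun x hx => ?_⟩
    · rw [Equiv.Perm.mul_apply, hk2 x hx, hs1 x (Or.inl hx)]
    · ext n
      constructor
      · rintro ⟨m, hm, rfl⟩
        rw [h5 m hm]
        exact hwN m hm
      · intro hn
        refine ⟨w⁻¹ n, ⟨n, hn, rfl⟩, ?_⟩
        rw [h5 _ ⟨n, hn, rfl⟩, PG.ap_inv]
    · rw [Equiv.Perm.mul_apply, hk3 x (Or.inr hx), hw1 x hx,
        hs1 _ (Or.inr (Or.inr ⟨x, hx, rfl⟩))]
  choose! F hF hFq hFy hFN using hcopy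
  by_contra hneg
  push Not at hneg
  let r : x₀ ⊕ y₀ → C := Sum.elim (fun x : x₀ => (x : C)) fun y : y₀ => (y : C)
  -- all the copies are wrong
  have hwrong : ∀ N ⊆ P ∩ H, #N < τ →
      ¬ Cj M.G (Sum.elim (fun x : x₀ => u₀ x) fun y : y₀ => F N y) r := by
    rintro N hN hNc ⟨g, hg, hgr⟩
    have h1 : ∀ x ∈ x₀, g⁻¹ x = u₀ x := fun x hx => by
      rw [Equiv.Perm.inv_eq_iff_eq]
      exact (hgr (Sum.inl ⟨x, hx⟩)).symm
    have h2 : ∀ y ∈ y₀, g⁻¹ y = F N y := fun y hy => by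
      rw [Equiv.Perm.inv_eq_iff_eq]
      exact (hgr (Sum.inr ⟨y, hy⟩)).symm
    obtain ⟨y, hy, hy'⟩ := hneg g⁻¹ (M.G.inv_mem hg) h1 (fun x hx => by
      rw [h2 x (hqy hx), hFq N hN hNc x hx])
    rw [h2 y hy] at hy'
    exact hy' (hFy N hN hNc y hy)
  obtain ⟨lam, hlam, hord⟩ := hno (max (#x₀) (#y₀)) (max_lt hx₀c hy₀c)
  let W : Type u := lam.ord.ToType
  have hW : #W = lam := by rw [mk_toType, card_ord]
  let β : Type u := (x₀ → C) × (y₀ → C)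
  have : Nonempty β := ⟨(fun b => b, fun x => x)⟩
  let Nf : W → (W → β) → Set C := fun i F' => u₀ '' P₁ ∪
    ((range fun z : {j : W // j < i} × x₀ => (F' z.1).1 z.2) ∪
      range fun z : {j : W // j < i} × y₀ => (F' z.1).2 z.2)
  let Pr : W → (W → β) → β → Prop := fun i F' wz =>
    (∀ x, wz.1 x ∈ P ∩ H) ∧ (∀ y, wz.2 y ∈ P ∩ H) ∧
    (∃ k ∈ M.G, (∀ x : x₀, k (u₀ x) = wz.1 x) ∧ (∀ y, k (wz.2 y) = wz.2 y) ∧
      (∀ j < i, ∀ y, k ((F' j).2 y) = (F' j).2 y) ∧ ∀ x ∈ P₁, k (u₀ x) = u₀ x) ∧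
    ∃ N ⊆ P ∩ H, #N < τ ∧ Nf i F' ⊆ N ∧ ∃ k ∈ M.G, (∀ x ∈ N, k x = x) ∧
      (∀ x : x₀, k (u₀ x) = u₀ x) ∧ ∀ y : y₀, k (F N y) = wz.2 y
  obtain ⟨G', hG'⟩ := exists_wf_seq (β := β) Pr (by
    rintro i F₁ F₂ hFF ⟨w, z⟩ ⟨h1, h2, ⟨k, hk, h3, h4, h5, h6⟩, N, hN, hNc, hN1, h7⟩
    refine ⟨h1, h2, ⟨k, hk, h3, h4, fun j hj y => ?_, h6⟩, N, hN, hNc, ?_, h7⟩
    · rw [← hFF j hj]
      exact h5 j hj y
    · refine Subset.trans ?_ hN1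
      refine union_subset_union_right _ (union_subset_union ?_ ?_)
      · rintro _ ⟨z, rfl⟩
        refine ⟨z, ?_⟩
        simp only [hFF z.1.1 z.1.2]
      · rintro _ ⟨z, rfl⟩
        refine ⟨z, ?_⟩
        simp only [hFF z.1.1 z.1.2]) (by
    intro i F' hF'
    have hic : #{j : W // j < i} < τ := (mk_subtype_le _).trans_lt (hW.trans_lt hlam)
    have hNi : Nf i F' ⊆ P ∩ H := by
      refine union_subset huPH (union_subset ?_ ?_)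
      · rintro _ ⟨z, rfl⟩
        exact (hF' z.1.1 z.1.2).1 _
      · rintro _ ⟨z, rfl⟩
        exact (hF' z.1.1 z.1.2).2.1 _
    have hNic : #(Nf i F') < τ := by
      refine (mk_union_le _ _).trans_lt (add_lt_of_lt hτ huPc ((mk_union_le _ _).trans_lt
        (add_lt_of_lt hτ ?_ ?_)))
      · refine mk_range_le.trans_lt ?_
        rw [mk_prod, lift_id, lift_id]
        exact mul_lt_of_lt hτ hic hx₀c
      · refine mk_range_le.trans_lt ?_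
        rw [mk_prod, lift_id, lift_id]
        exact mul_lt_of_lt hτ hic hy₀c
    obtain ⟨k, hk, hk1, hk2⟩ := hMv (F (Nf i F') '' y₀) (by
        rintro _ ⟨y, hy, rfl⟩
        exact hFy _ hNi hNic y hy) (mk_image_le.trans_lt hy₀c) (u₀ '' x₀ ∪ Nf i F')
      (union_subset (by
        rintro _ ⟨x, hx, rfl⟩
        exact hux x hx) fun x hx => ⟨hPY (hNi hx).1, (hNi hx).2⟩)
      ((mk_union_le _ _).trans_lt (add_lt_of_lt hτ (mk_image_le.trans_lt hx₀c) hNic))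
    let z : y₀ → C := fun y => k (F (Nf i F') y)
    have hz : ∀ y, z y ∈ P ∩ H := fun y => hk2 _ ⟨y, y.2, rfl⟩
    obtain ⟨k', hk', hk'1, hk'2⟩ := hPH (range z ∪ Nf i F') (union_subset (by
        rintro _ ⟨y, rfl⟩
        exact hz y) hNi) ((mk_union_le _ _).trans_lt (add_lt_of_lt hτ (mk_range_le.trans_lt hy₀c)
        hNic)) (u₀ '' x₀) (mk_image_le.trans_lt hx₀c)
    refine ⟨(fun x => k' (u₀ x), z), fun x => hk'2 _ ⟨x, x.2, rfl⟩, hz,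
      ⟨k', hk', fun x => rfl, fun y => hk'1 _ (Or.inl ⟨y, rfl⟩), fun j hj y =>
        hk'1 _ (Or.inr (Or.inr (Or.inr ⟨(⟨j, hj⟩, y), rfl⟩))), fun x hx =>
        hk'1 _ (Or.inr (Or.inl ⟨x, hx, rfl⟩))⟩, Nf i F', hNi, hNic, Subset.rfl, k, hk,
      fun x hx => hk1 x (Or.inr hx), fun x => hk1 _ (Or.inl ⟨x, x.2, rfl⟩), fun y => rfl⟩)
  refine hord W hW.ge x₀ y₀ (le_max_left _ _) (le_max_right _ _) (fun i => (G' i).1)
    (fun i => (G' i).2) r ?_ ?_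
  · -- `j < i`: right
    intro j i hji
    obtain ⟨-, -, -, N, hN, hNc, hNi, k, hk, hk1, -, hk3⟩ := hG' i
    obtain ⟨-, -, ⟨k', hk', hk'1, -, -, hk'4⟩, -⟩ := hG' j
    obtain ⟨N₁, hN₁, hN₁', hfP⟩ := hFN N hN hNc
    have hf := hF N hN hNc
    have hwN : ∀ x, (G' j).1 x ∈ N := fun x =>
      hNi (Or.inr (Or.inl ⟨(⟨j, hji⟩, x), rfl⟩))
    -- the map which fixes `P₁`
    let κ : Equiv.Perm C := (F N)⁻¹ * k' * u₀
    have hκ : κ ∈ M.G := M.G.mul_mem (M.G.mul_mem (M.G.inv_mem hf) hk') hu₀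
    have hκ1 : ∀ x ∈ P₁, κ x = x := fun x hx => by
      change (F N)⁻¹ (k' (u₀ x)) = x
      rw [hk'4 x hx, Equiv.Perm.inv_eq_iff_eq, hfP x hx]
    have hκx : ∀ x : x₀, κ x = (F N)⁻¹ ((G' j).1 x) := fun x => by
      change (F N)⁻¹ (k' (u₀ x)) = _
      rw [hk'1 x]
    obtain ⟨h, hh, -, hh2, hh3⟩ := hb₁ κ hκ hκ1 x₀ hx₀ hx₀c (by
      intro x hx
      rw [hκx ⟨x, hx⟩]
      have h1 : (G' j).1 ⟨x, hx⟩ ∈ (F N) '' N₁ := by
        rw [hN₁']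
        exact hwN _
      obtain ⟨n, hn, hn'⟩ := h1
      rw [← hn', PG.inv_ap]
      exact hPY (hN₁ hn))
    refine Cj.symm ⟨k * F N * h, M.G.mul_mem (M.G.mul_mem hk hf) hh, ?_⟩
    rintro (x | y)
    · change k (F N (h x)) = (G' j).1 x
      rw [hh3 x x.2, hκx x, PG.ap_inv, hk1 _ (hwN x)]
    · change k (F N (h y)) = (G' i).2 y
      rw [hh2 y y.2, hk3 y]
  · -- `i < j`: wrong
    intro i j hij h
    obtain ⟨-, -, -, N, hN, hNc, -, k, hk, -, hk2, hk3⟩ := hG' i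
    obtain ⟨-, -, ⟨k', hk', hk'1, -, hk'3, -⟩, -⟩ := hG' j
    refine hwrong N hN hNc (Cj.trans ?_ h)
    refine ⟨k' * k, M.G.mul_mem hk' hk, ?_⟩
    rintro (x | y)
    · change k' (k (u₀ x)) = (G' j).1 x
      rw [hk2 x, hk'1 x]
    · change k' (k (F N y)) = (G' i).2 y
      rw [hk3 y, hk'3 i hij y]

end Vale.Agent.P307.R2.H806
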