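import Vale.Agent.P307.R2.H806.ExtPair
import Vale.Agent.P307.R2.H806.LimPG
import Vale.Agent.P307.R2.H68.AllD
import Vale.Agent.P307.R2.H287.PackPG

/-!
Joint reflection of the closed traces of an independent pair of models, by the nonsplitting of the
types and the absence of the order property.
-/

set_option linter.unusedSectionVars false

universe u v

open FirstOrder Cardinal Set

namespace Vale.Agent.P307.R2.H806

open Vale.Agent.P307 Vale.Agent.P307.H304 Vale.Agent.P307.R2.H287 Vale.Agent.P307.R2.H1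
  Vale.Agent.P307.R2.H971 Vale.Agent.P307.R2.H804 Vale.Agent.P307.R2.H541
  Vale.Agent.P307.R2.H541.PG Vale.Agent.P307.R2.H533 Language.Structure Language.Substructure
open Vale.Agent.P307.R2.H296 (NoOrd)
open Vale.Agent.P307.R2.H68 (Clo exists_clo)

section abs

variable {C : Type u} {M : PG C} {τ : Cardinal.{u}} {P A Q H p x : Set C}

theorem Bas.base {p' Y : Set C} (h : Bas M τ p x Y) (hτ : ℵ₀ ≤ τ) (hp : p ⊆ p') (hp' : p' ⊆ Y)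
    (hc : #p' < τ) : Bas M τ p' x Y := by
  intro g hg hgp D hD hDc hgD
  obtain ⟨k, hk, -, h2, h3⟩ := h g hg (fun a ha => hgp a (hp ha)) (D ∪ p') (union_subset hD hp')
    ((mk_union_le _ _).trans_lt (add_lt_of_lt hτ hDc hc)) (by
      rintro d (hd | hd)
      · exact hgD d hd
      · rw [hgp d hd]
        exact hp' hd)
  exact ⟨k, hk, fun a ha => (h3 a (Or.inr ha)).trans (hgp a ha), h2, fun d hd => h3 d (Or.inl hd)⟩

/-- **Joint reflection for an independent pair.** -/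
theorem jr_pair (hτ : ℵ₀ ≤ τ) (hno : NoOrd M.G τ) (hPA : P ⊆ A) (hPQ : P ⊆ Q)
    (hP : Sa M τ P) (hPH : Sa M τ (P ∩ H)) (hAH : Sa M τ (A ∩ H)) (hQH : Sa M τ (Q ∩ H))
    (hec : Mv M τ P (P ∩ H) H) (hAP : Mv M τ A P Q)
    (hb : ∀ x ⊆ A, #x < τ → ∃ p ⊆ P, #p < τ ∧ Bas M τ p x Q)
    (hbH : ∀ x ⊆ A ∩ H, #x < τ → ∃ p ⊆ P ∩ H, #p < τ ∧ Bas M τ p x Q)
    {E q : Set C} (hE : #E < τ) (hq : q ⊆ (A ∪ Q) ∩ H) (hqc : #q < τ) :
    ∃ g ∈ M.G, (∀ x ∈ q, g x = x) ∧ ∀ e ∈ E, (e ∈ P → g e ∈ P ∩ H) ∧ (e ∈ A → g e ∈ A ∩ H) ∧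
      (e ∈ Q → g e ∈ Q ∩ H) := by
  have hlt : ∀ {X Y : Set C}, #X < τ → #Y < τ → #(X ∪ Y : Set C) < τ := fun hX hY =>
    (mk_union_le _ _).trans_lt (add_lt_of_lt hτ hX hY)
  have hsub : ∀ {X Y : Set C}, X ⊆ Y → #Y < τ → #X < τ := fun h h' =>
    (mk_le_mk_of_subset h).trans_lt h'
  obtain ⟨P₀, hP₀, hP₀c, hB₀⟩ := hbH (q ∩ A) (fun x hx => ⟨hx.2, (hq hx.1).2⟩)
    (hsub inter_subset_left hqc)
  obtain ⟨P₁, hP₁, hP₁c, hB₁⟩ := hb ((E ∩ A) ∪ (q ∩ A)) (union_subset inter_subset_right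
    inter_subset_right) (hlt (hsub inter_subset_left hE) (hsub inter_subset_left hqc))
  let P₂ : Set C := (P₀ ∪ P₁) ∪ (E ∩ P)
  have hP₂ : P₂ ⊆ P := union_subset (union_subset (hP₀.trans inter_subset_left) hP₁)
    inter_subset_right
  have hP₂c : #P₂ < τ := hlt (hlt hP₀c hP₁c) (hsub inter_subset_left hE)
  have hB₂ : Bas M τ P₂ ((E ∩ A) ∪ (q ∩ A)) Q := hB₁.base hτ
    (subset_union_right.trans subset_union_left) (hP₂.trans hPQ) hP₂c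
  -- the part in `P` and the part in `Q`
  obtain ⟨k₁, hk₁, h1, h1'⟩ := hec P₂ hP₂ hP₂c (q ∪ P₀) (union_subset (hq.trans inter_subset_right)
    (hP₀.trans inter_subset_right)) (hlt hqc hP₀c)
  obtain ⟨k₂, hk₂, h2, h2'⟩ := hQH ((q ∩ Q) ∪ k₁ '' P₂) (union_subset
    (fun x hx => ⟨hx.2, (hq hx.1).2⟩) (by
      rintro _ ⟨x, hx, rfl⟩
      exact ⟨hPQ (h1' x hx).1, (h1' x hx).2⟩)) (hlt (hsub inter_subset_left hqc)
      (mk_image_le.trans_lt hP₂c)) (k₁ '' (E ∩ Q)) (mk_image_le.trans_lt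
      (hsub inter_subset_left hE))
  have hP₂k : ∀ x ∈ P₂, (k₂ * k₁) x = k₁ x := fun x hx => by
    rw [Equiv.Perm.mul_apply, h2 _ (Or.inr ⟨x, hx, rfl⟩)]
  let x₀ : Set C := ((E ∩ Q) ∪ (q ∩ Q)) ∪ P₂
  have hx₀ : x₀ ⊆ Q := union_subset (union_subset inter_subset_right inter_subset_right)
    (hP₂.trans hPQ)
  have hx₀c : #x₀ < τ := hlt (hlt (hsub inter_subset_left hE) (hsub inter_subset_left hqc)) hP₂c
  have hkx : ∀ x ∈ x₀, (k₂ * k₁) x ∈ Q ∩ H := by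
    rintro x ((hx | hx) | hx)
    · rw [Equiv.Perm.mul_apply]
      exact h2' _ ⟨x, hx, rfl⟩
    · rw [Equiv.Perm.mul_apply, h1 x (Or.inl hx.1), h2 x (Or.inl hx)]
      exact ⟨hx.2, (hq hx.1).2⟩
    · rw [hP₂k x hx]
      exact ⟨hPQ (h1' x hx).1, (h1' x hx).2⟩
  have hP₀2 : ∀ x ∈ P₀, (k₂ * k₁) x = x := fun x hx => by
    rw [hP₂k x (Or.inl (Or.inl hx)), h1 x (Or.inr hx)]
  obtain ⟨u₀, hu₀, h3, h4, h5⟩ := hB₀ (k₂ * k₁) (M.G.mul_mem hk₂ hk₁) hP₀2 x₀ hx₀ hx₀c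
    fun d hd => (hkx d hd).1
  obtain ⟨g, hg, hg1, hg2, hg3⟩ := ext_pair (M := M) (P := P) (B := A) (Y := Q) (H := H)
    (x₀ := x₀) (y₀ := (E ∩ A) ∪ (q ∩ A)) (q := q ∩ A) (P₀ := P₀) (P₁ := P₂) hτ hno hPQ hPA hP hPH
    hAH (by
      intro E' hE' hE'c q' hq' hq'c
      obtain ⟨k, hk, hkq, hkE⟩ := hAP E' (hE'.trans inter_subset_left) hE'c q'
        (hq'.trans inter_subset_left) hq'c
      obtain ⟨k', hk', hk'q, hk'E⟩ := hec (k '' E') (by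
        rintro _ ⟨e, he, rfl⟩
        exact hkE e he) (mk_image_le.trans_lt hE'c) q' (hq'.trans inter_subset_right) hq'c
      refine ⟨k' * k, M.G.mul_mem hk' hk, fun x hx => ?_, fun e he => ?_⟩
      · rw [Equiv.Perm.mul_apply, hkq x hx, hk'q x hx]
      · rw [Equiv.Perm.mul_apply]
        exact hk'E _ ⟨e, he, rfl⟩) hu₀ hx₀ hx₀c (fun x hx => by
      rw [h5 x hx]
      exact hkx x hx) (union_subset inter_subset_right inter_subset_right)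
    (hlt (hsub inter_subset_left hE) (hsub inter_subset_left hqc)) subset_union_right
    (fun x hx => (hq hx.1).2) (subset_union_left.trans subset_union_left) subset_union_right hP₂
    (fun x hx => by
      rw [h5 x (Or.inr hx), hP₂k x hx]
      exact h1' x hx) h3 hB₂ hB₀
  refine ⟨g, hg, fun x hx => ?_, fun e he => ⟨fun hP' => ?_, fun hA' => ?_, fun hQ' => ?_⟩⟩
  · rcases (hq hx).1 with hxA | hxQ
    · exact hg2 x ⟨hx, hxA⟩
    · have h6 : x ∈ x₀ := Or.inl (Or.inr ⟨hx, hxQ⟩)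
      rw [hg1 x h6, h5 x h6, Equiv.Perm.mul_apply, h1 x (Or.inl hx), h2 x (Or.inl ⟨hx, hxQ⟩)]
  · have h6 : e ∈ P₂ := Or.inr ⟨he, hP'⟩
    rw [hg1 e (Or.inr h6), h5 e (Or.inr h6), hP₂k e h6]
    exact h1' e h6
  · exact hg3 e (Or.inl ⟨he, hA'⟩)
  · have h6 : e ∈ x₀ := Or.inl (Or.inl ⟨he, hQ'⟩)
    rw [hg1 e h6, h5 e h6]
    exact hkx e h6

/-- **Bases in the closed traces.** -/
theorem Low.bas {D : Set C} {M' : PG D} (hL : M.Low D M') (hM' : M'.Calc) (hHD : H ⊆ D)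
    (hP : tr D (P ∩ H) ∈ M'.S) (hec : Mv M M'.χ P (P ∩ H) H) (hx : x ⊆ H) (hxc : #x < M'.χ) :
    ∃ p ⊆ P ∩ H, #p < M'.χ ∧ Bas M M'.χ p x P := by
  have hτ := M'.hχ
  obtain ⟨p', hp', hp'c, hb⟩ := hM'.based hP (E := tr D x) (by rwa [mk_tr (hx.trans hHD)])
  have hp'c' : #(Subtype.val '' p' : Set C) < M'.χ := by rwa [mk_val]
  refine ⟨Subtype.val '' p', val_sub hp', hp'c', ?_⟩
  intro g hg hgp E hE hEc hgE
  have hpH : (Subtype.val '' p' : Set C) ⊆ H := (val_sub hp').trans inter_subset_right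
  obtain ⟨k, hk, hk1, hk2⟩ := hec (E ∪ g '' E) (union_subset hE (by
      rintro _ ⟨d, hd, rfl⟩
      exact hgE d hd)) ((mk_union_le _ _).trans_lt (add_lt_of_lt hτ hEc
      (mk_image_le.trans_lt hEc))) (Subtype.val '' p' ∪ x) (union_subset hpH hx)
    ((mk_union_le _ _).trans_lt (add_lt_of_lt hτ hp'c' hxc))
  let g₁ : Equiv.Perm C := k * g * k⁻¹
  have hg₁ : g₁ ∈ M.G := M.G.mul_mem (M.G.mul_mem hk hg) (M.G.inv_mem hk)
  have hkE : ∀ e ∈ E, k e ∈ P ∩ H := fun e he => hk2 e (Or.inl he)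
  have hkgE : ∀ e ∈ E, g₁ (k e) ∈ P ∩ H := fun e he => by
    change k (g (k⁻¹ (k e))) ∈ P ∩ H
    rw [inv_ap]
    exact hk2 _ (Or.inr ⟨e, he, rfl⟩)
  have hg₁p : ∀ a ∈ (Subtype.val '' p' : Set C), g₁ a = a := fun a ha => by
    change k (g (k⁻¹ a)) = a
    rw [fix_inv (hk1 a (Or.inl ha)), hgp a ha, hk1 a (Or.inl ha)]
  have hA : (Subtype.val '' p' ∪ k '' E : Set C) ⊆ D := union_subset (hpH.trans hHD) (by
    rintro _ ⟨e, he, rfl⟩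
    exact hHD (hkE e he).2)
  have hAc : #(Subtype.val '' p' ∪ k '' E : Set C) < M'.χ :=
    (mk_union_le _ _).trans_lt (add_lt_of_lt hτ hp'c' (mk_image_le.trans_lt hEc))
  obtain ⟨g', hg', h1⟩ := hL.dn' hA hAc hg₁ (by
    rintro a (ha | ⟨e, he, rfl⟩)
    · rw [hg₁p a ha]
      exact hHD (hpH ha)
    · exact hHD (hkgE e he).2)
  have hEP : tr D (k '' E) ⊆ tr D (P ∩ H) := by
    intro y hy
    obtain ⟨e, he, h2⟩ := hy
    have h3 := hkE e he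
    rw [h2] at h3
    exact h3
  have htr : ∀ {Z : Set D}, Z ⊆ tr D (P ∩ H) → M'.Ind (tr D (P ∩ H)) (tr D x) Z := by
    intro Z hZ A' _ _ B' hB' _
    exact ⟨1, M'.G.one_mem, fun _ _ => rfl, fun b hb => hZ (hB' hb)⟩
  obtain ⟨f, hf, hf1, hf2, hf3⟩ := hb g' hg' (fun a ha => by
      refine Subtype.ext ?_
      rw [h1 a (Or.inl ⟨a, ha, rfl⟩)]
      exact hg₁p _ ⟨a, ha, rfl⟩) (tr D (k '' E)) ((mk_tr_le _).trans_lt
      (mk_image_le.trans_lt hEc)) (htr hEP) (htr (by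
      rintro _ ⟨y, hy, rfl⟩
      obtain ⟨e, he, h2⟩ := hy
      change (g' y : C) ∈ P ∩ H
      rw [h1 y (Or.inr ⟨e, he, h2⟩), ← h2]
      exact hkgE e he))
  obtain ⟨f₁, hf₁, h4⟩ := hL.up' (A := (Subtype.val '' p' ∪ k '' E) ∪ x)
    (union_subset hA (hx.trans hHD)) ((mk_union_le _ _).trans_lt (add_lt_of_lt hτ hAc hxc)) hf
  have hf₁p : ∀ a ∈ (Subtype.val '' p' : Set C), f₁ a = a := by
    rintro _ ⟨a, ha, rfl⟩
    rw [h4 a (Or.inl (Or.inl ⟨a, ha, rfl⟩)), hf1 a ha]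
  have hf₁x : ∀ a ∈ x, f₁ a = a := by
    intro a ha
    have h5 := h4 ⟨a, hHD (hx ha)⟩ (Or.inr ha)
    rw [hf2 ⟨a, hHD (hx ha)⟩ ha] at h5
    exact h5
  refine ⟨k⁻¹ * f₁ * k, M.G.mul_mem (M.G.mul_mem (M.G.inv_mem hk) hf₁) hk, fun a ha => ?_,
    fun a ha => ?_, fun e he => ?_⟩
  · rw [Equiv.Perm.mul_apply, Equiv.Perm.mul_apply, hk1 a (Or.inl ha), hf₁p a ha,
      fix_inv (hk1 a (Or.inl ha))]
  · rw [Equiv.Perm.mul_apply, Equiv.Perm.mul_apply, hk1 a (Or.inr ha), hf₁x a ha,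
      fix_inv (hk1 a (Or.inr ha))]
  · have h6 : (k e) ∈ D := hHD (hkE e he).2
    have h7 := h4 ⟨k e, h6⟩ (Or.inl (Or.inr ⟨e, he, rfl⟩))
    rw [hf3 ⟨k e, h6⟩ ⟨e, he, rfl⟩, h1 ⟨k e, h6⟩ (Or.inr ⟨e, he, rfl⟩)] at h7
    rw [Equiv.Perm.mul_apply, Equiv.Perm.mul_apply]
    have h8 : f₁ (k e) = k (g e) := by
      refine h7.trans ?_
      change k (g (k⁻¹ (k e))) = k (g e)
      rw [inv_ap]
    rw [h8, inv_ap]

end abs

variable {L : Language.{u, u}} {K : AEC L} {ℓ θ τ : Cardinal.{u}}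
  {κf α : Cardinal.{u} → Cardinal.{u}} {C : Type u} [L.Structure C]

section

variable (h₀ : BasePt K ℓ κf α θ) (hK : K.IsLS ℓ)
  (hunb : ∀ ν, ν < κf ν ∧ K.CategoricalIn (κf ν)) (hst : Stab K ℓ α (H287.thr κf))
  (hCm : K.mem C) (hs : Sat K θ C) (hCc : #C = Order.succ θ)

theorem clo_left' {C : Type u} {φ ψ : Finset C → Set C} {H : Set C}
    (h : Clo (fun s => φ s ∪ ψ s) H) : Clo φ H :=
  fun s hs => subset_union_left.trans (h s hs)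

theorem clo_right' {C : Type u} {φ ψ : Finset C → Set C} {H : Set C}
    (h : Clo (fun s => φ s ∪ ψ s) H) : Clo ψ H :=
  fun s hs => subset_union_right.trans (h s hs)

/-- **The closed traces of one model.** -/
theorem pg_trace (hτ : BasePt K ℓ κf α τ) (hτθ : τ < θ) {P : Set C}
    (hP : P ∈ (pg h₀ hK hunb hst hCm hs hCc).S) :
    ∃ φ : Finset C → Set C, (∀ s, #(φ s) ≤ τ) ∧ ∀ H, Clo φ H → #H ≤ τ →
      P ∩ H ∈ Sm K τ C ∧ Mv (pg h₀ hK hunb hst hCm hs hCc) τ P (P ∩ H) H ∧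
      Sa (pg h₀ hK hunb hst hCm hs hCc) τ (P ∩ H) ∧
      ∀ x ⊆ H, #x < τ → ∃ p ⊆ P ∩ H, #p < τ ∧ Bas (pg h₀ hK hunb hst hCm hs hCc) τ p x P := by
  have hτ0 := aleph0_le_pt hτ hK
  obtain ⟨φ₁, h11, h12⟩ := H68.exists_closure_all h₀ hK hunb hst hCm hs hCc hτ.pt.lt hτ.pow hτθ.le hP
  obtain ⟨φ₂, h21, h22⟩ := exists_clo_pack h₀ hK hunb hst hCm hs hCc hτ hτθ hP (R := fun _ => P)
    fun _ => by
      obtain ⟨D, h1, -, h2⟩ := hP
      exact ⟨D, h1, h2⟩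
  refine ⟨fun s => φ₁ s ∪ φ₂ s, fun s => (mk_union_le _ _).trans ((add_le_add (h11 s)
    (h21 s)).trans (add_eq_self hτ0).le), fun H hH hHc => ?_⟩
  have hPH : P ∩ H ∈ Sm K τ C := (h22 H ⟨clo_right' hH, hHc⟩).1
  obtain ⟨-, -, hd⟩ := h12 H (clo_left' hH)
  have hMv : Mv (pg h₀ hK hunb hst hCm hs hCc) τ P (P ∩ H) H := by
    intro E hE hEc q hq hqc
    obtain ⟨q₀, h1, -, h2⟩ := (hd (max #E #q) (max_lt hEc hqc)).1 E hE (le_max_left _ _)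
    obtain ⟨g, hg, h3, h4⟩ := h2 q hq (le_max_right _ _)
    exact ⟨g, hg, h3, fun e he => h1 (h4 e he)⟩
  have hSa : Sa (pg h₀ hK hunb hst hCm hs hCc) τ (P ∩ H) := by
    intro q hq hqc D hDc
    obtain ⟨q₀, h1, -, h2⟩ := (hd (max #D #q) (max_lt hDc hqc)).2.1 D (le_max_left _ _)
    obtain ⟨g, hg, h3, h4⟩ := h2 q hq (le_max_right _ _)
    exact ⟨g, hg, h3, fun e he => h1 (h4 e he)⟩
  refine ⟨hPH, hMv, hSa, fun x hx hxc => ?_⟩
  obtain ⟨C', hC', hC'c, hC's, hY, -⟩ := exists_low' hτ hτθ (f := id) (Y := H) hHc h₀ hK hunb hCm hCc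
  exact Low.bas (M' := pgLow hK hunb hst hτ hC' hC'c hC's)
    (pg_low h₀ hK hunb hst hCm hs hCc hτ hτθ hC' hC'c hC's)
    (pg_calc hτ hK hunb hst (K.mem_of_le _ hC').1 hC's hC'c) hY
    (tr_mem hK hunb hst hτ hC' hC'c hC's hPH (inter_subset_right.trans hY)) hMv hx hxc

/-- Bases of size less than `τ`. -/
theorem pg_bas (hτ : BasePt K ℓ κf α τ) (hτθ : τ < θ) {P : Set C}
    (hP : P ∈ (pg h₀ hK hunb hst hCm hs hCc).S) {x : Set C} (hx : #x < τ) :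
    ∃ p ⊆ P, #p < τ ∧ Bas (pg h₀ hK hunb hst hCm hs hCc) τ p x P := by
  obtain ⟨φ, h1, h2⟩ := pg_trace h₀ hK hunb hst hCm hs hCc hτ hτθ hP
  obtain ⟨H, h3, h4, h5⟩ := exists_clo (aleph0_le_pt hτ hK) h1 x hx.le
  obtain ⟨p, h6, h7, h8⟩ := (h2 H h3 h5).2.2.2 x h4 hx
  exact ⟨p, h6.trans inter_subset_left, h7, h8⟩

theorem pg_sa (hτθ : τ ≤ θ) {P : Set C} (hP : P ∈ (pg h₀ hK hunb hst hCm hs hCc).S) :
    Sa (pg h₀ hK hunb hst hCm hs hCc) τ P :=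
  fun _ hq hqc _ hDc => (pg h₀ hK hunb hst hCm hs hCc).sat hP hq (hqc.trans_le hτθ)
    (hDc.trans_le hτθ)

/-- **Joint reflection of an independent pair of models into its closed traces.** -/
theorem pg_jr_pair (hτ : BasePt K ℓ κf α τ) (hτθ : τ < θ) {P A Q : Set C}
    (hP : P ∈ (pg h₀ hK hunb hst hCm hs hCc).S) (hA : A ∈ (pg h₀ hK hunb hst hCm hs hCc).S)
    (hQ : Q ∈ (pg h₀ hK hunb hst hCm hs hCc).S) (hPA : P ⊆ A) (hPQ : P ⊆ Q)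
    (hI : (pg h₀ hK hunb hst hCm hs hCc).Ind P A Q) :
    ∃ φ : Finset C → Set C, (∀ s, #(φ s) ≤ τ) ∧ ∀ H, Clo φ H → #H ≤ τ →
      ∀ E : Set C, #E < τ → ∀ q ⊆ (A ∪ Q) ∩ H, #q < τ →
        ∃ g ∈ (pg h₀ hK hunb hst hCm hs hCc).G, (∀ x ∈ q, g x = x) ∧ ∀ e ∈ E,
          (e ∈ P → g e ∈ P ∩ H) ∧ (e ∈ A → g e ∈ A ∩ H) ∧ (e ∈ Q → g e ∈ Q ∩ H) := by
  have hτ0 := aleph0_le_pt hτ hK
  obtain ⟨φ₁, h11, h12⟩ := pg_trace h₀ hK hunb hst hCm hs hCc hτ hτθ hP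
  obtain ⟨φ₂, h21, h22⟩ := pg_trace h₀ hK hunb hst hCm hs hCc hτ hτθ hA
  obtain ⟨φ₃, h31, h32⟩ := pg_trace h₀ hK hunb hst hCm hs hCc hτ hτθ hQ
  have hun : ∀ {X Y : Set C}, #X ≤ τ → #Y ≤ τ → #(X ∪ Y : Set C) ≤ τ := fun hX hY =>
    (mk_union_le _ _).trans ((add_le_add hX hY).trans (add_eq_self hτ0).le)
  refine ⟨fun s => φ₁ s ∪ (φ₂ s ∪ φ₃ s), fun s => hun (h11 s) (hun (h21 s) (h31 s)),
    fun H hH hHc E hE q hq hqc => ?_⟩
  obtain ⟨-, hec, hPH, hbP⟩ := h12 H (clo_left' hH) hHc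
  obtain ⟨-, -, hAH, -⟩ := h22 H (clo_left' (clo_right' hH)) hHc
  obtain ⟨-, -, hQH, -⟩ := h32 H (clo_right' (clo_right' hH)) hHc
  have hM := pg_calc h₀ hK hunb hst hCm hs hCc
  have hI' := hM.sym hP hI
  -- pieces of `Q` move into `P` over pieces of `A`
  have hQP : ∀ {p x : Set C}, p ⊆ P → #p < τ → x ⊆ A → #x < τ →
      Mv (pg h₀ hK hunb hst hCm hs hCc) τ Q P (p ∪ x) := by
    intro p x hp _ hx _ E' hE' hE'c q' hq' hq'c
    exact hI q' (hq'.trans (union_subset_union hp hx)) (hq'c.trans hτθ) E' hE' (hE'c.trans hτθ)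
  refine jr_pair (M := pg h₀ hK hunb hst hCm hs hCc) hτ0
    (pg_noOrd h₀ hK hunb hst hCm hs hCc hτ hτθ) hPA hPQ
    (pg_sa h₀ hK hunb hst hCm hs hCc hτθ.le hP) hPH hAH hQH hec
    (fun E' hE' hE'c q' hq' hq'c => hI' q' (hq'.trans subset_union_right) (hq'c.trans hτθ) E' hE'
      (hE'c.trans hτθ)) (fun x hx hxc => ?_) (fun x hx hxc => ?_) hE hq hqc
  · obtain ⟨p, h1, h2, h3⟩ := pg_bas h₀ hK hunb hst hCm hs hCc hτ hτθ hP hxc
    exact ⟨p, h1, h2, h3.up hτ0 hxc h2 (hQP h1 h2 hx hxc)⟩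
  · obtain ⟨p, h1, h2, h3⟩ := hbP x (hx.trans inter_subset_right) hxc
    exact ⟨p, h1, h2, h3.up hτ0 hxc h2 (hQP (h1.trans inter_subset_left) h2
      (hx.trans inter_subset_left) hxc)⟩

open scoped Classical in
/-- **Joint reflection for the extensions of one model by one direction.** -/
theorem pg_jr_one (hτ : BasePt K ℓ κf α τ) (hτθ : τ < θ) {ι : Type u} {A : Finset ι → Set C}
    {S : Finset ι} {c : ι} (hS : S.card = 1) (hE : Ext1 (pg h₀ hK hunb hst hCm hs hCc) A S c) :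
    ∃ φ : Finset C → Set C, (∀ s, #(φ s) ≤ τ) ∧ ∀ H, Clo φ H → #H ≤ τ →
      (pg h₀ hK hunb hst hCm hs hCc).JR τ A (insert c S).ssubsets H (ibd A (insert c S) ∩ H) := by
  classical
  obtain ⟨s, rfl⟩ := Finset.card_eq_one.1 hS
  have hcs : c ≠ s := fun h => hE.notMem (by rw [h]; exact Finset.mem_singleton_self s)
  have hface : ∀ t, t ⊂ (insert c {s} : Finset ι) → t = ∅ ∨ t = {c} ∨ t = {s} := by
    intro t ht
    rcases face_cases hE.notMem ht with h | ⟨u, hu, rfl⟩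
    · rcases Finset.subset_singleton_iff.1 h with h | h
      · exact Or.inl h
      · exact Or.inr (Or.inr h)
    · rcases Finset.ssubset_singleton_iff.1 hu with rfl
      right; left
      rfl
  have h0 : A ∅ ∈ (pg h₀ hK hunb hst hCm hs hCc).S := hE.sys.mem (Finset.empty_subset _)
  have h1 : A {s} ∈ (pg h₀ hK hunb hst hCm hs hCc).S := hE.sys.mem (Finset.Subset.refl _)
  obtain ⟨φ, hφ, hφ'⟩ := pg_jr_pair h₀ hK hunb hst hCm hs hCc hτ hτθ h0 hE.memc h1 hE.base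
    (hE.sys.mono (Finset.Subset.refl _) (Finset.empty_subset _)) hE.ind
  refine ⟨φ, hφ, fun H hH hHc E _ hEc q hq hqc => ?_⟩
  obtain ⟨g, hg, h2, h3⟩ := hφ' H hH hHc E hEc q (by
    rintro x hx
    obtain ⟨⟨r, hr, hxr⟩, hxH⟩ := hq hx
    refine ⟨?_, hxH⟩
    rcases hface r hr with rfl | rfl | rfl
    · exact Or.inl (hE.base hxr)
    · exact Or.inl hxr
    · exact Or.inr hxr) hqc
  refine ⟨g, hg, h2, fun v hv e he hev => ?_⟩
  rcases hface v (Finset.mem_ssubsets.1 hv) with rfl | rfl | rfl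
  · exact (h3 e he).1 hev
  · exact (h3 e he).2.1 hev
  · exact (h3 e he).2.2 hev

end

end Vale.Agent.P307.R2.H806
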