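import Vale.Agent.P307.R2.H533.One
import Vale.Agent.P307.R2.H913.FinChain

/-!
Limits of coherent maps on the traces of the boundary of an extension of a system by one direction,
at one level.
-/

set_option linter.unusedSectionVars false

universe u v

open Set Cardinal Function

namespace Vale.Agent.P307.R2.H806

open Vale.Agent.P307.R2.H541 Vale.Agent.P307.R2.H541.PG Vale.Agent.P307.R2.H533
  Vale.Agent.P307.R2.H650 Vale.Agent.P307.R2.H913

open scoped Classical

variable {C : Type u} {M : PG C} {f : C → C} {P A B X : Set C}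

/-- A map on a model which preserves the types of the small pieces is induced by the group. -/
theorem le_model {F : Set C} (hF : F ∈ M.S) (hf : M.LE f F) : ∃ g ∈ M.G, ∀ a ∈ F, g a = f a := by
  obtain ⟨R, hR, hRT, hRF⟩ := M.exists_filtration hF
  have hRsub : ∀ n, R n ⊆ F := fun n => by
    rw [← hRF]
    exact subset_iUnion R n
  choose g hg hgf using fun n => hf (R n) (hRsub n) (M.T_card (hRT n))
  obtain ⟨h, hh, h1⟩ := M.lim R hR hRT (by rw [hRF]; exact hF) g hg (fun n a ha => by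
    rw [hgf n a ha, hgf (n + 1) a (hR (Nat.le_succ n) ha)])
  refine ⟨h, hh, fun a ha => ?_⟩
  rw [← hRF] at ha
  obtain ⟨n, hn⟩ := mem_iUnion.1 ha
  rw [h1 n a hn, hgf n a hn]

theorem le_of_G {g : Equiv.Perm C} (hg : g ∈ M.G) (h : ∀ a ∈ X, g a = f a) : M.LE f X :=
  fun _ hA _ => ⟨g, hg, fun a ha => h a (hA ha)⟩

theorem le_mono {Y : Set C} (hf : M.LE f X) (hY : Y ⊆ X) : M.LE f Y :=
  fun A hA hAc => hf A (hA.trans hY) hAc

/-- Images of independent sets. -/
theorem ind_map (h : M.Ind P A B) (hf : M.LE f (P ∪ A ∪ B)) :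
    M.Ind (f '' P) (f '' A) (f '' B) := by
  intro D hD hDc E hE hEc
  rw [← image_union] at hD
  have hf0 : InjOn f (P ∪ A ∪ B) := by
    intro x hx y hy hxy
    obtain ⟨g, -, hg⟩ := hf {x, y} (by
      rintro z (rfl | rfl)
      · exact hx
      · exact hy) (small_finite ((finite_singleton y).insert x))
    exact g.injective (by rw [hg x (Or.inl rfl), hg y (Or.inr rfl), hxy])
  -- preimages
  obtain ⟨D', hD', rfl, hD'c⟩ : ∃ D' ⊆ P ∪ A, f '' D' = D ∧ #D' < M.χ := by
    refine ⟨(P ∪ A) ∩ f ⁻¹' D, inter_subset_left, ?_, ?_⟩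
    · ext x
      constructor
      · rintro ⟨y, hy, rfl⟩
        exact hy.2
      · intro hx
        obtain ⟨y, hy, rfl⟩ := hD hx
        exact ⟨y, ⟨hy, hx⟩, rfl⟩
    · refine lt_of_le_of_lt ?_ hDc
      have h1 : InjOn f ((P ∪ A) ∩ f ⁻¹' D) := hf0.mono (inter_subset_left.trans subset_union_left)
      refine mk_le_of_injective (f := fun x : ↥((P ∪ A) ∩ f ⁻¹' D) => (⟨f x, x.2.2⟩ : D)) ?_
      intro x y hxy
      exact Subtype.ext (h1 x.2 y.2 (congrArg Subtype.val hxy))
  obtain ⟨E', hE', rfl, hE'c⟩ : ∃ E' ⊆ B, f '' E' = E ∧ #E' < M.χ := by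
    refine ⟨B ∩ f ⁻¹' E, inter_subset_left, ?_, ?_⟩
    · ext x
      constructor
      · rintro ⟨y, hy, rfl⟩
        exact hy.2
      · intro hx
        obtain ⟨y, hy, rfl⟩ := hE hx
        exact ⟨y, ⟨hy, hx⟩, rfl⟩
    · refine lt_of_le_of_lt ?_ hEc
      have h1 : InjOn f (B ∩ f ⁻¹' E) := hf0.mono (inter_subset_left.trans subset_union_right)
      refine mk_le_of_injective (f := fun x : ↥(B ∩ f ⁻¹' E) => (⟨f x, x.2.2⟩ : E)) ?_
      intro x y hxy
      exact Subtype.ext (h1 x.2 y.2 (congrArg Subtype.val hxy))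
  obtain ⟨g, hg, h1, h2⟩ := h D' hD' hD'c E' hE' hE'c
  obtain ⟨k, hk, h3⟩ := hf (D' ∪ E' ∪ g '' E') (by
    refine union_subset (union_subset (hD'.trans subset_union_left)
      (hE'.trans subset_union_right)) ?_
    rintro _ ⟨e, he, rfl⟩
    exact Or.inl (Or.inl (h2 e he)))
    (small_union (small_union hD'c hE'c) (small_image g hE'c))
  refine ⟨k * g * k⁻¹, M.G.mul_mem (M.G.mul_mem hk hg) (M.G.inv_mem hk), ?_, ?_⟩
  · rintro _ ⟨d, hd, rfl⟩
    rw [← h3 d (Or.inl (Or.inl hd)), Equiv.Perm.mul_apply, inv_ap, Equiv.Perm.mul_apply, h1 d hd]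
  · rintro _ ⟨e, he, rfl⟩
    rw [← h3 e (Or.inl (Or.inr he)), Equiv.Perm.mul_apply, inv_ap, Equiv.Perm.mul_apply,
      h3 (g e) (Or.inr ⟨e, he, rfl⟩)]
    exact ⟨g e, h2 e he, rfl⟩

/-- Maps on the union of a chain of models. -/
theorem le_chain (hC : Chn M) {I : Type u} [LinearOrder I] [Nonempty I] {F : I → Set C}
    (hF : Monotone F) (hFS : ∀ i, F i ∈ M.S) (hc : #(⋃ i, F i : Set C) ≤ M.χ)
    (hf : ∀ i, M.LE f (F i)) : ∃ g ∈ M.G, ∀ a ∈ ⋃ i, F i, g a = f a := by
  choose g hg hgf using fun i => le_model (hFS i) (hf i)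
  obtain ⟨h, hh, h1⟩ := hC.glue I F g hF hFS hc hg (fun i j hij a ha => by
    rw [hgf i a ha, hgf j a (hF hij ha)])
  refine ⟨h, hh, fun a ha => ?_⟩
  obtain ⟨i, hi⟩ := mem_iUnion.1 ha
  rw [h1 i a hi, hgf i a hi]

variable {ι : Type v} {I : Type u} [LinearOrder I] [Nonempty I] {A : Finset ι → Set C}
  {T : I → Finset ι → Set C} {S : Finset ι} {c : ι}

/-- The data of a chain of traces of a boundary. -/
structure Trc (M : PG C) (A : Finset ι → Set C) (T : I → Finset ι → Set C) (S : Finset ι)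
    (c : ι) : Prop where
  ext : Ext1 M A S c
  ne : S.Nonempty
  mem : ∀ i, ∀ t, t ⊂ insert c S → T i t ∈ M.S
  mono : ∀ t, t ⊂ insert c S → Monotone fun i => T i t
  un : ∀ t, t ⊂ insert c S → A t = ⋃ i, T i t
  sub0 : ∀ i, T i ∅ ⊆ T i S
  ind : ∀ i, M.Ind (T i ∅) (T i {c}) (T i S)

namespace Trc

theorem S_ss (h : Trc M A T S c) : S ⊂ insert c S := Finset.ssubset_insert h.ext.notMem

theorem e_ss (h : Trc M A T S c) : (∅ : Finset ι) ⊂ insert c S :=
  lt_of_le_of_lt (Finset.empty_subset S) h.S_ss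

theorem c_ss (h : Trc M A T S c) : ({c} : Finset ι) ⊂ insert c S := by
  refine lt_of_le_of_ne (Finset.singleton_subset_iff.2 (Finset.mem_insert_self c S)) ?_
  intro h1
  obtain ⟨z, hz⟩ := h.ne
  have h2 : z ∈ ({c} : Finset ι) := by
    rw [h1]
    exact Finset.mem_insert_of_mem hz
  rw [Finset.mem_singleton] at h2
  exact h.ext.notMem (h2 ▸ hz)

theorem Amem (h : Trc M A T S c) {t : Finset ι} (ht : t ⊂ insert c S) : A t ∈ M.S := by
  rcases face_cases h.ext.notMem ht with h1 | ⟨u, hu, rfl⟩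
  · exact h.ext.sys.mem h1
  · exact h.ext.memu hu

theorem sub (h : Trc M A T S c) {t : Finset ι} (ht : t ⊂ insert c S) (i : I) :
    T i t ⊆ A t := by
  rw [h.un t ht]
  exact subset_iUnion (fun i => T i t) i

/-- The union map on every face. -/
theorem face (h : Trc M A T S c) (hC : Chn M) (hf : ∀ i, M.LE f (ibd (T i) (insert c S)))
    {t : Finset ι} (ht : t ⊂ insert c S) : ∃ g ∈ M.G, ∀ a ∈ A t, g a = f a := by
  have hA := h.Amem ht
  have h1 := le_chain (f := f) hC (h.mono t ht) (fun i => h.mem i t ht)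
    (by rw [← h.un t ht]; exact (M.S_card hA).le)
    (fun i => le_mono (hf i) fun x hx => ⟨t, ht, hx⟩)
  rwa [← h.un t ht] at h1

/-- The image system. -/
theorem image (h : Trc M A T S c) (hC : Chn M) (hf : ∀ i, M.LE f (ibd (T i) (insert c S)))
    (hI : M.Ind (f '' A ∅) (f '' A {c}) (f '' A S)) : Ext1 M (fun t => f '' A t) S c := by
  have hface := fun {t : Finset ι} (ht : t ⊂ insert c S) => h.face hC hf ht
  have himg : ∀ {t : Finset ι}, t ⊂ insert c S → ∀ {g : Equiv.Perm C}, (∀ a ∈ A t, g a = f a) →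
      ∀ r, r ⊆ t → f '' A r = g '' A r := by
    intro t ht g hgf r hr
    refine image_congr fun x hx => (hgf x ?_).symm
    have hr' : r ⊂ insert c S := lt_of_le_of_lt hr ht
    rcases eq_or_ne r t with rfl | hne
    · exact hx
    · exact h.ext.fam.mono t (Finset.mem_ssubsets.2 ht) r hr hx
  refine ⟨?_, h.ext.notMem, ?_, image_mono h.ext.base, hI, fun u hu hu0 => ?_⟩
  · obtain ⟨g, hg, hgf⟩ := hface h.S_ss
    exact (h.ext.sys.smul hg).congr fun t ht => (himg h.S_ss hgf t ht).symm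
  · obtain ⟨g, hg, hgf⟩ := hface h.c_ss
    rw [himg h.c_ss hgf _ (Finset.Subset.refl _)]
    exact M.S_inv hg (h.Amem h.c_ss)
  · have hu1 : insert c u ⊂ insert c S := insert_ssubset_insert' h.ext.notMem hu
    obtain ⟨g, hg, hgf⟩ := hface hu1
    have h1 := atomic_map (h.ext.atomic u hu hu0) hg
    have h2 : ibd (fun t => f '' A t) (insert c u) = g '' ibd A (insert c u) := by
      ext x
      constructor
      · rintro ⟨r, hr, hx⟩
        change x ∈ f '' A r at hx
        rw [himg hu1 hgf r hr.1] at hx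
        obtain ⟨y, hy, rfl⟩ := hx
        exact ⟨y, ⟨r, hr, hy⟩, rfl⟩
      · rintro ⟨y, ⟨r, hr, hy⟩, rfl⟩
        refine ⟨r, hr, ?_⟩
        change g y ∈ f '' A r
        rw [himg hu1 hgf r hr.1]
        exact ⟨y, hy, rfl⟩
    rw [h2, himg hu1 hgf _ (Finset.Subset.refl _)]
    exact h1

/-- **The limit lemma**, from the independence of the image. -/
theorem le_of_ind (hM : M.Calc) (h : Trc M A T S c) (hC : Chn M)
    (hf : ∀ i, M.LE f (ibd (T i) (insert c S)))
    (hI : M.Ind (f '' A ∅) (f '' A {c}) (f '' A S)) : M.LE f (ibd A (insert c S)) := by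
  refine h.ext.le hM (h.image hC hf hI) f fun t ht => ?_
  obtain ⟨g, hg, hgf⟩ := h.face hC hf ht
  exact ⟨g, hg, hgf, image_congr fun x hx => hgf x hx⟩

/-- The independence of the images at the stages. -/
theorem ind_stage (h : Trc M A T S c) (hf : ∀ i, M.LE f (ibd (T i) (insert c S))) (i : I) :
    M.Ind (f '' T i ∅) (f '' T i {c}) (f '' T i S) := by
  refine ind_map (h.ind i) (le_mono (hf i) ?_)
  rintro x ((hx | hx) | hx)
  · exact ⟨∅, h.e_ss, hx⟩
  · exact ⟨_, h.c_ss, hx⟩
  · exact ⟨S, h.S_ss, hx⟩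

theorem imem (h : Trc M A T S c) (hC : Chn M) (hf : ∀ i, M.LE f (ibd (T i) (insert c S)))
    {t : Finset ι} (ht : t ⊂ insert c S) (i : I) : f '' T i t ∈ M.S := by
  obtain ⟨g, hg, hgf⟩ := h.face hC hf ht
  have h1 : f '' T i t = g '' T i t := image_congr fun x hx => (hgf x (h.sub ht i hx)).symm
  rw [h1]
  exact M.S_inv hg (h.mem i t ht)

theorem imem' (h : Trc M A T S c) (hC : Chn M) (hf : ∀ i, M.LE f (ibd (T i) (insert c S)))
    {t : Finset ι} (ht : t ⊂ insert c S) : f '' A t ∈ M.S := by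
  obtain ⟨g, hg, hgf⟩ := h.face hC hf ht
  have h1 : f '' A t = g '' A t := image_congr fun x hx => (hgf x hx).symm
  rw [h1]
  exact M.S_inv hg (h.Amem ht)

/-- The image of the independence for a direction generated by finitely many points. -/
theorem ind_of_finite (hM : M.Calc) (h : Trc M A T S c) (hC : Chn M)
    (hf : ∀ i, M.LE f (ibd (T i) (insert c S))) {p : Set C} (hp : p.Finite)
    (hat : M.Atomic (A {c}) (p ∪ A ∅)) :
    M.Ind (f '' A ∅) (f '' A {c}) (f '' A S) := by
  have hpA : p ⊆ A {c} := subset_union_left.trans hat.sub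
  have hA0 : A ∅ ⊆ A {c} := subset_union_right.trans hat.sub
  have hun : f '' A S = ⋃ i, f '' T i S := by
    rw [h.un S h.S_ss, image_iUnion]
  have hUS : f '' A S ∈ M.S := h.imem' hC hf h.S_ss
  have hUe : f '' A ∅ ∈ M.S := h.imem' hC hf h.e_ss
  -- a stage which contains the points
  obtain ⟨i₀, hi₀⟩ : ∃ i, p ⊆ T i {c} := by
    have h1 : ∀ x ∈ p, ∃ i, x ∈ T i {c} := fun x hx => by
      have h2 := hpA hx
      rw [h.un _ h.c_ss] at h2
      exact mem_iUnion.1 h2
    have key : ∀ q : Set C, q.Finite → q ⊆ p → ∃ i, q ⊆ T i {c} := by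
      intro q hq
      induction q, hq using Set.Finite.induction_on with
      | empty => exact fun _ => ⟨Classical.arbitrary I, empty_subset _⟩
      | @insert a q _ _ ih =>
        intro hqp
        obtain ⟨i, hi⟩ := ih ((subset_insert a q).trans hqp)
        obtain ⟨j, hj⟩ := h1 a (hqp (mem_insert a q))
        refine ⟨max i j, insert_subset (h.mono _ h.c_ss (le_max_right i j) hj)
          (hi.trans (h.mono _ h.c_ss (le_max_left i j)))⟩
    exact key p hp Subset.rfl
  -- local character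
  obtain ⟨j₀, hj₀⟩ := hC.loc I (fun i => f '' T i S)
    (fun i k hik => image_mono (h.mono S h.S_ss hik)) (fun i => h.imem hC hf h.S_ss i) (by
      rw [← hun]
      exact (M.S_card hUS).le) (f '' p) (hp.image f)
  rw [← hun] at hj₀
  obtain ⟨j, hj1, hj2⟩ : ∃ j, i₀ ≤ j ∧ j₀ ≤ j := ⟨max i₀ j₀, le_max_left _ _, le_max_right _ _⟩
  have hj : M.Ind (f '' T j S) (f '' p) (f '' A S) := by
    refine hM.ind_base (h.imem hC hf h.S_ss j₀) (h.imem hC hf h.S_ss j)
      (image_mono (h.mono S h.S_ss hj2)) (hj₀.mono Subset.rfl ?_)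
    exact union_subset (image_mono (h.sub h.S_ss j)) Subset.rfl
  have h1 : M.Ind (f '' T j ∅) (f '' p) (f '' T j S) :=
    (h.ind_stage hf j).mono (image_mono (hi₀.trans (h.mono _ h.c_ss hj1))) Subset.rfl
  have h2 : M.Ind (f '' T j ∅) (f '' p) (f '' A S) := h1.trans hj (image_mono (h.sub0 j))
  have hAS : A ∅ ⊆ A S := h.ext.sys.mono (Finset.Subset.refl S) (Finset.empty_subset S)
  have h3 : M.Ind (f '' A ∅) (f '' p) (f '' A S) := by
    refine hM.ind_base (h.imem hC hf h.e_ss j) hUe (image_mono (h.sub h.e_ss j))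
      (h2.mono Subset.rfl ?_)
    exact union_subset (image_mono hAS) Subset.rfl
  obtain ⟨g, hg, hgf⟩ := h.face hC hf h.c_ss
  have h4 := atomic_map hat hg
  have h5 : g '' A {c} = f '' A {c} := image_congr fun x hx => hgf x hx
  have h6 : g '' (p ∪ A ∅) = f '' p ∪ f '' A ∅ := by
    rw [image_union]
    congr 1
    · exact image_congr fun x hx => hgf x (hpA hx)
    · exact image_congr fun x hx => hgf x (hA0 hx)
  rw [h5, h6] at h4
  exact h4.dom h3

/-- **The limit lemma** for a direction generated by finitely many points. -/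
theorem le_of_finite (hM : M.Calc) (h : Trc M A T S c) (hC : Chn M)
    (hf : ∀ i, M.LE f (ibd (T i) (insert c S))) {p : Set C} (hp : p.Finite)
    (hat : M.Atomic (A {c}) (p ∪ A ∅)) : M.LE f (ibd A (insert c S)) :=
  h.le_of_ind hM hC hf (h.ind_of_finite hM hC hf hp hat)

/-- **The limit lemma** for an arbitrary direction, from the limit lemma for the pair. -/
theorem le_of_pair (hM : M.Calc) (h : Trc M A T S c) (hC : Chn M)
    (hf : ∀ i, M.LE f (ibd (T i) (insert c S))) (hLL : M.LE f (A {c} ∪ A S)) :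
    M.LE f (ibd A (insert c S)) := by
  refine h.le_of_ind hM hC hf (ind_map h.ext.ind (le_mono hLL ?_))
  rintro x ((hx | hx) | hx)
  · exact Or.inl (h.ext.base hx)
  · exact Or.inl hx
  · exact Or.inr hx

end Trc

end Vale.Agent.P307.R2.H806
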