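import Vale.Agent.P307.R2.H806.Lim1
import Vale.Agent.P307.R2.H806.TwoTr

/-!
Limits of coherent maps on closed traces: two levels.
-/

set_option linter.unusedSectionVars false

universe u v

open Set Cardinal Function

namespace Vale.Agent.P307.R2.H806

open Vale.Agent.P307.R2.H541 Vale.Agent.P307.R2.H541.PG Vale.Agent.P307.R2.H533
  Vale.Agent.P307.R2.H650 Vale.Agent.P307.R2.H913 Vale.Agent.P307.R2.H296

open scoped Classical

variable {C : Type u} {M : PG C} {ι : Type v} {τ : Cardinal.{u}}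

/-- A family `Z` of closed sets of size `τ` is good for the boundary of an extension of a system by
one direction: joint reflection, and tiny isolating sets for the tiny subsets of the traces. -/
structure Good1 (M : PG C) (τ : Cardinal.{u}) (A : Finset ι → Set C) (S : Finset ι) (c : ι)
    (Z : Set (Set C)) : Prop where
  ext : Ext1 M A S c
  ne : S.Nonempty
  jr : ∀ z ∈ Z, M.JR τ A (insert c S).ssubsets z (ibd A (insert c S) ∩ z)
  tiny : ∀ z ∈ Z, ∀ u, u ⊂ S → u.Nonempty → ∀ E ⊆ A (insert c u) ∩ z, #E < τ →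
    ∃ B ⊆ ibd A (insert c u), #B < τ ∧ M.Isol B (ibd A (insert c u)) E

variable {A : Finset ι → Set C} {S : Finset ι} {c : ι} {Z : Set (Set C)} {D : Set C}
  {M' : PG D} {I : Type u} [LinearOrder I] [Nonempty I] {z : I → Set C} {f : C → C}

/-- The chain of traces, at the lower level. -/
theorem Good1.trc (h : Good1 M M'.χ A S c Z) (hL : M.Low D M') (hno : NoOrd M.G M'.χ)
    (hz : Monotone z) (hzZ : ∀ i, z i ∈ Z) (hZ : (⋃ i, z i) ∈ Z)
    (hS : ∀ w ∈ Z, ∀ t, t ⊂ insert c S → A t ∩ w ⊆ D → tr D (A t ∩ w) ∈ M'.S)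
    (hD : ibd A (insert c S) ∩ (⋃ i, z i) ⊆ D) :
    Trc M' (fun t => tr D (A t ∩ ⋃ i, z i)) (fun i t => tr D (A t ∩ z i)) S c := by
  have hSc : S ⊂ insert c S := Finset.ssubset_insert h.ext.notMem
  have h0 : (∅ : Finset ι) ⊂ insert c S := lt_of_le_of_lt (Finset.empty_subset S) hSc
  have hc1 := singleton_ssubset_insert h.ne h.ext.notMem
  have hD1 : ∀ t, t ⊂ insert c S → A t ∩ (⋃ i, z i) ⊆ D := fun t ht x hx =>
    hD ⟨⟨t, ht, hx.1⟩, hx.2⟩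
  have hD2 : ∀ i, ∀ t, t ⊂ insert c S → A t ∩ z i ⊆ D := fun i t ht x hx =>
    hD1 t ht ⟨hx.1, mem_iUnion.2 ⟨i, hx.2⟩⟩
  refine ⟨hL.ext1_tr' hno h.ext h.ne (fun t ht => hS _ hZ t ht (hD1 t ht)) hD1
    (h.jr _ hZ) (h.tiny _ hZ), h.ne, fun i t ht => hS _ (hzZ i) t ht (hD2 i t ht),
    fun t ht i j hij => tr_mono (inter_subset_inter_right _ (hz hij)), fun t ht => ?_,
    fun i => tr_mono (inter_subset_inter_left _
      (h.ext.sys.mono (Finset.Subset.refl S) (Finset.empty_subset S))), fun i => ?_⟩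
  · ext x
    constructor
    · rintro ⟨hx, hx'⟩
      obtain ⟨i, hi⟩ := mem_iUnion.1 hx'
      exact mem_iUnion.2 ⟨i, hx, hi⟩
    · intro hx
      obtain ⟨i, hx, hi⟩ := mem_iUnion.1 hx
      exact ⟨hx, mem_iUnion.2 ⟨i, hi⟩⟩
  · refine hL.ind_dn (hD2 i ∅ h0) (JR.indT (Finset.mem_ssubsets.2 h0) rfl (h.jr _ (hzZ i))
      (h.ext.ind.toT hL.le) ?_)
    rintro x ⟨hx | hx, hx'⟩
    · exact ⟨⟨∅, h0, hx⟩, hx'⟩
    · exact ⟨⟨_, hc1, hx⟩, hx'⟩

/-- A map of the subset. -/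
noncomputable def dnMap (D : Set C) (f : C → C) : D → D :=
  fun x => if h : f x ∈ D then ⟨f x, h⟩ else x

theorem dnMap_val {x : D} (h : f x ∈ D) : (dnMap D f x : C) = f x :=
  congrArg Subtype.val (dif_pos h)

/-- **The limit lemma, two levels**, for an arbitrary direction. -/
theorem Good1.lim_pair (h : Good1 M M'.χ A S c Z) (hL : M.Low D M') (hno : NoOrd M.G M'.χ)
    (hM' : M'.Calc) (hC' : Chn M') (hz : Monotone z) (hzZ : ∀ i, z i ∈ Z) (hZ : (⋃ i, z i) ∈ Z)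
    (hS : ∀ w ∈ Z, ∀ t, t ⊂ insert c S → A t ∩ w ⊆ D → tr D (A t ∩ w) ∈ M'.S)
    (hD : ibd A (insert c S) ∩ (⋃ i, z i) ⊆ D)
    (hfD : ∀ x ∈ ibd A (insert c S) ∩ (⋃ i, z i), f x ∈ D)
    (hf : ∀ i, M.LET M'.χ f (ibd A (insert c S) ∩ z i))
    (hLL : M.LET M'.χ f ((A {c} ∪ A S) ∩ ⋃ i, z i)) :
    M.LET M'.χ f (ibd A (insert c S) ∩ ⋃ i, z i) := by
  have hT := h.trc hL hno hz hzZ hZ hS hD
  refine hL.le_up (f' := dnMap D f) hD (fun x hx => dnMap_val (hfD x hx)) ?_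
  rw [← ibd_tr]
  refine hT.le_of_pair hM' hC' (fun i => ?_) ?_
  · rw [ibd_tr]
    refine hL.le_dn (f := f) (fun x hx => dnMap_val (hfD x ⟨hx.1, mem_iUnion.2 ⟨i, hx.2⟩⟩))
      (hf i)
  · have hcS : (A {c} ∪ A S) ∩ (⋃ i, z i) ⊆ ibd A (insert c S) ∩ ⋃ i, z i := by
      rintro x ⟨hx | hx, hx'⟩
      · exact ⟨⟨_, hT.c_ss, hx⟩, hx'⟩
      · exact ⟨⟨S, hT.S_ss, hx⟩, hx'⟩
    have h1 := hL.le_dn (f' := dnMap D f) (X := (A {c} ∪ A S) ∩ ⋃ i, z i)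
      (fun x hx => dnMap_val (hfD x (hcS hx))) hLL
    rw [union_inter_distrib_right, tr_union] at h1
    exact h1

/-- Atomicity of the trace of the new direction. -/
theorem Good1.atomic_pt (h : Good1 M M'.χ A S c Z) (hL : M.Low D M') (hno : NoOrd M.G M'.χ)
    {w : Set C} (hw : w ∈ Z) (hS : tr D (A {c} ∩ w) ∈ M'.S) (hD : A {c} ∩ w ⊆ D) {p : Set C}
    (hp : p.Finite) (hpw : p ⊆ w) (hat : M.Atomic (A {c}) (p ∪ A ∅))
    (htiny : ∀ E ⊆ A {c} ∩ w, #E < M'.χ → ∃ B ⊆ p ∪ A ∅, #B < M'.χ ∧ M.Isol B (p ∪ A ∅) E) :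
    M'.Atomic (tr D (A {c} ∩ w)) (tr D p ∪ tr D (A ∅ ∩ w)) := by
  have hSc : S ⊂ insert c S := Finset.ssubset_insert h.ext.notMem
  have h0 : (∅ : Finset ι) ⊂ insert c S := lt_of_le_of_lt (Finset.empty_subset S) hSc
  have hc1 := singleton_ssubset_insert h.ne h.ext.notMem
  have hpA : p ⊆ A {c} := subset_union_left.trans hat.sub
  have hpc : #p < M'.χ := (lt_aleph0_iff_set_finite.2 hp).trans_le M'.hχ
  have hsub : A {c} ∩ w ⊆ ibd A (insert c S) ∩ w := fun x hx => ⟨⟨_, hc1, hx.1⟩, hx.2⟩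
  have h1 := hL.atomic_tr (H := w) hno hat.sub hS hD (fun q hq hqc B hB hBc => by
    obtain ⟨k, hk, h3, h4⟩ := (h.jr w hw).face (Finset.mem_ssubsets.2 h0) (E := B ∩ A ∅)
      inter_subset_right ((mk_le_mk_of_subset inter_subset_left).trans_lt hBc) (q := q ∪ p)
      (union_subset (hq.trans hsub) fun x hx => hsub ⟨hpA hx, hpw hx⟩) (small_union' hqc hpc)
    refine ⟨k, hk, fun x hx => h3 x (Or.inl hx), fun b hb => ?_⟩
    rcases hB hb with hb1 | hb1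
    · rw [h3 b (Or.inr hb1)]
      exact ⟨Or.inl hb1, hpw hb1⟩
    · have h5 := h4 b ⟨hb, hb1⟩
      exact ⟨Or.inr h5.1, h5.2⟩)
    (fun q hq hqc E hEc => by
      obtain ⟨g, hg, h3, h4⟩ := M.sat h.ext.memc (fun x hx => (hq hx).1) (hqc.trans_le hL.le)
        (hEc.trans_le hL.le)
      obtain ⟨k, hk, h5, h6⟩ := (h.jr w hw).face (Finset.mem_ssubsets.2 hc1) (E := g '' E) (by
        rintro _ ⟨e, he, rfl⟩
        exact h4 e he) (mk_image_le.trans_lt hEc) (hq.trans hsub) hqc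
      refine ⟨k * g, M.G.mul_mem hk hg, fun x hx => ?_, fun e he => h6 _ ⟨e, he, rfl⟩⟩
      rw [Equiv.Perm.mul_apply, h3 x hx, h5 x hx]) htiny
  have h2 : tr D ((p ∪ A ∅) ∩ w) = tr D p ∪ tr D (A ∅ ∩ w) := by
    rw [union_inter_distrib_right, tr_union, inter_eq_self_of_subset_left hpw]
  rwa [h2] at h1

/-- **The limit lemma, two levels**, for a direction generated by finitely many points. -/
theorem Good1.lim_point (h : Good1 M M'.χ A S c Z) (hL : M.Low D M') (hno : NoOrd M.G M'.χ)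
    (hM' : M'.Calc) (hC' : Chn M') (hz : Monotone z) (hzZ : ∀ i, z i ∈ Z) (hZ : (⋃ i, z i) ∈ Z)
    (hS : ∀ w ∈ Z, ∀ t, t ⊂ insert c S → A t ∩ w ⊆ D → tr D (A t ∩ w) ∈ M'.S)
    (hD : ibd A (insert c S) ∩ (⋃ i, z i) ⊆ D)
    (hfD : ∀ x ∈ ibd A (insert c S) ∩ (⋃ i, z i), f x ∈ D)
    (hf : ∀ i, M.LET M'.χ f (ibd A (insert c S) ∩ z i)) {p : Set C} (hp : p.Finite)
    (hpw : p ⊆ ⋃ i, z i) (hat : M.Atomic (A {c}) (p ∪ A ∅))
    (htiny : ∀ E ⊆ A {c} ∩ (⋃ i, z i), #E < M'.χ →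
      ∃ B ⊆ p ∪ A ∅, #B < M'.χ ∧ M.Isol B (p ∪ A ∅) E) :
    M.LET M'.χ f (ibd A (insert c S) ∩ ⋃ i, z i) := by
  have hT := h.trc hL hno hz hzZ hZ hS hD
  have hD1 : A {c} ∩ (⋃ i, z i) ⊆ D := fun x hx => hD ⟨⟨_, hT.c_ss, hx.1⟩, hx.2⟩
  refine hL.le_up (f' := dnMap D f) hD (fun x hx => dnMap_val (hfD x hx)) ?_
  rw [← ibd_tr]
  refine hT.le_of_finite hM' hC' (fun i => ?_) (p := tr D p)
    (hp.preimage Subtype.val_injective.injOn)
    (h.atomic_pt hL hno hZ (hS _ hZ _ hT.c_ss hD1) hD1 hp hpw hat htiny)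
  rw [ibd_tr]
  refine hL.le_dn (f := f) (fun x hx => dnMap_val (hfD x ⟨hx.1, mem_iUnion.2 ⟨i, hx.2⟩⟩)) (hf i)

end Vale.Agent.P307.R2.H806
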