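import Vale.Agent.P307.R2.H971.Mon
import Vale.Agent.P307.R2.H806.Coheir

/-!
Saturation of the EM models over `θ⁺ + F`, for arbitrary `F` of size at most `θ`.
-/

set_option linter.unusedSectionVars false

universe u v w

open FirstOrder Cardinal Set

namespace Vale.Agent.P307.R2.H806

open Vale.Agent.P307 Vale.Agent.P307.H304 Vale.Agent.P307.R2.H287 Vale.Agent.P307.R2.H971
  Language.Structure Language.Substructure

variable {L : Language.{u, u}} {K : AEC L} {ℓ θ T ν : Cardinal.{u}}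

/-- A criterion for the saturation of EM models. -/
theorem sat_em_gen (hAB : AB K θ T) (hK : K.IsLS ℓ) (hℓ : ℓ ≤ θ) (hext : LargeExt K θ T)
    (t : Tpl K ν) (hν : ν ≤ θ) {J : Type u} [LinearOrder J]
    (H : ∀ V : Set J, #V ≤ θ → ∃ (V' : Set J) (J₀ : Type u) (_ : LinearOrder J₀) (e : V' → J₀),
      V ⊆ V' ∧ #V' = θ ∧ StrictMono e ∧ T ≤ #J₀ ∧ ∀ Y : Set J₀, #Y ≤ θ → range e ⊆ Y →
        ∃ τ : Y → J, StrictMono τ ∧ ∀ v (hv : e v ∈ Y), τ ⟨e v, hv⟩ = v)
    (E : EM t J) : Sat K θ E.N := by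
  have hθ : ℵ₀ ≤ θ := hK.1.trans hℓ
  refine hAB.sat_of_cofinal hK hℓ hext fun X hX => ?_
  obtain ⟨V, hV, hVX⟩ := exists_cover' hθ E.top X hX
  obtain ⟨V', J₀, _, e, hVV', hV', he, hJ₀, hτ⟩ := H V hV
  obtain ⟨Ei⟩ := exists_em t V'
  obtain ⟨a, ha, ha'⟩ := Ei.exists_map E (Subtype.val : V' → J) fun _ _ h => h
  refine ⟨Ei.N, inferInstance, a, ha, Ei.card_eq hν hV', fun x hx => ?_, fun B _ f hf hB => ?_⟩
  · obtain ⟨s, rfl⟩ := hVX x hx
    exact IsMap.exists_preimage (f := a) ha' (fun v hv => ⟨⟨v, hVV' hv⟩, rfl⟩) s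
  obtain ⟨E'⟩ := exists_em t J₀
  have hE' : T ≤ #E'.N := hJ₀.trans E'.le_card
  obtain ⟨j₁, hj₁, hj₁'⟩ := Ei.exists_map E' e he
  obtain ⟨h, hh, hh'⟩ := hAB.sat hK hℓ hext hE' Ei.N B j₁ f hj₁ hf (Ei.card_eq hν hV') hB
  obtain ⟨V'', hV'', hV''X⟩ := exists_cover' hθ E'.top (range h) (mk_range_le.trans hB.le)
  let Y : Set J₀ := V'' ∪ range e
  have hY : #Y ≤ θ := (mk_union_le _ _).trans (add_le_of_le hθ hV'' (mk_range_le.trans hV'.le))
  obtain ⟨E''⟩ := exists_em t Y
  obtain ⟨j₂, hj₂, hj₂'⟩ := E''.exists_map E' (Subtype.val : Y → J₀) fun _ _ h => h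
  obtain ⟨τ, hτ1, hτ2⟩ := hτ Y hY subset_union_right
  obtain ⟨j₃, hj₃, hj₃'⟩ := E''.exists_map E τ hτ1
  obtain ⟨j₄, hj₄, hj₄'⟩ := Ei.exists_map E'' (fun v : V' => (⟨e v, Or.inr ⟨v, rfl⟩⟩ : Y))
    fun x y h => he h
  obtain ⟨k, hk, hk'⟩ := exists_lift h j₂ hh hj₂ (by
    intro b
    obtain ⟨s, hs⟩ := hV''X (h b) ⟨b, rfl⟩
    rw [← hs]
    exact IsMap.exists_preimage (f := j₂) hj₂' (fun v hv => ⟨⟨v, Or.inl hv⟩, rfl⟩) s)
  refine ⟨j₃.comp k, AEC.Emb.comp hj₃ hk, fun x => ?_⟩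
  have h1 : j₂ (j₄ x) = j₁ x := IsMap.comp_eq (f := j₄) (g := j₂) (h := j₁) hj₄' hj₂' hj₁'
    (fun _ => rfl) x
  have h2 : j₃ (j₄ x) = a x := IsMap.comp_eq (f := j₄) (g := j₃) (h := a) hj₄' hj₃' ha'
    (fun v => hτ2 v _) x
  have h3 : k (f x) = j₄ x := j₂.injective (by rw [hk', hh', h1])
  change j₃ (k (f x)) = a x
  rw [h3, h2]

section lex

variable {A B F : Type u} [LinearOrder A] [LinearOrder B] [LinearOrder F]

/-- Initial part of `A + F`. -/
def low (F : Type u) (s : Set A) : Set (A ⊕ₗ F) :=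
  {x | ∀ a, ofLex x = Sum.inl a → a ∈ s}

theorem inl_mem_low {s : Set A} {a : A} : (toLex (Sum.inl a) : A ⊕ₗ F) ∈ low F s ↔ a ∈ s := by
  constructor
  · intro h
    exact h a rfl
  · intro h b hb
    cases hb
    exact h

theorem inr_mem_low {s : Set A} {y : F} : (toLex (Sum.inr y) : A ⊕ₗ F) ∈ low F s := by
  intro a ha
  cases ha

theorem low_mono {s s' : Set A} (h : s ⊆ s') : low F s ⊆ low F s' :=
  fun _ hx a ha => h (hx a ha)

theorem low_eq (s : Set A) : low F s = ((fun a => (toLex (Sum.inl a) : A ⊕ₗ F)) '' s) ∪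
    range (fun y => (toLex (Sum.inr y) : A ⊕ₗ F)) := by
  ext x
  constructor
  · intro hx
    rcases h : ofLex x with a | y
    · exact Or.inl ⟨a, hx a h, by
        change toLex (Sum.inl a) = x
        rw [← h]
        rfl⟩
    · exact Or.inr ⟨y, by
        change toLex (Sum.inr y) = x
        rw [← h]
        rfl⟩
  · rintro (⟨a, ha, rfl⟩ | ⟨y, rfl⟩)
    · exact inl_mem_low.2 ha
    · exact inr_mem_low

theorem mk_low_le {σ : Cardinal.{u}} (hσ : ℵ₀ ≤ σ) {s : Set A} (hs : #s ≤ σ) (hF : #F ≤ σ) :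
    #(low F s) ≤ σ := by
  rw [low_eq]
  exact (mk_union_le _ _).trans (add_le_of_le hσ (mk_image_le.trans hs) (mk_range_le.trans hF))

theorem le_mk_low {σ : Cardinal.{u}} {s : Set A} (hs : σ ≤ #s) : σ ≤ #(low F s) := by
  refine hs.trans ?_
  refine mk_le_of_injective (f := fun a : s => (⟨toLex (Sum.inl a.1), inl_mem_low.2 a.2⟩ :
    low F s)) ?_
  intro a b hab
  have h1 := congrArg Subtype.val hab
  exact Subtype.ext (Sum.inl_injective (toLex.injective h1))

theorem low_iUnion {ι : Type*} [Nonempty ι] (s : ι → Set A) : low F (⋃ i, s i) = ⋃ i, low F (s i) := by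
  ext x
  rcases h : ofLex x with a | y
  · have h1 : x = toLex (Sum.inl a) := h
    rw [h1, inl_mem_low, mem_iUnion, mem_iUnion]
    exact exists_congr fun i => inl_mem_low.symm
  · have h1 : x = toLex (Sum.inr y) := h
    rw [h1, mem_iUnion]
    exact iff_of_true inr_mem_low ⟨Classical.arbitrary ι, inr_mem_low⟩

theorem low_univ : low F (Set.univ : Set A) = Set.univ := eq_univ_of_forall fun _ _ _ => mem_univ _

/-- The position of `F` in `A + F`. -/
theorem isCutExt_low [WellFoundedLT A] {s : Set A} (hs : ∀ a ∈ s, ∀ b, b ∉ s → a < b) :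
    IsCutExt (low F s) (range fun y : F => (toLex (Sum.inr y) : A ⊕ₗ F)) := by
  constructor
  · rintro _ ⟨y, rfl⟩
    exact inr_mem_low
  · rintro x hx _ ⟨y, rfl⟩
    rcases h : ofLex x with a | z
    · have h1 : x = toLex (Sum.inl a) := h
      rw [h1]
      exact Sum.Lex.inl_lt_inr _ _
    · have h1 : x = toLex (Sum.inr z) := h
      rw [h1] at hx
      exact absurd inr_mem_low hx
  · intro x hx hxE z hz
    rcases h : ofLex x with a | y
    · rcases h' : ofLex z with b | w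
      · have h1 : x = toLex (Sum.inl a) := h
        have h2 : z = toLex (Sum.inl b) := h'
        rw [h1, h2]
        rw [h1, inl_mem_low] at hx
        rw [h2, inl_mem_low] at hz
        exact Sum.Lex.inl_lt_inl_iff.2 (hs a hx b hz)
      · have h2 : z = toLex (Sum.inr w) := h'
        rw [h2] at hz
        exact absurd inr_mem_low hz
    · exact absurd ⟨y, h.symm⟩ hxE
  · have h1 : ∀ z : A ⊕ₗ F, z ∉ low F s → ∃ a, z = toLex (Sum.inl a) := by
      intro z hz
      rcases h : ofLex z with a | y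
      · exact ⟨a, h⟩
      · have h2 : z = toLex (Sum.inr y) := h
        rw [h2] at hz
        exact absurd inr_mem_low hz
    have h2 : ((low F s)ᶜ : Set (A ⊕ₗ F)) ⊆ (fun a => (toLex (Sum.inl a) : A ⊕ₗ F)) '' Set.univ := by
      intro z hz
      obtain ⟨a, ha⟩ := h1 z hz
      exact ⟨a, mem_univ _, ha.symm⟩
    refine Set.IsWF.mono ?_ h2
    refine ((isWF_univ_iff.2 (inferInstance : WellFoundedLT A)).isPWO.image_of_monotone ?_).isWF
    intro a b hab
    exact Sum.Lex.inl_le_inl_iff.2 hab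

theorem strictMono_lmap {f : A → B} (hf : StrictMono f) :
    StrictMono fun x : A ⊕ₗ F => (toLex (Sum.map f id (ofLex x)) : B ⊕ₗ F) := by
  intro x y hxy
  rcases hx : ofLex x with a | a <;> rcases hy : ofLex y with b | b
  · have h1 : x = toLex (Sum.inl a) := hx
    have h2 : y = toLex (Sum.inl b) := hy
    subst h1 h2
    exact Sum.Lex.inl_lt_inl_iff.2 (hf (Sum.Lex.inl_lt_inl_iff.1 hxy))
  · have h1 : x = toLex (Sum.inl a) := hx
    have h2 : y = toLex (Sum.inr b) := hy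
    subst h1 h2
    exact Sum.Lex.inl_lt_inr _ _
  · have h1 : x = toLex (Sum.inr a) := hx
    have h2 : y = toLex (Sum.inl b) := hy
    subst h1 h2
    exact absurd hxy (Sum.Lex.not_inr_lt_inl)
  · have h1 : x = toLex (Sum.inr a) := hx
    have h2 : y = toLex (Sum.inr b) := hy
    subst h1 h2
    exact Sum.Lex.inr_lt_inr_iff.2 (Sum.Lex.inr_lt_inr_iff.1 hxy)

end lex

/-- Initial segments are embedded over a bound. -/
theorem exists_collapse {Ω : Type u} [LinearOrder Ω] [WellFoundedLT Ω]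
    (emb : (SuccTy θ) ≤i Ω) (i : SuccTy θ) (Y : Set Ω) (hY : #Y ≤ θ)
    (hi : ∀ x < i, emb x ∈ Y) :
    ∃ τ : Y → SuccTy θ, StrictMono τ ∧ ∀ x (hx : x < i), τ ⟨emb x, hi x hx⟩ = x := by
  have h1 : Ordinal.type (α := Y) (· < ·) ≤ Ordinal.type (α := SuccTy θ) (· < ·) := by
    rw [Ordinal.type_toType]
    refine le_of_lt ?_
    rw [Cardinal.lt_ord, Ordinal.card_type]
    exact Order.lt_succ_of_le hY
  obtain ⟨τ⟩ := Ordinal.type_le_iff.1 h1
  refine ⟨τ, fun a b hab => τ.map_rel_iff.2 hab, fun x => ?_⟩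
  induction x using WellFoundedLT.induction with
  | ind x ih =>
  intro hx
  have h2 : x ≤ τ ⟨emb x, hi x hx⟩ := by
    refine le_of_forall_lt fun y hy => ?_
    rw [← ih y hy (hy.trans hx)]
    refine τ.map_rel_iff.2 ?_
    exact (emb.map_rel_iff.2 hy : emb y < emb x)
  rcases h2.eq_or_lt with h3 | h3
  · exact h3.symm
  · exfalso
    obtain ⟨z, hz⟩ := τ.mem_range_of_rel h3
    have h4 : z < ⟨emb x, hi x hx⟩ := τ.map_rel_iff.1 (by
      rw [hz]
      exact h3)
    have h5 : z.1 < emb x := h4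
    obtain ⟨y, hy⟩ := emb.mem_range_of_rel h5
    have h6 : y < x := emb.map_rel_iff.1 (by
      rw [hy]
      exact h5)
    have h7 := ih y h6 (h6.trans hx)
    have h8 : (⟨emb y, hi y (h6.trans hx)⟩ : Y) = z := Subtype.ext hy
    rw [h8, hz] at h7
    exact h6.ne h7.symm

/-- The EM model over `θ⁺ + F` is saturated. -/
theorem sat_em_low (hAB : AB K θ T) (hK : K.IsLS ℓ) (hℓ : ℓ ≤ θ) (hext : LargeExt K θ T)
    (t : Tpl K ν) (hν : ν ≤ θ) {F : Type u} [LinearOrder F] (hF : #F ≤ θ)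
    (E : EM t (SuccTy θ ⊕ₗ F)) : Sat K θ E.N := by
  have hθ : ℵ₀ ≤ θ := hK.1.trans hℓ
  refine sat_em_gen hAB hK hℓ hext t hν (fun V hV => ?_) E
  have hinl : Function.Injective (fun a : SuccTy θ => (toLex (Sum.inl a) : SuccTy θ ⊕ₗ F)) :=
    fun a b hab => Sum.inl_injective (toLex.injective hab)
  obtain ⟨i, hi, hic⟩ := exists_bound hθ
    ((fun a : SuccTy θ => (toLex (Sum.inl a) : SuccTy θ ⊕ₗ F)) ⁻¹' V)
    ((mk_preimage_of_injective _ _ hinl).trans hV)
  let Ω : Type u := SuccTy (max θ T)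
  have h1 : Ordinal.type (α := SuccTy θ) (· < ·) ≤ Ordinal.type (α := Ω) (· < ·) := by
    rw [Ordinal.type_toType, Ordinal.type_toType]
    exact ord_le_ord.2 (Order.succ_le_succ (le_max_left _ _))
  obtain ⟨emb⟩ := Ordinal.type_le_iff.1 h1
  have hemb : StrictMono emb := fun a b hab => emb.map_rel_iff.2 hab
  refine ⟨low F (Iio i), Ω ⊕ₗ F, inferInstance, fun v => toLex (Sum.map emb id (ofLex v.1)), ?_,
    ?_, ?_, ?_, ?_⟩
  · intro x hx a ha
    refine hi a ?_
    change toLex (Sum.inl a) ∈ V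
    rw [← ha]
    exact hx
  · exact le_antisymm (mk_low_le hθ hic.le hF) (le_mk_low hic.ge)
  · intro x y hxy
    exact strictMono_lmap hemb hxy
  · have h2 : #Ω ≤ #(Ω ⊕ₗ F) := mk_le_of_injective (f := fun a : Ω => (toLex (Sum.inl a) : Ω ⊕ₗ F))
      fun a b hab => Sum.inl_injective (toLex.injective hab)
    refine le_trans ?_ h2
    change T ≤ #((Order.succ (max θ T)).ord.ToType)
    rw [mk_toType, card_ord]
    exact (le_max_right _ _).trans (Order.le_succ _)
  · intro Y hY hYe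
    have hinl' : Function.Injective (fun a : Ω => (toLex (Sum.inl a) : Ω ⊕ₗ F)) :=
      fun a b hab => Sum.inl_injective (toLex.injective hab)
    have hx : ∀ x < i, emb x ∈ ((fun a : Ω => (toLex (Sum.inl a) : Ω ⊕ₗ F)) ⁻¹' Y) := by
      intro x hx
      refine hYe ⟨⟨toLex (Sum.inl x), inl_mem_low.2 hx⟩, rfl⟩
    obtain ⟨τ, hτ, hτ'⟩ := exists_collapse emb i
      ((fun a : Ω => (toLex (Sum.inl a) : Ω ⊕ₗ F)) ⁻¹' Y)
      ((mk_preimage_of_injective _ _ hinl').trans hY) hx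
    have hg : ∀ y : Y, ∃ z : SuccTy θ ⊕ₗ F, (∀ a (ha : y.1 = toLex (Sum.inl a)),
        z = toLex (Sum.inl (τ ⟨a, by
          change toLex (Sum.inl a) ∈ Y
          rw [← ha]
          exact y.2⟩))) ∧ ∀ w, y.1 = toLex (Sum.inr w) → z = toLex (Sum.inr w) := by
      intro y
      rcases h : ofLex y.1 with a | w
      · have h2 : y.1 = toLex (Sum.inl a) := h
        refine ⟨toLex (Sum.inl (τ ⟨a, by
          change toLex (Sum.inl a) ∈ Y
          rw [← h2]
          exact y.2⟩)), fun b hb => ?_, fun w hw => ?_⟩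
        · have h3 : a = b := Sum.inl_injective (toLex.injective (h2.symm.trans hb))
          subst h3
          rfl
        · exact absurd (toLex.injective (h2.symm.trans hw)) Sum.inl_ne_inr
      · have h2 : y.1 = toLex (Sum.inr w) := h
        refine ⟨toLex (Sum.inr w), fun b hb => ?_, fun w' hw => ?_⟩
        · exact absurd (toLex.injective (h2.symm.trans hb)) Sum.inr_ne_inl
        · have h3 : w = w' := Sum.inr_injective (toLex.injective (h2.symm.trans hw))
          rw [h3]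
    choose g hg1 hg2 using hg
    refine ⟨g, ?_, ?_⟩
    · intro y y' hyy
      have h0 : y.1 < y'.1 := hyy
      rcases h : ofLex y.1 with a | w <;> rcases h' : ofLex y'.1 with a' | w'
      · have h2 : y.1 = toLex (Sum.inl a) := h
        have h3 : y'.1 = toLex (Sum.inl a') := h'
        rw [hg1 y a h2, hg1 y' a' h3]
        rw [h2, h3] at h0
        have h4 : a < a' := Sum.Lex.inl_lt_inl_iff.1 h0
        exact Sum.Lex.inl_lt_inl_iff.2 (hτ h4)
      · have h2 : y.1 = toLex (Sum.inl a) := h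
        have h3 : y'.1 = toLex (Sum.inr w') := h'
        rw [hg1 y a h2, hg2 y' w' h3]
        exact Sum.Lex.inl_lt_inr _ _
      · have h2 : y.1 = toLex (Sum.inr w) := h
        have h3 : y'.1 = toLex (Sum.inl a') := h'
        rw [h2, h3] at h0
        exact absurd h0 Sum.Lex.not_inr_lt_inl
      · have h2 : y.1 = toLex (Sum.inr w) := h
        have h3 : y'.1 = toLex (Sum.inr w') := h'
        rw [hg2 y w h2, hg2 y' w' h3]
        rw [h2, h3] at h0
        exact Sum.Lex.inr_lt_inr_iff.2 (Sum.Lex.inr_lt_inr_iff.1 h0)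
    · intro v hv
      rcases h : ofLex v.1 with a | w
      · have h2 : v.1 = toLex (Sum.inl a) := h
        have h3 : toLex (Sum.map emb id (ofLex v.1)) = (toLex (Sum.inl (emb a)) : Ω ⊕ₗ F) := by
          rw [h]
          rfl
        rw [hg1 ⟨_, hv⟩ (emb a) h3, h2]
        congr 2
        exact hτ' a (v.2 a h)
      · have h2 : v.1 = toLex (Sum.inr w) := h
        have h3 : toLex (Sum.map emb id (ofLex v.1)) = (toLex (Sum.inr w) : Ω ⊕ₗ F) := by
          rw [h]
          rfl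
        rw [hg2 ⟨_, hv⟩ w h3, h2]

end Vale.Agent.P307.R2.H806
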