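import Vale.Agent.P307.R2.H533.One

/-!
Two levels: a geometry `M` on `C` and a geometry `M'` of a smaller level on a subset `D` of `C`,
with the same conjugacy of the sets which are small for `M'`.
-/

universe u v

open Set Cardinal Function

namespace Vale.Agent.P307.R2.H541

namespace PG

variable {C : Type u}

/-- The trace of a set on `D`. -/
def tr (D X : Set C) : Set D := {x | (x : C) ∈ X}

/-- Conjugacy of the sets which are small for `M'` is the same in `M` and in `M'`. -/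
structure Low (M : PG C) (D : Set C) (M' : PG D) : Prop where
  le : M'.χ ≤ M.χ
  dn : ∀ A : Set D, #A < M'.χ → ∀ g ∈ M.G, (∀ a ∈ A, g (a : C) ∈ D) →
    ∃ g' ∈ M'.G, ∀ a ∈ A, (g' a : C) = g a
  up : ∀ A : Set D, #A < M'.χ → ∀ g' ∈ M'.G, ∃ g ∈ M.G, ∀ a ∈ A, g (a : C) = (g' a : C)
  rf : ∀ A ⊆ D, #A < M'.χ → ∀ B : Set C, #B < M'.χ →
    ∃ g ∈ M.G, (∀ a ∈ A, g a = a) ∧ ∀ b ∈ B, g b ∈ D

variable (M : PG C) (τ : Cardinal.{u})

/-- Isolation for pieces of size less than `τ`. -/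
def IsolT (B X E : Set C) : Prop := ∀ g ∈ M.G, (∀ b ∈ B, g b = b) → ∀ A ⊆ X, #A < τ →
  ∃ h ∈ M.G, (∀ a ∈ A, h a = a) ∧ ∀ e ∈ E, h e = g e

/-- Reflection for pieces of size less than `τ`. -/
def TVT (X Y : Set C) : Prop := ∀ A ⊆ X, #A < τ → ∀ E ⊆ Y, #E < τ →
  ∃ g ∈ M.G, (∀ a ∈ A, g a = a) ∧ ∀ e ∈ E, g e ∈ X

/-- Independence for pieces of size less than `τ`. -/
def IndT (P A B : Set C) : Prop := ∀ A' ⊆ P ∪ A, #A' < τ → ∀ B' ⊆ B, #B' < τ →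
  ∃ g ∈ M.G, (∀ a ∈ A', g a = a) ∧ ∀ b ∈ B', g b ∈ P

/-- Maps which preserve the types of the pieces of size less than `τ`. -/
def LET (f : C → C) (X : Set C) : Prop := ∀ A ⊆ X, #A < τ → ∃ g ∈ M.G, ∀ a ∈ A, g a = f a

variable {M τ} {B X Y E P A : Set C}

theorem Isol.toT (h : M.Isol B X E) (hτ : τ ≤ M.χ) : M.IsolT τ B X E :=
  fun g hg hgB A hA hAc => h g hg hgB A hA (hAc.trans_le hτ)

theorem TV.toT (h : M.TV X Y) (hτ : τ ≤ M.χ) : M.TVT τ X Y :=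
  fun A hA hAc E hE hEc => h A hA (hAc.trans_le hτ) E hE (hEc.trans_le hτ)

theorem Ind.toT (h : M.Ind P A B) (hτ : τ ≤ M.χ) : M.IndT τ P A B :=
  fun A' hA hAc B' hB hBc => h A' hA (hAc.trans_le hτ) B' hB (hBc.trans_le hτ)

theorem LE.toT {f : C → C} (h : M.LE f X) (hτ : τ ≤ M.χ) : M.LET τ f X :=
  fun A hA hAc => h A hA (hAc.trans_le hτ)

theorem IsolT.mono_base {B' : Set C} (h : M.IsolT τ B X E) (hB : B ⊆ B') : M.IsolT τ B' X E :=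
  fun g hg hgB A hA hAc => h g hg (fun b hb => hgB b (hB hb)) A hA hAc

theorem IsolT.mono (h : M.IsolT τ B X E) (hY : Y ⊆ X) : M.IsolT τ B Y E :=
  fun g hg hgB A hA hAc => h g hg hgB A (hA.trans hY) hAc

theorem IsolT.subset {E' : Set C} (h : M.IsolT τ B X E) (hE : E' ⊆ E) : M.IsolT τ B X E' := by
  intro g hg hgB A hA hAc
  obtain ⟨k, hk, h1, h2⟩ := h g hg hgB A hA hAc
  exact ⟨k, hk, h1, fun e he => h2 e (hE he)⟩

theorem IndT.mono {A' B' : Set C} (h : M.IndT τ P A B) (hA : A' ⊆ A) (hB : B' ⊆ B) :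
    M.IndT τ P A' B' :=
  fun D hD hDc E hE hEc => h D (hD.trans (union_subset_union_right P hA)) hDc E (hE.trans hB) hEc

section sets

variable {D : Set C}

theorem mem_tr {x : D} : x ∈ tr D X ↔ (x : C) ∈ X := Iff.rfl

theorem tr_mono (h : X ⊆ Y) : tr D X ⊆ tr D Y := fun _ hx => h hx

theorem tr_union : tr D (X ∪ Y) = tr D X ∪ tr D Y := rfl

theorem image_tr (hX : X ⊆ D) : Subtype.val '' tr D X = X := by
  ext x
  constructor
  · rintro ⟨y, hy, rfl⟩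
    exact hy
  · intro hx
    exact ⟨⟨x, hX hx⟩, hx, rfl⟩

theorem mk_tr_le (X : Set C) : #(tr D X) ≤ #X :=
  mk_preimage_of_injective _ _ Subtype.val_injective

theorem mk_tr (hX : X ⊆ D) : #(tr D X) = #X := by
  have h1 : #(Subtype.val '' tr D X : Set C) = #(tr D X) := mk_image_eq Subtype.val_injective
  rw [← h1, image_tr hX]

theorem mk_val (A : Set D) : #(Subtype.val '' A : Set C) = #A :=
  mk_image_eq Subtype.val_injective

theorem val_sub {A : Set D} (hA : A ⊆ tr D X) : (Subtype.val '' A : Set C) ⊆ X := by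
  rintro _ ⟨a, ha, rfl⟩
  exact hA ha

theorem val_sub' (A : Set D) : (Subtype.val '' A : Set C) ⊆ D := by
  rintro _ ⟨a, -, rfl⟩
  exact a.2

theorem tr_val (A : Set D) : tr D (Subtype.val '' A) = A := by
  ext x
  constructor
  · rintro ⟨y, hy, h⟩
    rwa [← Subtype.ext h]
  · intro hx
    exact ⟨x, hx, rfl⟩

end sets

theorem small_union' {C' : Type u} {M' : PG C'} {A B : Set C} (hA : #A < M'.χ)
    (hB : #B < M'.χ) : #(A ∪ B : Set C) < M'.χ :=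
  (mk_union_le A B).trans_lt (add_lt_of_lt M'.hχ hA hB)

namespace Low

variable {D : Set C} {M' : PG D} (h : M.Low D M')

include h

theorem dn' {A : Set C} (hA : A ⊆ D) (hAc : #A < M'.χ) {g : Equiv.Perm C} (hg : g ∈ M.G)
    (hgA : ∀ a ∈ A, g a ∈ D) : ∃ g' ∈ M'.G, ∀ a : D, (a : C) ∈ A → (g' a : C) = g a := by
  obtain ⟨g', hg', h1⟩ := h.dn (tr D A) (by rwa [mk_tr hA]) g hg fun a ha => hgA a ha
  exact ⟨g', hg', fun a ha => h1 a ha⟩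

theorem up' {A : Set C} (hA : A ⊆ D) (hAc : #A < M'.χ) {g' : Equiv.Perm D} (hg' : g' ∈ M'.G) :
    ∃ g ∈ M.G, ∀ a : D, (a : C) ∈ A → g (a : C) = (g' a : C) := by
  obtain ⟨g, hg, h1⟩ := h.up (tr D A) (by rwa [mk_tr hA]) g' hg'
  exact ⟨g, hg, fun a ha => h1 a ha⟩

theorem isol_dn (hBc : #(tr D B) < M'.χ) (hEc : #(tr D E) < M'.χ) (hB : B ⊆ D)
    (hI : M.IsolT M'.χ B X E) : M'.Isol (tr D B) (tr D X) (tr D E) := by
  intro g' hg' hgB A hA hAc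
  obtain ⟨g, hg, h1⟩ := h.up (tr D B ∪ tr D E) (small_union hBc hEc) g' hg'
  obtain ⟨k, hk, h2, h3⟩ := hI g hg (fun b hb => by
    rw [h1 ⟨b, hB hb⟩ (Or.inl hb), hgB ⟨b, hB hb⟩ hb]) (Subtype.val '' A) (val_sub hA)
    (by rwa [mk_val])
  obtain ⟨k', hk', h4⟩ := h.dn (A ∪ tr D E) (small_union hAc hEc) k hk (by
    rintro a (ha | ha)
    · rw [h2 a ⟨a, ha, rfl⟩]
      exact a.2
    · rw [h3 a ha, h1 a (Or.inr ha)]
      exact (g' a).2)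
  refine ⟨k', hk', fun a ha => Subtype.ext ?_, fun e he => Subtype.ext ?_⟩
  · rw [h4 a (Or.inl ha), h2 a ⟨a, ha, rfl⟩]
  · rw [h4 e (Or.inr he), h3 e he, h1 e (Or.inr he)]

theorem isol_up (hBc : #B < M'.χ) (hEc : #E < M'.χ) (hB : B ⊆ D) (hE : E ⊆ D) (hX : X ⊆ D)
    (hI : M'.Isol (tr D B) (tr D X) (tr D E)) : M.IsolT M'.χ B X E := by
  intro g hg hgB A hA hAc
  obtain ⟨k, hk, h1, h2⟩ := h.rf (A ∪ B) (union_subset (hA.trans hX) hB)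
    (small_union' hAc hBc) (g '' E) (mk_image_le.trans_lt hEc)
  obtain ⟨t, ht, h3⟩ := h.dn' (A := B ∪ E) (union_subset hB hE) (small_union' hBc hEc)
    (M.G.mul_mem hk hg) (by
      rintro a (ha | ha)
      · rw [Equiv.Perm.mul_apply, hgB a ha, h1 a (Or.inr ha)]
        exact hB ha
      · exact h2 _ ⟨a, ha, rfl⟩)
  obtain ⟨s, hs, h4, h5⟩ := hI t ht (fun b hb => Subtype.ext (by
    rw [h3 b (Or.inl hb), Equiv.Perm.mul_apply, hgB b hb, h1 b (Or.inr hb)])) (tr D A)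
    (tr_mono hA) (by rwa [mk_tr (hA.trans hX)])
  obtain ⟨r, hr, h6⟩ := h.up' (A := A ∪ E) (union_subset (hA.trans hX) hE)
    (small_union' hAc hEc) hs
  refine ⟨k⁻¹ * r, M.G.mul_mem (M.G.inv_mem hk) hr, fun a ha => ?_, fun e he => ?_⟩
  · rw [Equiv.Perm.mul_apply, h6 ⟨a, hX (hA ha)⟩ (Or.inl ha), h4 ⟨a, hX (hA ha)⟩ ha]
    exact fix_inv (h1 a (Or.inl ha))
  · rw [Equiv.Perm.mul_apply, h6 ⟨e, hE he⟩ (Or.inr he), h5 ⟨e, hE he⟩ he,
      h3 ⟨e, hE he⟩ (Or.inr he), Equiv.Perm.mul_apply, inv_ap]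

theorem tv_dn (hX : X ⊆ D) (hT : M.TVT M'.χ X Y) : M'.TV (tr D X) (tr D Y) := by
  intro A hA hAc E hE hEc
  obtain ⟨g, hg, h1, h2⟩ := hT (Subtype.val '' A) (val_sub hA) (by rwa [mk_val])
    (Subtype.val '' E) (val_sub hE) (by rwa [mk_val])
  obtain ⟨g', hg', h3⟩ := h.dn (A ∪ E) (small_union hAc hEc) g hg (by
    rintro a (ha | ha)
    · rw [h1 a ⟨a, ha, rfl⟩]
      exact a.2
    · exact hX (h2 a ⟨a, ha, rfl⟩))
  refine ⟨g', hg', fun a ha => Subtype.ext ?_, fun e he => ?_⟩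
  · rw [h3 a (Or.inl ha), h1 a ⟨a, ha, rfl⟩]
  · change (g' e : C) ∈ X
    rw [h3 e (Or.inr he)]
    exact h2 e ⟨e, he, rfl⟩

theorem tv_up (hX : X ⊆ D) (hY : Y ⊆ D) (hT : M'.TV (tr D X) (tr D Y)) : M.TVT M'.χ X Y := by
  intro A hA hAc E hE hEc
  obtain ⟨g', hg', h1, h2⟩ := hT (tr D A) (tr_mono hA) (by rwa [mk_tr (hA.trans hX)])
    (tr D E) (tr_mono hE) (by rwa [mk_tr (hE.trans hY)])
  obtain ⟨g, hg, h3⟩ := h.up' (A := A ∪ E) (union_subset (hA.trans hX) (hE.trans hY))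
    (small_union' hAc hEc) hg'
  refine ⟨g, hg, fun a ha => ?_, fun e he => ?_⟩
  · rw [h3 ⟨a, hX (hA ha)⟩ (Or.inl ha), h1 ⟨a, hX (hA ha)⟩ ha]
  · rw [h3 ⟨e, hY (hE he)⟩ (Or.inr he)]
    exact h2 ⟨e, hY (hE he)⟩ he

theorem ind_dn (hP : P ⊆ D) (hI : M.IndT M'.χ P A B) : M'.Ind (tr D P) (tr D A) (tr D B) := by
  intro A' hA hAc B' hB hBc
  obtain ⟨g, hg, h1, h2⟩ := hI (Subtype.val '' A') (val_sub (by rwa [tr_union])) (by rwa [mk_val])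
    (Subtype.val '' B') (val_sub hB) (by rwa [mk_val])
  obtain ⟨g', hg', h3⟩ := h.dn (A' ∪ B') (small_union hAc hBc) g hg (by
    rintro a (ha | ha)
    · rw [h1 a ⟨a, ha, rfl⟩]
      exact a.2
    · exact hP (h2 a ⟨a, ha, rfl⟩))
  refine ⟨g', hg', fun a ha => Subtype.ext ?_, fun e he => ?_⟩
  · rw [h3 a (Or.inl ha), h1 a ⟨a, ha, rfl⟩]
  · change (g' e : C) ∈ P
    rw [h3 e (Or.inr he)]
    exact h2 e ⟨e, he, rfl⟩

theorem ind_up (hP : P ⊆ D) (hA : A ⊆ D) (hB : B ⊆ D)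
    (hI : M'.Ind (tr D P) (tr D A) (tr D B)) : M.IndT M'.χ P A B := by
  intro A' hA' hAc B' hB' hBc
  have h0 := union_subset hP hA
  obtain ⟨g', hg', h1, h2⟩ := hI (tr D A') (tr_mono hA') (by rwa [mk_tr (hA'.trans h0)])
    (tr D B') (tr_mono hB') (by rwa [mk_tr (hB'.trans hB)])
  obtain ⟨g, hg, h3⟩ := h.up' (A := A' ∪ B') (union_subset (hA'.trans h0) (hB'.trans hB))
    (small_union' hAc hBc) hg'
  refine ⟨g, hg, fun a ha => ?_, fun e he => ?_⟩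
  · rw [h3 ⟨a, h0 (hA' ha)⟩ (Or.inl ha), h1 ⟨a, h0 (hA' ha)⟩ ha]
  · rw [h3 ⟨e, hB (hB' he)⟩ (Or.inr he)]
    exact h2 ⟨e, hB (hB' he)⟩ he

theorem le_dn {f : C → C} {f' : D → D} (hf : ∀ x : D, (x : C) ∈ X → (f' x : C) = f x)
    (hL : M.LET M'.χ f X) : M'.LE f' (tr D X) := by
  intro A hA hAc
  obtain ⟨g, hg, h1⟩ := hL (Subtype.val '' A) (val_sub hA) (by rwa [mk_val])
  obtain ⟨g', hg', h2⟩ := h.dn A hAc g hg (fun a ha => by
    rw [h1 a ⟨a, ha, rfl⟩, ← hf a (hA ha)]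
    exact (f' a).2)
  exact ⟨g', hg', fun a ha => Subtype.ext (by rw [h2 a ha, h1 a ⟨a, ha, rfl⟩, hf a (hA ha)])⟩

theorem le_up {f : C → C} {f' : D → D} (hX : X ⊆ D)
    (hf : ∀ x : D, (x : C) ∈ X → (f' x : C) = f x) (hL : M'.LE f' (tr D X)) :
    M.LET M'.χ f X := by
  intro A hA hAc
  obtain ⟨g', hg', h1⟩ := hL (tr D A) (tr_mono hA) (by rwa [mk_tr (hA.trans hX)])
  obtain ⟨g, hg, h2⟩ := h.up' (hA.trans hX) hAc hg'
  refine ⟨g, hg, fun a ha => ?_⟩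
  rw [h2 ⟨a, hX (hA ha)⟩ ha, h1 ⟨a, hX (hA ha)⟩ ha]
  exact hf ⟨a, hX (hA ha)⟩ (hA ha)

/-- Atomic models of the lower level. -/
theorem atomic_dn {N X : Set C} (hN : tr D N ∈ M'.S) (hND : N ⊆ D) (hXN : X ⊆ N)
    (hiso : ∀ E ⊆ N, #E < M'.χ → ∃ B ⊆ X, #B < M'.χ ∧ M.IsolT M'.χ B X E) :
    M'.Atomic (tr D N) (tr D X) := by
  refine ⟨hN, tr_mono hXN, fun E hE hEc => ?_⟩
  obtain ⟨B, hB, hBc, hI⟩ := hiso (Subtype.val '' E) (val_sub hE) (by rwa [mk_val])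
  have hBD : B ⊆ D := (hB.trans hXN).trans hND
  refine ⟨tr D B, tr_mono hB, by rwa [mk_tr hBD], ?_⟩
  have h1 := h.isol_dn (B := B) (E := Subtype.val '' E) (X := X) (by rwa [mk_tr hBD])
    (by rwa [tr_val]) hBD hI
  rwa [tr_val] at h1

theorem atomic_up {N X : Set C} (hND : N ⊆ D) (hXN : X ⊆ N) (hA : M'.Atomic (tr D N) (tr D X)) :
    ∀ E ⊆ N, #E < M'.χ → ∃ B ⊆ X, #B < M'.χ ∧ M.IsolT M'.χ B X E := by
  intro E hE hEc
  obtain ⟨B, hB, hBc, hI⟩ := hA.iso (tr D E) (tr_mono hE) (by rwa [mk_tr (hE.trans hND)])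
  refine ⟨Subtype.val '' B, val_sub hB, by rwa [mk_val], ?_⟩
  refine h.isol_up (by rwa [mk_val]) hEc (val_sub' B) (hE.trans hND) (hXN.trans hND) ?_
  rwa [tr_val]

end Low

end PG

end Vale.Agent.P307.R2.H541
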